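import Vale.Agent.P182.H388.EB

/-!
# The symmetric map `B^* → B` is an isomorphism (without Kodaira–Spencer classes)
-/

namespace Vale.Agent.P182.H388

open LinearMap Submodule Module Vale.Agent.P182 Vale.Agent.P182.H430 Vale.Agent.P182.H668

variable {k F P : Type*} [Field k] [Field F] [Algebra k F] {C : Curve k F P}
variable {E : Type*} [AddCommGroup E] [Module F E] [Module k E] [IsScalarTower k F E]
  [FiniteDimensional F E]
variable {E₂ : Type*} [AddCommGroup E₂] [Module F E₂] [Module k E₂] [IsScalarTower k F E₂]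
  [FiniteDimensional F E₂]
variable {E₃ : Type*} [AddCommGroup E₃] [Module F E₃] [Module k E₃] [IsScalarTower k F E₃]
  [FiniteDimensional F E₃]

/-- (7a) without Kodaira–Spencer classes.  `A` is self-dual, `B` is a brick with dual `B'`,
proportional to `A` and orthogonal to it; `g : B' → B`, `s : B → B' K`, `(g s)² ≠ 0`.
Then `g` is an isomorphism. -/
theorem seven_a' {κ : P → ℤ} (hκ : Dualizing C κ) {A : Bun C E} {B : Bun C E₂} {B' : Bun C E₃}
    {T : E →ₗ[F] E →ₗ[F] F} (hT : DPair A A T) {T' : E₂ →ₗ[F] E₃ →ₗ[F] F} (hT' : DPair B B' T')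
    (hE : 0 < finrank F E) (hB : Brick B)
    (hm : ∀ p a, finrank F E₂ * mult (A.ch p) a = finrank F E * mult (B.ch p) a)
    (hd : (finrank F E₂ : ℤ) * dg A = finrank F E * dg B)
    (hAB0 : h0 (A.hom B).lat = 0) (hBA1 : h1 (B.hom A).lat = 0)
    {g : E₃ →ₗ[F] E₂} (hg : Mor B' B g) {s : E₂ →ₗ[F] E₃}
    (hs : ∀ p, s ∈ ((B.hom B').ch p).L (-κ p)) (hgs : (g ∘ₗ s) ∘ₗ (g ∘ₗ s) ≠ 0) :
    Function.Bijective g ∧ ∀ p b x, g x ∈ (B.ch p).L b → x ∈ (B'.ch p).L b := by
  -- the image
  let G : Bun C (E₃ ⧸ ker g) := B'.quo (ker g)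
  let π : E₃ →ₗ[F] (E₃ ⧸ ker g) := (ker g).mkQ
  let j : (E₃ ⧸ ker g) →ₗ[F] E₂ := (ker g).liftQ g le_rfl
  have hπ : Mor B' G π := mor_mkQ B' (ker g)
  have hπs : Function.Surjective π := (ker g).mkQ_surjective
  have hjπ : ∀ x, j (π x) = g x := fun x => rfl
  have hj : Mor G B j := by
    rintro p b _ ⟨x, hx, rfl⟩
    exact hg p b x hx
  have hji : Function.Injective j := LinearMap.ker_eq_bot.1 (Submodule.ker_liftQ_eq_bot _ _ _
    le_rfl)
  by_contra hcon
  -- `Hom (B, G) = 0`
  have hBG0 : h0 (B.hom G).lat = 0 := by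
    rw [h0_eq_zero_iff]
    intro f hf
    obtain ⟨c, hc⟩ := hB _ (hj.comp hf)
    have hc' : ∀ x, j (f x) = c • x := fun x => LinearMap.congr_fun hc x
    by_cases hc0 : c = 0
    · apply LinearMap.ext
      intro x
      apply hji
      rw [hc', hc0, zero_smul, LinearMap.zero_apply, map_zero]
    · exfalso
      apply hcon
      have hjs : Function.Surjective j := fun x => ⟨f (c⁻¹ • x), by
        rw [hc', smul_smul, mul_inv_cancel₀ hc0, one_smul]⟩
      have hgs : Function.Surjective g := fun x => by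
        obtain ⟨y, rfl⟩ := hjs x
        obtain ⟨z, rfl⟩ := hπs y
        exact ⟨z, rfl⟩
      have hgi : Function.Injective g := by
        refine (LinearMap.injective_iff_surjective_of_finrank_eq_finrank ?_).2 hgs
        rw [hT'.equiv.finrank_eq]
        exact Subspace.dual_finrank_eq (K := F) (V := E₂)
      refine ⟨⟨hgi, hgs⟩, fun p b x hx => ?_⟩
      have h1 : f (g x) ∈ (G.ch p).L b := hf p b _ hx
      have h2 : f (g x) = c • π x := by
        apply hji
        rw [hc', ← algebraMap_smul F c (π x), map_smul, algebraMap_smul, hjπ]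
      rw [h2] at h1
      have h3 : π x ∈ (G.ch p).L b := by
        have := Submodule.smul_mem _ c⁻¹ h1
        rwa [smul_smul, inv_mul_cancel₀ hc0, one_smul] at this
      obtain ⟨y, hy, hyx⟩ := h3
      have h4 : y = x := hgi (by rw [← hjπ, ← hjπ]; exact congrArg j hyx)
      rwa [← h4]
  -- `Ext (E, G) = 0` and `Hom (E, G) = 0`
  have t3 := hom_trs hT' hT
  have c3 := hj.h0_post_le hji A
  have c4 := hπ.h1_post_le hπs A
  have d2 : chi (A.hom G).lat = 0 := by
    unfold chi
    have := t3.2.1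
    omega
  have hE' : (finrank F E : ℤ) ≠ 0 := by exact_mod_cast hE.ne'
  have d3 : chi (B.hom G).lat = 0 := by
    have := chi_prop_left hκ A B hm hd G
    rw [d2, mul_zero] at this
    exact (mul_eq_zero.1 this.symm).resolve_left hE'
  have hBG1 : h1 (B.hom G).lat = 0 := by
    unfold chi at d3
    omega
  have hGG1 : h1 (G.hom G).lat = 0 := by
    have := hj.h1_pre_le hji G
    omega
  -- the restriction of `g s` to the image
  have hθ : ∀ p, π ∘ₗ (s ∘ₗ j) ∈ ((G.hom G).ch p).L (-κ p) := by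
    intro p
    have h1 : j ∈ ((G.hom B).ch p).L 0 := (Bun.mem_hom_lat G B p j).2 (hj p)
    have h2 : π ∈ ((B'.hom G).ch p).L 0 := (Bun.mem_hom_lat B' G p π).2 (hπ p)
    have h3 := LChain.comp_mem (G.ch p) (B.ch p) (B'.ch p) h1 (hs p)
    have h4 := LChain.comp_mem (G.ch p) (B'.ch p) (G.ch p) h3 h2
    rwa [zero_add, add_zero] at h4
  have hθ0 : π ∘ₗ (s ∘ₗ j) ≠ 0 := by
    intro h0
    apply hgs
    apply LinearMap.ext
    intro x
    have h1 := LinearMap.congr_fun h0 (π (s x))
    have h2 : π (s (g (s x))) = 0 := h1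
    show g (s (g (s x))) = 0
    rw [← hjπ, h2, map_zero]
  have := h1_pos_of_higgs hκ (A := G) (B := G) hθ hθ0
  omega

end Vale.Agent.P182.H388
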