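import Vale.Agent.P182.H668.ColDef

/-!
# Collapsing the levels which are not seen
-/

namespace Vale.Agent.P182.H668

open LinearMap Submodule Module Vale.Agent.P182 Vale.Agent.P182.H430 Vale.Agent.P182.H578

variable {k F P : Type*} [Field k] [Field F] [Algebra k F] {C : Curve k F P}

namespace Col

section arith

variable (c : Col C)

theorem grow (p : P) (i : ℤ) (n : ℕ) : c.φ p i + n ≤ c.φ p (i + n) := by
  induction n with
  | zero => simp
  | succ n ih =>
    have h1 := c.mono p (show i + n < i + (n + 1 : ℕ) by push_cast; omega)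
    push_cast at h1 ⊢
    omega

theorem shrink (p : P) (i : ℤ) (n : ℕ) : c.φ p (i - n) + n ≤ c.φ p i := by
  have := c.grow p (i - n) n
  rwa [sub_add_cancel] at this

theorem per_mul_nat (p : P) (i : ℤ) (n : ℕ) :
    c.φ p (i + c.m p * n) = c.φ p i + C.per p * n := by
  induction n with
  | zero => simp
  | succ n ih =>
    have h1 := c.per p (i + c.m p * n)
    rw [ih] at h1
    push_cast
    rw [show i + (c.m p : ℤ) * (n + 1) = i + c.m p * n + c.m p by ring, h1]
    ring

theorem per_mul (p : P) (i n : ℤ) : c.φ p (i + c.m p * n) = c.φ p i + C.per p * n := by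
  obtain ⟨m, rfl | rfl⟩ := n.eq_nat_or_neg
  · exact c.per_mul_nat p i m
  · have h1 := c.per_mul_nat p (i + c.m p * -(m : ℤ)) m
    rw [show i + (c.m p : ℤ) * -(m : ℤ) + c.m p * m = i by ring] at h1
    rw [h1]
    ring

/-- every level lies in exactly one block -/
theorem block (p : P) (a : ℤ) : ∃ i, c.φ p i ≤ a ∧ a < c.φ p (i + 1) := by
  obtain ⟨w, hw1, hw2⟩ := Int.exists_greatest_of_bdd (P := fun i => c.φ p i ≤ a)
    ⟨max 0 (a - c.φ p 0), fun i hi => by
      rcases le_or_gt i 0 with h | h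
      · exact le_max_of_le_left h
      · refine le_max_of_le_right ?_
        have h1 := c.grow p 0 i.toNat
        have h2 : (i.toNat : ℤ) = i := Int.toNat_of_nonneg h.le
        rw [h2, zero_add] at h1
        omega⟩
    ⟨-((c.φ p 0 - a).toNat : ℤ), by
      have h1 := c.shrink p 0 (c.φ p 0 - a).toNat
      have h2 : c.φ p 0 - a ≤ ((c.φ p 0 - a).toNat : ℤ) := Int.self_le_toNat _
      rw [zero_sub] at h1
      omega⟩
  exact ⟨w, hw1, by
    by_contra h
    have := hw2 (w + 1) (not_lt.1 h)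
    omega⟩

/-- at the places of period one nothing happens -/
theorem one {p : P} (h : C.per p = 1) : c.m p = 1 ∧ ∀ i, c.φ p i = i := by
  have h1 := c.grow p 0 (c.m p)
  have h2 := c.per p 0
  rw [h] at h2
  have h3 := c.pos p
  have hm : c.m p = 1 := by push_cast at h2; omega
  refine ⟨hm, ?_⟩
  have h4 : ∀ i, c.φ p (i + 1) = c.φ p i + 1 := by
    intro i
    have := c.per p i
    rw [hm, h] at this
    exact_mod_cast this
  have h5 : c.φ p 0 = 0 := by
    have h6 := c.refl p 0
    have h7 := h4 0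
    rw [zero_add] at h7
    rw [sub_zero] at h6
    omega
  intro i
  have h6 := c.per_mul p 0 i
  rw [hm, h, h5] at h6
  simpa using h6

theorem le_of_add_le {p : P} {i j o : ℤ} (h : c.φ p i + c.φ p j ≤ C.per p * o) :
    i + j ≤ c.m p * o := by
  by_contra hc
  have h1 : 1 - j + c.m p * o ≤ i := by omega
  have h2 := (c.mono p).monotone h1
  rw [c.per_mul, c.refl] at h2
  omega

theorem add_le_of_le {p : P} {i j o b : ℤ} (h : i + j ≤ c.m p * o) (hb : b < c.φ p (j + 1)) :
    c.φ p i + b ≤ C.per p * o := by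
  have h1 : i ≤ 1 - (j + 1) + c.m p * o := by omega
  have h2 := (c.mono p).monotone h1
  rw [c.per_mul, c.refl] at h2
  omega

theorem mem_M {p : P} {i j : ℤ} {f : F}
    (h : f ∈ (C.pl p).M (C.per p) (c.φ p i + c.φ p j)) : f ∈ (C.pl p).M (c.m p) (i + j) := by
  rcases h with h | h
  · exact Or.inl h
  · exact Or.inr (c.le_of_add_le h)

theorem mem_M' {p : P} {i j b : ℤ} {f : F} (h : f ∈ (C.pl p).M (c.m p) (i + j))
    (hb : b < c.φ p (j + 1)) : f ∈ (C.pl p).M (C.per p) (c.φ p i + b) := by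
  rcases h with h | h
  · exact Or.inl h
  · exact Or.inr (c.add_le_of_le h hb)

end arith

variable (c : Col C)

/-- the curve with fewer levels -/
@[reducible] def curve : Curve k F P where
  pl := C.pl
  per := c.m
  per_pos := c.pos
  per_ae := C.per_ae.subset fun _ hp h => hp (c.one h).1
  ord_ae := C.ord_ae
  H0 := C.H0
  H1 := C.H1

/-- the canonical weight on the collapsed curve -/
noncomputable def kap (κ : P → ℤ) (p : P) : ℤ := κ p / C.per p * c.m p + (c.m p - 1)

variable {κ : P → ℤ}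

theorem kap_div (p : P) : c.kap κ p / c.m p = κ p / C.per p := by
  have h := c.pos p
  unfold kap
  rw [add_comm, Int.add_mul_ediv_right _ _ (by omega),
    Int.ediv_eq_zero_of_lt (by omega) (by omega), zero_add]

/-- the collapsed curve has the collapsed canonical weight -/
theorem dualizing (hκ : Dualizing C κ) : Dualizing c.curve (c.kap κ) where
  fin := by
    refine (hκ.fin.union C.per_ae).subset ?_
    intro p hp
    by_contra h
    simp only [Set.mem_union, Set.mem_ofPred_eq, not_or, not_not] at h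
    apply hp
    unfold kap
    rw [h.1, h.2, (c.one h.2).1]
    simp
  cong p := by
    have h := c.pos p
    show c.kap κ p % c.m p = c.m p - 1
    unfold kap
    rw [add_comm, Int.add_mul_emod_self_right]
    exact Int.emod_eq_of_lt (by omega) (by omega)
  deg := by
    rw [← hκ.deg]
    unfold Curve.deg
    exact finsum_congr fun p => c.kap_div p

theorem kap_eq (hκ : Dualizing C κ) (p : P) :
    κ p = C.per p * (κ p / C.per p) + (C.per p - 1) := by
  have h := Int.emod_add_mul_ediv (κ p) (C.per p)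
  rw [hκ.cong] at h
  linarith

theorem phi_kap (hκ : Dualizing C κ) (p : P) (i : ℤ) :
    c.φ p (i + -c.kap κ p) = c.φ p (i + 1) - 1 - κ p := by
  have e1 := kap_eq hκ p
  have e2 : i + -c.kap κ p = i + 1 + c.m p * -(κ p / C.per p + 1) := by
    unfold kap
    ring
  rw [e2, c.per_mul]
  have e3 : (C.per p : ℤ) * -(κ p / C.per p + 1) = -κ p - 1 := by
    rw [mul_neg, mul_add, mul_one]
    linarith
  rw [e3]
  ring

theorem mem_MV (hκ : Dualizing C κ) {p : P} {i j : ℤ} {f : F}
    (h : f ∈ (C.pl p).M (C.per p) (c.φ p i + (c.φ p (j + 1) - 1) - κ p)) :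
    f ∈ (C.pl p).M (c.m p) (i + j - c.kap κ p) := by
  rcases h with h | h
  · exact Or.inl h
  · right
    have h1 := kap_eq hκ p
    have h2 : c.φ p i + c.φ p (j + 1) ≤ C.per p * ((C.pl p).ord f + κ p / C.per p + 1) := by
      rw [mul_add, mul_add, mul_one]
      linarith
    have h3 := c.le_of_add_le h2
    unfold kap
    rw [mul_add, mul_add, mul_one] at h3
    rw [mul_comm (κ p / (C.per p : ℤ)) (c.m p : ℤ)]
    linarith

theorem mem_MV' (hκ : Dualizing C κ) {p : P} {i j b : ℤ} {f : F}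
    (h : f ∈ (C.pl p).M (c.m p) (i + j - c.kap κ p)) (hb : b < c.φ p (j + 1)) :
    f ∈ (C.pl p).M (C.per p) (c.φ p i + b - κ p) := by
  rcases h with h | h
  · exact Or.inl h
  · right
    have h1 := kap_eq hκ p
    unfold kap at h
    have h2 : i + (j + 1) ≤ c.m p * ((C.pl p).ord f + κ p / C.per p + 1) := by
      rw [mul_add, mul_add, mul_one]
      rw [mul_comm (κ p / (C.per p : ℤ)) (c.m p : ℤ)] at h
      linarith
    have h3 : b + 1 < c.φ p (j + 1 + 1) := by
      have := c.mono p (show j + 1 < j + 1 + 1 by omega)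
      omega
    have h4 := c.add_le_of_le h2 h3
    rw [mul_add, mul_add, mul_one] at h4
    linarith

variable {E : Type*} [AddCommGroup E] [Module F E] [Module k E]

/-- the collapsed chain -/
def chain (p : P) (L : LChain (C.pl p) (C.per p) E) : LChain (C.pl p) (c.m p) E where
  L i := L.L (c.φ p i)
  pos := c.pos p
  anti a b h := L.anti _ _ ((c.mono p).monotone h)
  smul_iff f hf a x := by
    rw [L.smul_iff f hf, show a - (c.m p : ℤ) * (C.pl p).ord f =
      a + c.m p * -(C.pl p).ord f by ring, c.per_mul,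
      show c.φ p a + (C.per p : ℤ) * -(C.pl p).ord f =
      c.φ p a - C.per p * (C.pl p).ord f by ring]
  exhaust x := by
    obtain ⟨a, ha⟩ := L.exhaust x
    obtain ⟨i, hi, -⟩ := c.block p a
    exact ⟨i, L.anti _ _ hi ha⟩
  bdd ψ := by
    obtain ⟨B, hB⟩ := L.bdd ψ
    obtain ⟨j, hj, -⟩ := c.block p B
    refine ⟨j, fun i x hx => c.mem_M ?_⟩
    exact (C.pl p).M_anti (by linarith) (hB _ x hx)

/-- the collapsed bundle -/
def bun (A : Bun C E) : Bun c.curve E where
  ch p := c.chain p (A.ch p)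
  std := by
    obtain ⟨n, b, hb⟩ := A.std
    refine ⟨n, b, ?_⟩
    have h1 : ∀ᶠ p in Filter.cofinite, C.per p = 1 := by
      rw [Filter.eventually_cofinite]
      exact C.per_ae
    filter_upwards [hb, h1] with p h2 h3
    obtain ⟨h4, h5⟩ := c.one h3
    intro a x
    show x ∈ (A.ch p).L (c.φ p a) ↔ ∀ i, b.repr x i ∈ (C.pl p).M (c.m p) (a - 0)
    rw [h5, h2 a x, h4, h3]
    rfl

theorem mem_bun {A : Bun C E} {p : P} {i : ℤ} {x : E} :
    x ∈ ((c.bun A).ch p).L i ↔ x ∈ (A.ch p).L (c.φ p i) := Iff.rfl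

variable [IsScalarTower k F E]

theorem bun_sub (A : Bun C E) (G : Submodule F E) : c.bun (A.sub G) = (c.bun A).sub G := rfl

theorem bun_quo (A : Bun C E) (G : Submodule F E) : c.bun (A.quo G) = (c.bun A).quo G := rfl

section hom

variable [FiniteDimensional F E]
variable {W : Type*} [AddCommGroup W] [Module F W] [Module k W] [IsScalarTower k F W]
  [FiniteDimensional F W]

/-- homomorphisms to a flat bundle do not change -/
theorem hom_lat {M : Bun C W} (hM : c.Flat M) (A : Bun C E) :
    ((c.bun A).hom (c.bun M)).lat = (A.hom M).lat := by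
  funext p
  ext f
  rw [Bun.mem_hom_lat, Bun.mem_hom_lat]
  constructor
  · intro h a x hx
    obtain ⟨i, hi, hi'⟩ := c.block p a
    exact hM p i a hi hi' (h i x ((A.ch p).anti _ _ hi hx))
  · intro h i x hx
    exact h _ x hx

theorem noHom_iff {M : Bun C W} (hM : c.Flat M) (A : Bun C E) :
    NoHom (c.bun A) (c.bun M) ↔ NoHom A M := by
  unfold NoHom
  rw [c.hom_lat hM]

/-- homomorphisms give homomorphisms -/
theorem hom_le (A : Bun C E) (M : Bun C W) (p : P) :
    (A.hom M).lat p ≤ ((c.bun A).hom (c.bun M)).lat p := by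
  intro f h
  rw [Bun.mem_hom_lat] at h ⊢
  intro i x hx
  exact h _ x hx

end hom

end Col

section ext

variable {E : Type*} [AddCommGroup E] [Module F E] [Module k E]

theorem chain_ext {Q : Place k F} {m : ℕ} {L L' : LChain Q m E} (h : ∀ a, L.L a = L'.L a) :
    L = L' := by
  have h1 : L.L = L'.L := funext h
  cases L
  cases L'
  subst h1
  rfl

theorem bun_ext {A B : Bun C E} (h : ∀ p a, (A.ch p).L a = (B.ch p).L a) : A = B := by
  have h1 : A.ch = B.ch := funext fun p => chain_ext (h p)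
  cases A
  cases B
  subst h1
  rfl

end ext

namespace Col

variable (c : Col C) {κ : P → ℤ}
variable {E : Type*} [AddCommGroup E] [Module F E] [Module k E] [IsScalarTower k F E]
  [FiniteDimensional F E]
variable {W : Type*} [AddCommGroup W] [Module F W] [Module k W] [IsScalarTower k F W]
  [FiniteDimensional F W]
variable {U : Type*} [AddCommGroup U] [Module F U] [Module k U] [IsScalarTower k F U]
  [FiniteDimensional F U]

omit [IsScalarTower k F E] [FiniteDimensional F E] in
/-- orthogonal bundles stay orthogonal -/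
theorem orth {N : Bun C E} {B : LinearMap.BilinForm F E} (h : Orth N B) : Orth (c.bun N) B where
  dual := by
    intro p i x
    constructor
    · intro hx j y hy
      exact c.mem_M ((h.dual p _ x).1 hx _ y hy)
    · intro hx
      show x ∈ (N.ch p).L (c.φ p i)
      rw [h.dual p]
      intro b y hy
      obtain ⟨j, hj, hj'⟩ := c.block p b
      exact c.mem_M' (hx j y ((N.ch p).anti _ _ hj hy)) hj'
  symm := h.symm
  nd := h.nd

omit [IsScalarTower k F W] [FiniteDimensional F W] [IsScalarTower k F U]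
  [FiniteDimensional F U] in
/-- perfect pairings on the other side, when the first bundle is flat -/
theorem pairV_mem (hκ : Dualizing C κ) {S : Bun C W} {S' : Bun C U} {q : W →ₗ[F] U →ₗ[F] F}
    (hS : c.Flat S) (hmem : ∀ p a y, y ∈ (S'.ch p).L a ↔
      ∀ b x, x ∈ (S.ch p).L b → q x y ∈ (C.pl p).M (C.per p) (b + a - κ p)) (p : P) (i : ℤ)
    (y : U) : y ∈ ((c.bun S').ch p).L i ↔
      ∀ j x, x ∈ ((c.bun S).ch p).L j → q x y ∈ (C.pl p).M (c.m p) (j + i - c.kap κ p) := by
  constructor
  · intro hy j x hx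
    have h1 : x ∈ (S.ch p).L (c.φ p (j + 1) - 1) := by
      have h2 := c.mono p (show j < j + 1 by omega)
      exact hS p j _ (by omega) (by omega) hx
    rw [add_comm j i]
    refine c.mem_MV hκ ?_
    have h3 := (hmem p _ y).1 hy _ x h1
    rwa [add_comm (c.φ p (j + 1) - 1)] at h3
  · intro hy
    show y ∈ (S'.ch p).L (c.φ p i)
    rw [hmem]
    intro b x hx
    obtain ⟨j, hj, hj'⟩ := c.block p b
    rw [add_comm b]
    refine c.mem_MV' hκ ?_ hj'
    have h1 := hy j x ((S.ch p).anti _ _ hj hx)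
    rwa [add_comm j i] at h1

omit [IsScalarTower k F W] [IsScalarTower k F U] [FiniteDimensional F W]
  [FiniteDimensional F U] in
theorem pairV (hκ : Dualizing C κ) {S : Bun C W} {S' : Bun C U} {q : W →ₗ[F] U →ₗ[F] F}
    (hS : c.Flat S) (h : DPairV κ S S' q) : DPairV (c.kap κ) (c.bun S) (c.bun S') q :=
  ⟨h.bij, c.pairV_mem hκ hS h.mem⟩

omit [IsScalarTower k F W] [FiniteDimensional F W] in
/-- orthogonal bundles on the other side -/
theorem orthV (hκ : Dualizing C κ) {M : Bun C W} {q : LinearMap.BilinForm F W} (hM : c.Flat M)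
    (h : OrthV κ M q) : OrthV (c.kap κ) (c.bun M) q where
  dual := by
    intro p i x
    have h1 : ∀ p a y, y ∈ (M.ch p).L a ↔
        ∀ b x, x ∈ (M.ch p).L b → q x y ∈ (C.pl p).M (C.per p) (b + a - κ p) := by
      intro p a y
      rw [h.dual p a y]
      refine forall_congr' fun b => forall_congr' fun x => imp_congr_right fun _ => ?_
      rw [h.symm, add_comm a b]
    rw [c.pairV_mem hκ hM h1 p i x]
    refine forall_congr' fun b => forall_congr' fun y => imp_congr_right fun _ => ?_
    rw [h.symm, add_comm i b]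
  symm := h.symm
  nd := h.nd

/-- the dual of a flat bundle -/
theorem dV_eq (hκ : Dualizing C κ) {S : Bun C W} (hS : c.Flat S) :
    c.bun (dV hκ S) = dV (c.dualizing hκ) (c.bun S) := by
  apply bun_ext
  intro p i
  ext ξ
  have h1 : ∀ p a (ξ : Dual F W), ξ ∈ ((dV hκ S).ch p).L a ↔
      ∀ b x, x ∈ (S.ch p).L b →
        (LinearMap.id : Dual F W →ₗ[F] Dual F W).flip x ξ ∈
          (C.pl p).M (C.per p) (b + a - κ p) := by
    intro p a ξ
    rw [mem_dV]
    refine forall_congr' fun b => forall_congr' fun x => imp_congr_right fun _ => ?_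
    rw [add_comm a b]
    rfl
  rw [c.pairV_mem hκ hS h1 p i ξ, mem_dV]
  refine forall_congr' fun b => forall_congr' fun x => imp_congr_right fun _ => ?_
  rw [add_comm i b]
  rfl

/-- the dual of a flat bundle is flat -/
theorem flat_dV (hκ : Dualizing C κ) {S : Bun C W} (hS : c.Flat S) : c.Flat (dV hκ S) := by
  intro p i a hi hi' ξ hξ
  rw [mem_dV] at hξ ⊢
  intro b y hy
  obtain ⟨j, hj, hj'⟩ := c.block p b
  have h1 : y ∈ (S.ch p).L (c.φ p (j + 1) - 1) :=
    hS p j _ (by omega) (by omega) ((S.ch p).anti _ _ hj hy)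
  have h2 := c.mem_MV hκ (hξ _ y h1)
  have h3 : i + j = j + i := add_comm _ _
  rw [h3] at h2
  have h4 := c.mem_MV' hκ h2 hi'
  have h5 : c.φ p j + a - κ p = a + c.φ p j - κ p := by ring
  -- the block of `b`
  rcases h2 with h2 | h2
  · exact Or.inl h2
  · right
    have e1 := kap_eq hκ p
    unfold kap at h2
    have h6 : i + 1 + j ≤ c.m p * ((C.pl p).ord (ξ y) + κ p / C.per p + 1) := by
      rw [mul_add, mul_add, mul_one]
      rw [mul_comm (κ p / (C.per p : ℤ)) (c.m p : ℤ)] at h2
      linarith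
    have h7 := c.add_le_of_le (b := b) h6 hj'
    rw [mul_add, mul_add, mul_one] at h7
    linarith

omit [IsScalarTower k F E] [FiniteDimensional F E] in
/-- versality passes to the collapsed bundle -/
theorem vv {N : Bun C E} {B : LinearMap.BilinForm F E} (h : VV N B) : VV (c.bun N) B := by
  intro p a ha
  obtain ⟨δ, D, h1, h2, h3, h4⟩ := h p a ha
  have key : ∀ q b, (c.m q = 1 → b = 0) → (C.per q = 1 → c.φ q b = 0) := by
    intro q b hb hq
    obtain ⟨hm, hφ⟩ := c.one hq
    rw [hφ, hb hm]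
  exact ⟨δ, D, h1, h2, fun q hq b hb y hy => h3 q hq _ (key q b hb) y hy,
    fun b hb y hy => h4 _ (key p b hb) y hy⟩

/-- a Higgs field of the collapsed bundle is a Higgs field -/
theorem higgs (hκ : Dualizing C κ) {N : Bun C E} {Θ : E →ₗ[F] E}
    (h : Higgs (c.kap κ) (c.bun N) Θ) : Higgs κ N Θ := by
  replace h := mem_HZ.1 h
  refine mem_HZ.2 fun p => ?_
  have h1 : ∀ i x, x ∈ (N.ch p).L (c.φ p i) → Θ x ∈ (N.ch p).L (c.φ p (i + -c.kap κ p)) := h p
  show ∀ b x, x ∈ (N.ch p).L b → Θ x ∈ (N.ch p).L (b + -κ p)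
  intro b x hx
  obtain ⟨i, hi, hi'⟩ := c.block p b
  refine (N.ch p).anti _ _ ?_ (h1 i x ((N.ch p).anti _ _ hi hx))
  rw [c.phi_kap hκ]
  omega

/-- a Higgs field is a Higgs field of the collapsed bundle -/
theorem higgs' (hκ : Dualizing C κ) {M : Bun C W} (hM : c.Flat M) {Θ : W →ₗ[F] W}
    (h : Higgs κ M Θ) : Higgs (c.kap κ) (c.bun M) Θ := by
  replace h := mem_HZ.1 h
  refine mem_HZ.2 fun p => ?_
  have h1 : ∀ b x, x ∈ (M.ch p).L b → Θ x ∈ (M.ch p).L (b + -κ p) := h p
  show ∀ i x, x ∈ (M.ch p).L (c.φ p i) → Θ x ∈ (M.ch p).L (c.φ p (i + -c.kap κ p))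
  intro i x hx
  have h2 := c.mono p (show i < i + 1 by omega)
  have h3 := h1 _ x (hM p i (c.φ p (i + 1) - 1) (by omega) (by omega) hx)
  rw [c.phi_kap hκ]
  refine (M.ch p).anti _ _ ?_ h3
  omega

/-- Higgs fields which see only the levels of a flat bundle -/
theorem higgs_of_seen (hκ : Dualizing C κ) {N : Bun C E} {M : Bun C W} (hM : c.Flat M)
    {Θ : E →ₗ[F] E} (h : ∀ p a b, (M.ch p).L a ≤ (M.ch p).L b → ∀ e ∈ (N.ch p).L a,
      Θ e ∈ (N.ch p).L (b - κ p)) : Higgs (c.kap κ) (c.bun N) Θ := by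
  refine mem_HZ.2 fun p => ?_
  show ∀ i x, x ∈ (N.ch p).L (c.φ p i) → Θ x ∈ (N.ch p).L (c.φ p (i + -c.kap κ p))
  intro i x hx
  have h2 := c.mono p (show i < i + 1 by omega)
  rw [c.phi_kap hκ]
  exact h p _ (c.φ p (i + 1) - 1) (hM p i _ (by omega) (by omega)) x hx

/-- composite Higgs fields through a flat bundle -/
theorem higgs_comp (hκ : Dualizing C κ) {N : Bun C E} {M : Bun C W} (hM : c.Flat M)
    {f : E →ₗ[F] W} (hf : ∀ p, f ∈ (N.hom M).lat p) {g : W →ₗ[F] E}
    (hg : ∀ p b x, x ∈ (M.ch p).L b → g x ∈ (N.ch p).L (b - κ p)) :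
    Higgs (c.kap κ) (c.bun N) (g ∘ₗ f) := by
  refine mem_HZ.2 fun p => ?_
  show ∀ i x, x ∈ (N.ch p).L (c.φ p i) → g (f x) ∈ (N.ch p).L (c.φ p (i + -c.kap κ p))
  intro i x hx
  have h2 := c.mono p (show i < i + 1 by omega)
  have h0 := (Bun.mem_hom_lat N M p f).1 (hf p) _ x hx
  have h3 := hg p _ _ (hM p i (c.φ p (i + 1) - 1) (by omega) (by omega) h0)
  rw [c.phi_kap hκ]
  refine (N.ch p).anti _ _ ?_ h3
  omega

end Col

end Vale.Agent.P182.H668
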