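import Mathlib.RingTheory.Smooth.Field
import Mathlib.RingTheory.LaurentSeries
import Mathlib.RingTheory.PowerSeries.Derivative
import Mathlib.Algebra.TrivSqZeroExt.Basic
import Vale.Agent.P182.H62.BCfg

/-!
# Extension of derivations to field extensions and Laurent series

`leib_ext`: additive Leibniz maps extend along formally smooth extensions of rings;
`dExt`: `DExt L L'` for all extensions of fields of characteristic zero; `DExt.trans`;
`laurent_coef`, `laurent_dtau`: coefficientwise extension to `L((τ))` and `d/dτ`.
-/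

open scoped PowerSeries LaurentSeries

namespace Vale.Agent.P182.H388

universe u v

/-- additive Leibniz maps -/
def Leib {R : Type*} [CommRing R] (d : R →+ R) : Prop := ∀ a b, d (a * b) = d a * b + a * d b

theorem Leib.one {R : Type*} [CommRing R] {d : R →+ R} (h : Leib d) : d 1 = 0 := by
  have := h 1 1
  simpa using this

/-- dual numbers -/
def DN (S : Type v) [CommRing S] : Type v := TrivSqZeroExt S S

instance (S : Type v) [CommRing S] : CommRing (DN S) :=
  inferInstanceAs (CommRing (TrivSqZeroExt S S))

namespace DN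

variable {S : Type v} [CommRing S]

/-- the constant part -/
def re (x : DN S) : S := TrivSqZeroExt.fst (R := S) (M := S) x

/-- the infinitesimal part -/
def im (x : DN S) : S := TrivSqZeroExt.snd (R := S) (M := S) x

/-- `a + ε b` -/
def mk (a b : S) : DN S := ((a, b) : S × S)

theorem ext {x y : DN S} (h : x.re = y.re) (h' : x.im = y.im) : x = y :=
  TrivSqZeroExt.ext h h'

@[simp] theorem re_mk (a b : S) : (mk a b).re = a := rfl
@[simp] theorem im_mk (a b : S) : (mk a b).im = b := rfl
@[simp] theorem re_zero : (0 : DN S).re = 0 := rfl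
@[simp] theorem im_zero : (0 : DN S).im = 0 := rfl
@[simp] theorem re_one : (1 : DN S).re = 1 := rfl
@[simp] theorem im_one : (1 : DN S).im = 0 := rfl
@[simp] theorem re_add (x y : DN S) : (x + y).re = x.re + y.re := rfl
@[simp] theorem im_add (x y : DN S) : (x + y).im = x.im + y.im := rfl
@[simp] theorem re_mul (x y : DN S) : (x * y).re = x.re * y.re := rfl
@[simp] theorem im_mul (x y : DN S) : (x * y).im = x.im * y.re + x.re * y.im := by
  have h : (x * y).im = x.re • y.im + MulOpposite.op y.re • x.im := rfl
  rw [h, smul_eq_mul, MulOpposite.smul_eq_mul_unop, MulOpposite.unop_op]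
  ring

end DN

section

variable {R : Type u} {S : Type v} [CommRing R] [CommRing S] [Algebra R S]

/-- the ring map `a ↦ a + ε d a` -/
def dnHom (d : R →+ R) (h : Leib d) : R →+* DN S where
  toFun a := DN.mk (algebraMap R S a) (algebraMap R S (d a))
  map_one' := DN.ext (by simp) (by simp [h.one])
  map_zero' := DN.ext (by simp) (by simp)
  map_add' a b := DN.ext (by simp) (by simp)
  map_mul' a b := DN.ext (by simp) (by simp [h a b])

/-- **Additive Leibniz maps extend along formally smooth extensions.** -/
theorem leib_ext [Algebra.FormallySmooth R S] (d : R →+ R) (h : Leib d) :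
    ∃ d' : S →+ S, Leib d' ∧ ∀ a, d' (algebraMap R S a) = algebraMap R S (d a) := by
  let _ : Algebra R (DN S) := (dnHom d h).toAlgebra
  have hmap : ∀ a : R, algebraMap R (DN S) a = DN.mk (algebraMap R S a) (algebraMap R S (d a)) :=
    fun a => rfl
  let g : DN S →ₐ[R] S :=
    { toFun := DN.re
      map_one' := DN.re_one
      map_mul' := DN.re_mul
      map_zero' := DN.re_zero
      map_add' := DN.re_add
      commutes' := fun a => by rw [hmap, DN.re_mk] }
  have hg : Function.Surjective g := fun x => ⟨DN.mk x 0, rfl⟩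
  have hk : IsNilpotent (RingHom.ker (g : DN S →+* S)) := by
    refine ⟨2, ?_⟩
    rw [pow_two, Ideal.zero_eq_bot, eq_bot_iff, Ideal.mul_le]
    intro x hx y hy
    have hx' : x.re = 0 := hx
    have hy' : y.re = 0 := hy
    rw [Ideal.mem_bot]
    exact DN.ext (by simp [hx']) (by simp [hx', hy'])
  let f : S →ₐ[R] DN S := Algebra.FormallySmooth.liftOfSurjective (AlgHom.id R S) g hg hk
  have hf : ∀ x, (f x).re = x := fun x =>
    Algebra.FormallySmooth.liftOfSurjective_apply (AlgHom.id R S) g hg hk x
  refine ⟨{ toFun := fun x => (f x).im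
            map_zero' := by rw [map_zero, DN.im_zero]
            map_add' := fun x y => by rw [map_add, DN.im_add] }, ?_, ?_⟩
  · intro x y
    change (f (x * y)).im = (f x).im * y + x * (f y).im
    rw [map_mul, DN.im_mul, hf, hf]
  · intro a
    change (f (algebraMap R S a)).im = _
    rw [f.commutes, hmap, DN.im_mk]

end

/-- Extensions of fields of characteristic zero are formally smooth. -/
theorem formallySmooth (K : Type u) (L : Type v) [Field K] [Field L] [Algebra K L] [CharZero K] :
    Algebra.FormallySmooth K L := by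
  obtain ⟨s, hs⟩ := exists_isTranscendenceBasis K L
  have h1 : Algebra.IsAlgebraic
      (IntermediateField.adjoin K (Set.range ((↑) : s → L))) L := hs.isAlgebraic_field
  exact .of_algebraicIndependent_of_isSeparable hs.1

/-- **Derivations extend to every extension of a field of characteristic zero.** -/
theorem dExt (L L' : Type u) [Field L] [Field L'] [Algebra L L'] [CharZero L] :
    H62.DExt L L' := by
  intro d h
  have := formallySmooth L L'
  exact leib_ext (R := L) (S := L') d h

theorem _root_.Vale.Agent.P182.H62.DExt.trans {L L' L'' : Type u} [Field L] [Field L'] [Field L'']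
    [Algebra L L'] [Algebra L' L''] [Algebra L L''] [IsScalarTower L L' L'']
    (h : H62.DExt L L') (h' : H62.DExt L' L'') : H62.DExt L L'' := by
  intro d hd
  obtain ⟨d', h1, h2⟩ := h d hd
  obtain ⟨d'', h3, h4⟩ := h' d' h1
  refine ⟨d'', h3, fun a => ?_⟩
  rw [IsScalarTower.algebraMap_apply L L' L'', h4, h2, ← IsScalarTower.algebraMap_apply L L' L'']

/-! ### Power series and Laurent series -/

section laurent

variable {L : Type u} [Field L]

/-- the coefficientwise extension to power series -/
noncomputable def coefD (d : L →+ L) : L⟦X⟧ →+ L⟦X⟧ where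
  toFun f := PowerSeries.mk fun n => d (PowerSeries.coeff n f)
  map_zero' := by ext n; simp
  map_add' f g := by ext n; simp

@[simp] theorem coeff_coefD (d : L →+ L) (f : L⟦X⟧) (n : ℕ) :
    PowerSeries.coeff n (coefD d f) = d (PowerSeries.coeff n f) := by
  simp [coefD]

theorem leib_coefD {d : L →+ L} (h : Leib d) : Leib (coefD d) := by
  intro f g
  ext n
  rw [coeff_coefD, PowerSeries.coeff_mul, map_add, PowerSeries.coeff_mul, PowerSeries.coeff_mul,
    map_sum, ← Finset.sum_add_distrib]
  exact Finset.sum_congr rfl fun x _ => by rw [h, coeff_coefD, coeff_coefD]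

@[simp] theorem coefD_C (d : L →+ L) (a : L) :
    coefD d (PowerSeries.C a) = PowerSeries.C (d a) := by
  ext n
  rw [coeff_coefD, PowerSeries.coeff_C, PowerSeries.coeff_C]
  split_ifs
  · rfl
  · exact map_zero d

theorem coefD_X {d : L →+ L} (h : Leib d) : coefD d (PowerSeries.X : L⟦X⟧) = 0 := by
  ext n
  rw [coeff_coefD, PowerSeries.coeff_X, map_zero]
  split_ifs
  · exact h.one
  · exact map_zero d

instance : Algebra.FormallySmooth L⟦X⟧ L⸨X⸩ :=
  .of_isLocalization (Submonoid.powers (PowerSeries.X : L⟦X⟧))

/-- **The coefficientwise extension of `d` to Laurent series.** -/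
theorem laurent_coef {d : L →+ L} (h : Leib d) : ∃ d' : L⸨X⸩ →+ L⸨X⸩, Leib d' ∧
    ∀ f : L⟦X⟧, d' (algebraMap L⟦X⟧ L⸨X⸩ f) = algebraMap L⟦X⟧ L⸨X⸩ (coefD d f) :=
  leib_ext (coefD d) (leib_coefD h)

/-- **`d/dτ` on Laurent series.** -/
theorem laurent_dtau : ∃ D : L⸨X⸩ →+ L⸨X⸩, Leib D ∧
    ∀ f : L⟦X⟧, D (algebraMap L⟦X⟧ L⸨X⸩ f) =
      algebraMap L⟦X⟧ L⸨X⸩ (PowerSeries.derivative L f) := by
  refine leib_ext (R := L⟦X⟧) ((PowerSeries.derivative L : L⟦X⟧ → L⟦X⟧) |> fun _ =>
    (PowerSeries.derivative L).toLinearMap.toAddMonoidHom) ?_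
  intro a b
  change PowerSeries.derivative L (a * b) = PowerSeries.derivative L a * b +
    a * PowerSeries.derivative L b
  rw [Derivation.leibniz, smul_eq_mul, smul_eq_mul]
  ring

end laurent

/-! ### The forms used by `H62/Gen` -/

section frac

variable {L L1 : Type u} [Field L] [Field L1] [Algebra (PowerSeries L) L1]
  [IsFractionRing (PowerSeries L) L1]

variable (L L1) in
theorem smooth_frac : Algebra.FormallySmooth (PowerSeries L) L1 :=
  .of_isLocalization (nonZeroDivisors (PowerSeries L))

/-- the coefficientwise extension of a derivation to the fraction field of `L[[τ]]` -/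
theorem exists_coeffwise (d : L →+ L) (hd : ∀ a b, d (a * b) = d a * b + a * d b) :
    ∃ d' : L1 →+ L1, (∀ a b, d' (a * b) = d' a * b + a * d' b) ∧
      ∀ φ : PowerSeries L, d' (algebraMap (PowerSeries L) L1 φ) =
        algebraMap (PowerSeries L) L1 (PowerSeries.mk fun n => d (PowerSeries.coeff n φ)) := by
  have := smooth_frac L L1
  exact leib_ext (R := PowerSeries L) (S := L1) (coefD d) (leib_coefD hd)

variable (L L1) in
/-- `d/dτ` on the fraction field of `L[[τ]]` -/
theorem exists_dtau : ∃ δ : L1 →+ L1, (∀ a b, δ (a * b) = δ a * b + a * δ b) ∧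
    ∀ φ : PowerSeries L, δ (algebraMap (PowerSeries L) L1 φ) = algebraMap (PowerSeries L) L1
      (PowerSeries.mk fun n => ((n : L) + 1) * PowerSeries.coeff (n + 1) φ) := by
  have := smooth_frac L L1
  obtain ⟨δ, h1, h2⟩ := leib_ext (R := PowerSeries L) (S := L1)
    (PowerSeries.derivative L).toLinearMap.toAddMonoidHom (fun a b => by
      change PowerSeries.derivative L (a * b) = PowerSeries.derivative L a * b +
        a * PowerSeries.derivative L b
      rw [Derivation.leibniz, smul_eq_mul, smul_eq_mul]
      ring)
  refine ⟨δ, h1, fun φ => ?_⟩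
  rw [h2]
  congr 1
  ext n
  rw [PowerSeries.coeff_mk]
  change PowerSeries.coeff n (PowerSeries.derivative L φ) = _
  rw [PowerSeries.coeff_derivative, mul_comm]

/-- derivations extend to the fraction field of `L[[τ]]` (any characteristic) -/
theorem dExt_frac [Algebra L L1] [IsScalarTower L (PowerSeries L) L1] : H62.DExt L L1 := by
  intro d hd
  obtain ⟨d', h1, h2⟩ := exists_coeffwise (L1 := L1) d hd
  refine ⟨d', h1, fun a => ?_⟩
  have h3 : ∀ b : L, algebraMap L (PowerSeries L) b = PowerSeries.C b := fun b => by
    ext n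
    simp
  rw [IsScalarTower.algebraMap_apply L (PowerSeries L) L1, h2,
    IsScalarTower.algebraMap_apply L (PowerSeries L) L1, h3, h3]
  congr 1
  exact coefD_C d a

end frac

end Vale.Agent.P182.H388
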