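import Vale.Agent.P182.H388.NV
import Vale.Agent.P182.H668.Iface

/-!
# Versality in the form of `H668.Iface`
-/

namespace Vale.Agent.P182.H388

open LinearMap Submodule Module Polynomial Vale.Agent.P182 Vale.Agent.P182.H430
  Vale.Agent.P182.H668 Vale.Agent.P182.H578

section

variable {k F P : Type*} [Field k] [Field F] [Algebra k F] {C : Curve k F P}
variable {E : Type*} [AddCommGroup E] [Module F E] [Module k E] [IsScalarTower k F E]
  [FiniteDimensional F E]

omit [IsScalarTower k F E] [FiniteDimensional F E] in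
theorem LConn.all {N : Bun C E} {δ : Derivation ℤ F F} {q : P} {D : E → E} (h : LConn N δ q D)
    (b : ℤ) (hb : C.per q = 1 → b = 0) (y : E) (hy : y ∈ (N.ch q).L b) :
    D y ∈ (N.ch q).L b := by
  by_cases hq : C.per q = 1
  · obtain rfl := hb hq
    exact h.mem y hy
  · exact h.mem' hq b y hy

end

section

universe u

variable {k F P : Type*} [Field k] [Field F] [Algebra k F] {C : Curve k F P}
variable {E : Type u} [AddCommGroup E] [Module F E] [Module k E] [IsScalarTower k F E]
  [FiniteDimensional F E]

/-- versality in the form of `H668.Iface` -/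
theorem OVers.vv {N : Bun C E} {T : LinearMap.BilinForm F E} {κ : P → ℤ} (hκ : Dualizing C κ)
    {I : Type*} (V : OVers N T κ I) (hN : Orth N T) (h2k : (2 : k) ≠ 0) (h2 : (2 : F) ≠ 0) :
    VV N T := by
  intro p a ha
  obtain ⟨δ, -, n, hn, hm, h1, h3⟩ := exists_vv hκ V hN h2k h2 p ha
  exact ⟨δ, n, hn, hm, fun q hq b hb y hy => (h1 q hq).all b hb y hy,
    fun b hb y hy => h3.all b hb y hy⟩

end

section

variable {k : Type*} [Field k] {J : Type*} [Fintype J] [DecidableEq J] (X : NData k J)
variable {F : Type*} [Field F] [Algebra k[X] F] [IsFractionRing k[X] F]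
  [Algebra k F] [IsScalarTower k k[X] F] [IsAlgClosed k]

omit [DecidableEq J] in
/-- the characteristic is not two in the function field -/
theorem two_ne (F : Type*) [Field F] {k : Type*} [Field k] [Algebra k F] (h2 : (2 : k) ≠ 0) :
    (2 : F) ≠ 0 := by
  have h3 : (2 : F) = algebraMap k F 2 := (map_ofNat _ _).symm
  rw [h3]
  exact (_root_.map_ne_zero _).2 h2

/-- **the concrete bundle is versal** -/
theorem nVV (hdet : IsUnit X.Om'.det) (h2 : (2 : k) ≠ 0) (hΩ : X.VersΩ) :
    VV (X.N' F) (X.b F) :=
  (novers X hdet h2 hΩ).vv (X.dualizing F) (northo X hdet) h2 (two_ne F h2)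

end

end Vale.Agent.P182.H388
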