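import Vale.Agent.P182.H578.JM
import Vale.Agent.P182.H55.NullA

/-!
# Normal form of a free nilpotent self-adjoint operator commuting with orthogonal idempotents
-/

namespace Vale.Agent.P182.H388

open Module Vale.Agent.P182.H533 Vale.Agent.P182.H578

/-- reindexing of a system of strings -/
def StrSys.reindex {F E : Type*} [Field F] [AddCommGroup E] [Module F E]
    {B : LinearMap.BilinForm F E} {Θ : E →ₗ[F] E} {W : Submodule F E} {ι' : Type}
    {ι : Type*} (g : ι' ≃ ι) (m : ι → ℕ) (e : ι → E) (lam : ι → F) (lam_ne : ∀ j, lam j ≠ 0)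
    (top : ∀ j, (Θ ^ (m j + 1)) (e j) = 0)
    (pair : ∀ j a b, B ((Θ ^ a) (e j)) ((Θ ^ b) (e j)) = if a + b = m j then lam j else 0)
    (orth : ∀ i j, i ≠ j → ∀ a b, B ((Θ ^ a) (e i)) ((Θ ^ b) (e j)) = 0)
    (span_eq : Submodule.span F {x | ∃ j a, x = (Θ ^ a) (e j)} = W) : StrSys B Θ W ι' where
  m j := m (g j)
  e j := e (g j)
  lam j := lam (g j)
  lam_ne j := lam_ne _
  top j := top _
  pair j := pair _
  orth i j hij := orth _ _ fun h => hij (g.injective h)
  span_eq := by
    rw [← span_eq]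
    congr 1
    ext x
    constructor
    · rintro ⟨j, a, rfl⟩; exact ⟨g j, a, rfl⟩
    · rintro ⟨j, a, rfl⟩; exact ⟨g.symm j, a, by simp⟩

variable {L V ι : Type*} [Field L] [AddCommGroup V] [Module L V] [FiniteDimensional L V]
  [Fintype ι] [DecidableEq ι] {q : V →ₗ[L] V →ₗ[L] L} {τ : End L V} {p : ℕ}

/-- the kernel of a free nilpotent operator is the last image -/
theorem ker_eq_range (hp : τ ^ p = 0) (hV : finrank L V = p * finrank L (LinearMap.ker τ))
    (h1 : 1 ≤ p) : LinearMap.ker τ = LinearMap.range (τ ^ (p - 1)) := by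
  symm
  apply Submodule.eq_of_le_of_finrank_eq
  · rintro _ ⟨x, rfl⟩
    rw [LinearMap.mem_ker, ← Module.End.mul_apply, ← pow_succ', Nat.sub_add_cancel h1, hp,
      LinearMap.zero_apply]
  · rw [H55.finrank_range_pow τ hp rfl hV (Nat.sub_le p 1), Nat.sub_sub_self h1, one_mul]

theorem exists_nf (h2 : (2 : L) ≠ 0) (hq : IsForm q) (hτ : IsSA q τ) (hp : τ ^ p = 0)
    (h1 : 1 ≤ p) (hV : finrank L V = p * finrank L (LinearMap.ker τ)) (P : ι → End L V)
    (hPS : ∀ i, IsSA q (P i)) (hPP : ∀ i, P i * P i = P i) (hPn : ∀ i j, i ≠ j → P i * P j = 0)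
    (hP1 : ∑ i, P i = 1) (hPτ : ∀ i, P i * τ = τ * P i) (hP0 : ∀ i, P i ≠ 0) :
    ∃ (κ : Type) (_ : Fintype κ) (S : StrSys q τ ⊤ κ) (blk : κ → ι),
      (∀ j, S.m j + 1 = p) ∧ (∀ i j, P i (S.e j) = if blk j = i then S.e j else 0) ∧
      ∀ i, ∃ j, blk j = i := by
  have hst : ∀ i, ∃ (κ : Type) (_ : Fintype κ), Nonempty (StrSys q τ (LinearMap.range (P i)) κ) := by
    intro i
    refine exists_str h2 hq.symm hτ ⟨p, hp⟩ (finrank L (LinearMap.range (P i))) _ le_rfl ?_ ?_
    · rintro _ ⟨x, rfl⟩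
      exact ⟨τ x, by rw [← Module.End.mul_apply, hPτ, Module.End.mul_apply]⟩
    · rintro _ ⟨x, rfl⟩ h
      refine hq.nondeg _ fun y => ?_
      have h3 := h (P i y) ⟨y, rfl⟩
      rw [← hPS, ← Module.End.mul_apply, hPP] at h3
      exact h3
  choose κ hκ S using hst
  have S' : ∀ i, StrSys q τ (LinearMap.range (P i)) (κ i) := fun i => (S i).some
  have hmem : ∀ i j a, (τ ^ a) ((S' i).e j) ∈ LinearMap.range (P i) := fun i j a =>
    (S' i).span_eq.le (Submodule.subset_span ⟨j, a, rfl⟩)
  have hfix : ∀ i x, x ∈ LinearMap.range (P i) → P i x = x := by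
    rintro i _ ⟨x, rfl⟩
    rw [← Module.End.mul_apply, hPP]
  have hfix0 : ∀ i i' x, i' ≠ i → x ∈ LinearMap.range (P i) → P i' x = 0 := by
    rintro i i' _ hi ⟨x, rfl⟩
    rw [← Module.End.mul_apply, hPn _ _ hi, LinearMap.zero_apply]
  have g : Fin (Fintype.card (Σ i, κ i)) ≃ Σ i, κ i := (Fintype.equivFin _).symm
  let T : StrSys q τ ⊤ (Fin (Fintype.card (Σ i, κ i))) :=
    StrSys.reindex g (fun x => (S' x.1).m x.2) (fun x => (S' x.1).e x.2)
      (fun x => (S' x.1).lam x.2) (fun x => (S' x.1).lam_ne x.2) (fun x => (S' x.1).top x.2)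
      (fun x => (S' x.1).pair x.2)
      (by
        rintro ⟨i, j⟩ ⟨i', j'⟩ hij a b
        by_cases hi : i = i'
        · subst hi
          exact (S' i).orth j j' (fun h => hij (by rw [h])) a b
        · have e1 := hfix i _ (hmem i j a)
          have e2 := hfix0 i' i _ hi (hmem i' j' b)
          show q ((τ ^ a) ((S' i).e j)) ((τ ^ b) ((S' i').e j')) = 0
          rw [← e1, hPS, e2, map_zero])
      (by
        rw [eq_top_iff]
        intro x _
        have hx : x = ∑ i, P i x := by
          rw [← LinearMap.sum_apply, hP1, Module.End.one_apply]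
        rw [hx]
        refine Submodule.sum_mem _ fun i _ => ?_
        have h3 : P i x ∈ Submodule.span L {x | ∃ j a, x = (τ ^ a) ((S' i).e j)} :=
          (S' i).span_eq.ge ⟨x, rfl⟩
        refine Submodule.span_mono ?_ h3
        rintro y ⟨j, a, rfl⟩
        exact ⟨⟨i, j⟩, a, rfl⟩)
  refine ⟨_, inferInstance, T, fun j => (g j).1, fun j => ?_, fun i j => ?_, fun i => ?_⟩
  · -- all strings have length `p`
    have h3 : (τ ^ (T.m j)) (T.e j) ∈ LinearMap.ker τ := by
      rw [LinearMap.mem_ker, ← Module.End.mul_apply, ← pow_succ', T.top]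
    rw [ker_eq_range hp hV h1] at h3
    obtain ⟨y, hy⟩ := h3
    have h4 := T.pair j 0 (T.m j)
    rw [if_pos (Nat.zero_add _), pow_zero, Module.End.one_apply, ← hy] at h4
    have h5 : (τ ^ (p - 1)) (T.e j) ≠ 0 := by
      intro h5
      apply T.lam_ne j
      rw [← h4, ← pow_adj hτ, h5, map_zero, LinearMap.zero_apply]
    have h6 : p - 1 ≤ T.m j := by
      by_contra hcon
      exact h5 (pow_zero_of_le (T.top j) (by omega))
    have h7 : T.m j < p := by
      by_contra hcon
      have h8 := T.pair j (T.m j) 0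
      rw [if_pos (Nat.add_zero _)] at h8
      apply T.lam_ne j
      rw [← h8, show T.m j = (T.m j - p) + p by omega, pow_add, hp, mul_zero,
        LinearMap.zero_apply, map_zero, LinearMap.zero_apply]
    omega
  · by_cases h3 : (g j).1 = i
    · rw [if_pos h3]
      subst h3
      have := hmem (g j).1 (g j).2 0
      rw [pow_zero, Module.End.one_apply] at this
      exact hfix _ _ this
    · rw [if_neg h3]
      have := hmem (g j).1 (g j).2 0
      rw [pow_zero, Module.End.one_apply] at this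
      exact hfix0 _ _ _ (fun h => h3 h.symm) this
  · -- every block is nonzero
    by_contra hcon
    push Not at hcon
    have hE : IsEmpty (κ i) := ⟨fun j => hcon (g.symm ⟨i, j⟩) (by simp)⟩
    apply hP0 i
    have h3 : LinearMap.range (P i) = ⊥ := by
      refine (S' i).span_eq.symm.trans ?_
      rw [Submodule.span_eq_bot]
      rintro x ⟨j, _⟩
      exact hE.elim j
    exact LinearMap.range_eq_bot.mp h3

end Vale.Agent.P182.H388
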