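import Vale.Agent.P182.H388.Vdm
import Vale.Agent.P182.H388.AbsNF

/-!
# The λ-trick for one arm (block (ABS) of the null case)
-/

namespace Vale.Agent.P182.H388

open Module Vale.Agent.P182.H533 Vale.Agent.P182.H578

section elem

variable {L V : Type*} {κ : Type} [Field L] [AddCommGroup V] [Module L V]
  {q : V →ₗ[L] V →ₗ[L] L} {τ : End L V} (S : StrSys q τ ⊤ κ) {M : ℕ}

/-- elementary operators -/
noncomputable def El (M : ℕ) (k : κ) (a : ℕ) (l : κ) (b : ℕ) : End L V :=
  ((S.lam l)⁻¹ • q ((τ ^ (M - b)) (S.e l))).smulRight ((τ ^ a) (S.e k))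

theorem El_apply (k : κ) (a : ℕ) (l : κ) (b : ℕ) (v : V) :
    El S M k a l b v = ((S.lam l)⁻¹ * q ((τ ^ (M - b)) (S.e l)) v) • (τ ^ a) (S.e k) := rfl

variable [DecidableEq κ]

theorem El_gen (hm : ∀ j, S.m j = M) (k : κ) (a : ℕ) (l : κ) {b : ℕ} (hb : b ≤ M) (j : κ)
    (c : ℕ) : El S M k a l b ((τ ^ c) (S.e j)) = if l = j ∧ b = c then (τ ^ a) (S.e k) else 0 := by
  rw [El_apply]
  by_cases hl : l = j
  · subst hl
    rw [S.pair, hm]
    by_cases hc : b = c
    · subst hc
      rw [if_pos (by omega), if_pos ⟨rfl, rfl⟩, inv_mul_cancel₀ (S.lam_ne l), one_smul]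
    · rw [if_neg (by omega), if_neg (fun h => hc h.2), mul_zero, zero_smul]
  · rw [S.orth l j hl, if_neg (fun h => hl h.1), mul_zero, zero_smul]

omit [DecidableEq κ] in
theorem El_adj (hq : IsForm q) (k : κ) {a : ℕ} (ha : a ≤ M) (l : κ) (b : ℕ) (v w : V) :
    q (El S M k a l b v) w = (S.lam k / S.lam l) * q v (El S M l (M - b) k (M - a) w) := by
  rw [El_apply, El_apply, map_smul, map_smul, LinearMap.smul_apply, smul_eq_mul, smul_eq_mul,
    Nat.sub_sub_self ha, hq.symm v]
  have := S.lam_ne k
  have := S.lam_ne l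
  field_simp

omit [DecidableEq κ] in
theorem tau_El (k : κ) (a : ℕ) (l : κ) (b : ℕ) :
    τ * El S M k a l b = El S M k (a + 1) l b := by
  ext v
  rw [Module.End.mul_apply, El_apply, El_apply, map_smul, pow_succ' τ a, Module.End.mul_apply]

omit [DecidableEq κ] in
theorem El_tau_succ (hτ : IsSA q τ) (k : κ) (a : ℕ) (l : κ) {b : ℕ} (hb : b + 1 ≤ M) :
    El S M k a l (b + 1) * τ = El S M k a l b := by
  ext v
  rw [Module.End.mul_apply, El_apply, El_apply, ← hτ, ← Module.End.mul_apply, ← pow_succ',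
    show M - (b + 1) + 1 = M - b by omega]

omit [DecidableEq κ] in
theorem El_tau_zero (hm : ∀ j, S.m j = M) (hτ : IsSA q τ) (k : κ) (a : ℕ) (l : κ) :
    El S M k a l 0 * τ = 0 := by
  ext v
  rw [Module.End.mul_apply, El_apply, ← hτ, ← Module.End.mul_apply, ← pow_succ', Nat.sub_zero,
    ← hm l, S.top, map_zero, LinearMap.zero_apply, mul_zero, zero_smul, LinearMap.zero_apply]

omit [DecidableEq κ] in
theorem El_top (hm : ∀ j, S.m j = M) (k : κ) {a : ℕ} (ha : M < a) (l : κ) (b : ℕ) :
    El S M k a l b = 0 := by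
  ext v
  rw [El_apply, pow_zero_of_le (S.top k) (by rw [hm]; exact ha), smul_zero, LinearMap.zero_apply]

theorem El_mul (hm : ∀ j, S.m j = M) (k : κ) (a : ℕ) (l : κ) {b : ℕ} (hb : b ≤ M) (k' : κ)
    (a' : ℕ) (l' : κ) (b' : ℕ) : El S M k a l b * El S M k' a' l' b' =
      if l = k' ∧ b = a' then El S M k a l' b' else 0 := by
  ext v
  rw [Module.End.mul_apply, El_apply S k', map_smul, El_gen S hm k a l hb]
  split_ifs with h
  · rw [El_apply]
  · rw [smul_zero, LinearMap.zero_apply]

omit [DecidableEq κ] in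
/-- operators which are scalar on the strings -/
theorem mul_El {G : End L V} {u : κ → L} (hG : ∀ k a, G ((τ ^ a) (S.e k)) = u k • (τ ^ a) (S.e k))
    (k : κ) (a : ℕ) (l : κ) (b : ℕ) : G * El S M k a l b = u k • El S M k a l b := by
  ext v
  rw [Module.End.mul_apply, El_apply, map_smul, hG, LinearMap.smul_apply, El_apply, smul_comm]

omit [DecidableEq κ] in
theorem El_mul' {G : End L V} {u : κ → L} (hGs : IsSA q G)
    (hG : ∀ k a, G ((τ ^ a) (S.e k)) = u k • (τ ^ a) (S.e k))
    (k : κ) (a : ℕ) (l : κ) (b : ℕ) : El S M k a l b * G = u l • El S M k a l b := by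
  ext v
  rw [Module.End.mul_apply, El_apply, ← hGs, hG, LinearMap.smul_apply, El_apply, map_smul,
    LinearMap.smul_apply, smul_eq_mul, smul_smul]
  congr 1
  ring

omit [DecidableEq κ] in
theorem El_c (hq : IsForm q) (hm : ∀ j, S.m j = M) (k : κ) (a : ℕ) (l : κ) (b : ℕ) (v : V) :
    El S M k a l b v = S.c l b v • (τ ^ a) (S.e k) := by
  rw [El_apply, StrSys.c, hm, hq.symm v]

omit [DecidableEq κ] in
/-- the endomorphisms preserving all images are spanned by elementary operators -/
theorem mem_of_El [Fintype κ] (hq : IsForm q) (hτ : IsSA q τ) (hm : ∀ j, S.m j = M)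
    (H : Submodule L (End L V)) (hE : ∀ k l a b, b ≤ a → a ≤ M → El S M k a l b ∈ H)
    (h : End L V) (hh : ∀ c, ∀ v ∈ LinearMap.range (τ ^ c), h v ∈ LinearMap.range (τ ^ c)) :
    h ∈ H := by
  have key : h = ∑ l, ∑ b ∈ Finset.range (M + 1), ∑ k, ∑ a ∈ Finset.range (M + 1),
      S.c k a (h ((τ ^ b) (S.e l))) • El S M k a l b := by
    ext x
    conv_lhs => rw [S.expand x, map_sum]
    rw [LinearMap.sum_apply]
    refine Finset.sum_congr rfl fun l _ => ?_
    rw [map_sum, LinearMap.sum_apply, hm]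
    refine Finset.sum_congr rfl fun b _ => ?_
    rw [map_smul, LinearMap.sum_apply]
    conv_lhs => rw [S.expand (h ((τ ^ b) (S.e l))), Finset.smul_sum]
    refine Finset.sum_congr rfl fun k _ => ?_
    rw [Finset.smul_sum, LinearMap.sum_apply, hm]
    refine Finset.sum_congr rfl fun a _ => ?_
    rw [LinearMap.smul_apply, El_c S hq hm, smul_comm]
  rw [key]
  refine Submodule.sum_mem _ fun l _ => Submodule.sum_mem _ fun b hb =>
    Submodule.sum_mem _ fun k _ => Submodule.sum_mem _ fun a ha => ?_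
  have ha' := Finset.mem_range.mp ha
  have hb' := Finset.mem_range.mp hb
  by_cases hab : b ≤ a
  · exact Submodule.smul_mem _ _ (hE k l a b hab (by omega))
  · obtain ⟨y, hy⟩ := hh b _ ⟨S.e l, rfl⟩
    have h0 : S.c k a (h ((τ ^ b) (S.e l))) = 0 := by
      rw [← hy, StrSys.c, hm, pow_adj hτ, ← Module.End.mul_apply, ← pow_add,
        pow_zero_of_le (S.top k) (by rw [hm]; omega), map_zero, mul_zero]
    rw [h0, zero_smul]
    exact Submodule.zero_mem _

/-- the operators of degree `s` between two strings -/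
noncomputable def Bop (M : ℕ) (u : κ → L) (s : ℕ) (k l : κ) : End L V :=
  ∑ b ∈ Finset.range (M - s + 1),
    (u k ^ (2 * b) * u l ^ (2 * (M - s - b))) • El S M k (b + s) l b

omit [DecidableEq κ] in
theorem Bop_comm (hm : ∀ j, S.m j = M) (hτ : IsSA q τ) {G : End L V} {u : κ → L}
    (hGs : IsSA q G) (hG : ∀ k a, G ((τ ^ a) (S.e k)) = u k • (τ ^ a) (S.e k)) {s : ℕ}
    (hs : s ≤ M) (k l : κ) :
    Bop S M u s k l * (G ^ 2 * τ) = G ^ 2 * τ * Bop S M u s k l := by
  rw [Bop, Finset.sum_mul, Finset.mul_sum, Finset.sum_range_succ', Finset.sum_range_succ]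
  have h1 : ∀ a b, El S M k a l b * (G ^ 2 * τ) = (u l ^ 2) • (El S M k a l b * τ) := by
    intro a b
    rw [← mul_assoc, pow_two, ← mul_assoc, El_mul' S hGs hG, smul_mul_assoc, El_mul' S hGs hG,
      smul_smul, smul_mul_assoc, pow_two]
  have h2 : ∀ a b, G ^ 2 * τ * El S M k a l b = (u k ^ 2) • El S M k (a + 1) l b := by
    intro a b
    rw [mul_assoc, tau_El, pow_two, mul_assoc, mul_El S hG, mul_smul_comm, mul_El S hG, smul_smul,
      pow_two]
  rw [smul_mul_assoc _ (El S M k (0 + s) l 0), h1, El_tau_zero S hm hτ, smul_zero, smul_zero,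
    add_zero, mul_smul_comm _ _ (El S M k (M - s + s) l (M - s)), h2,
    El_top S hm k (by omega), smul_zero, smul_zero, add_zero]
  refine Finset.sum_congr rfl fun b hb => ?_
  have hb' := Finset.mem_range.mp hb
  rw [smul_mul_assoc, h1, El_tau_succ S hτ k _ l (by omega), mul_smul_comm, h2, smul_smul,
    smul_smul, show b + s + 1 = b + 1 + s by omega]
  congr 1
  have h3 : 2 * (M - s - b) = 2 * (M - s - (b + 1)) + 2 := by omega
  rw [h3]
  ring

omit [DecidableEq κ] in
theorem Bop_adj (hq : IsForm q) (u : κ → L) {s : ℕ} (hs : s ≤ M) (k l : κ) (v w : V) :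
    q (Bop S M u s k l v) w = (S.lam k / S.lam l) * q v (Bop S M u s l k w) := by
  have h1 : Bop S M u s l k = ∑ b ∈ Finset.range (M - s + 1),
      (u k ^ (2 * b) * u l ^ (2 * (M - s - b))) • El S M l (M - b) k (M - (b + s)) := by
    rw [Bop, ← Finset.sum_range_reflect]
    refine Finset.sum_congr rfl fun b hb => ?_
    have hb' := Finset.mem_range.mp hb
    rw [show M - s + 1 - 1 - b = M - s - b by omega, show M - s - (M - s - b) = b by omega,
      show M - s - b + s = M - b by omega, show M - (b + s) = M - s - b by omega, mul_comm]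
  rw [h1, Bop, LinearMap.sum_apply, LinearMap.sum_apply, map_sum, map_sum, LinearMap.sum_apply,
    Finset.mul_sum]
  refine Finset.sum_congr rfl fun b hb => ?_
  have hb' := Finset.mem_range.mp hb
  rw [LinearMap.smul_apply, LinearMap.smul_apply, map_smul, map_smul, LinearMap.smul_apply,
    smul_eq_mul, smul_eq_mul, El_adj S hq k (by omega : b + s ≤ M) l b]
  ring

omit [DecidableEq κ] in
/-- the λ-trick: off-diagonal elementary operators -/
theorem El_mem_off [FiniteDimensional L V] (hq : IsForm q) (hτ : IsSA q τ) (hm : ∀ j, S.m j = M)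
    (H : Submodule L (End L V)) (X : Set L) (hX : X.Infinite) (D : End L V) (hD : IsSA q D)
    (e : κ → L) (hDe : ∀ k a, D ((τ ^ a) (S.e k)) = e k • (τ ^ a) (S.e k))
    (hXe : ∀ x ∈ X, ∀ k, 1 + x * e k ≠ 0)
    (hA : ∀ x ∈ X, ∀ β : End L V, IsSA q β →
      β * ((1 + x • D) ^ 2 * τ) = (1 + x • D) ^ 2 * τ * β → β * (1 + x • D) ∈ H)
    {k l : κ} (hkl : e k ≠ e l) {a b : ℕ} (hba : b ≤ a) (ha : a ≤ M) : El S M k a l b ∈ H := by
  obtain ⟨s, rfl⟩ := Nat.exists_eq_add_of_le hba
  have hs : s ≤ M := by omega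
  have hne : k ≠ l := fun h => hkl (by rw [h])
  -- the homogeneous family
  let f : Bool × ℕ → End L V := fun y => if y.1 then El S M k (y.2 + s) l y.2 else
    (S.lam k / S.lam l) • El S M l (y.2 + s) k y.2
  let n : Bool × ℕ → ℕ := fun y => if y.1 then 2 * y.2 else 2 * (M - s - y.2) + 1
  have hmain := mem_of_homog H (Finset.univ ×ˢ Finset.range (M - s + 1)) n ?_ (2 * (M - s) + 1)
    ?_ f hkl X hX (fun x hx => hXe x hx l) ?_ (true, b) (by
      rw [Finset.mem_product]
      exact ⟨Finset.mem_univ _, Finset.mem_range.mpr (by omega)⟩)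
  · simpa only [f, if_true, add_comm] using hmain
  · rintro ⟨y1, y2⟩ hy ⟨z1, z2⟩ hz hyz
    have hy' := Finset.mem_range.mp (Finset.mem_product.mp hy).2
    have hz' := Finset.mem_range.mp (Finset.mem_product.mp hz).2
    cases y1 <;> cases z1 <;> simp only [n, if_true, Bool.false_eq_true, if_false] at hyz hy' hz' ⊢
    · simp only [Prod.mk.injEq, true_and]; omega
    · omega
    · omega
    · simp only [Prod.mk.injEq, true_and]; omega
  · rintro ⟨y1, y2⟩ hy
    have hy' := Finset.mem_range.mp (Finset.mem_product.mp hy).2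
    cases y1 <;> simp only [n, if_true, Bool.false_eq_true, if_false] at hy' ⊢ <;> omega
  · intro x hx
    set u : κ → L := fun j => 1 + x * e j with hu
    have hGs : IsSA q (1 + x • D) := fun v w => by
      simp only [LinearMap.add_apply, LinearMap.smul_apply, Module.End.one_apply, map_add,
        map_smul, hD v w]
    have hG : ∀ j a, (1 + x • D) ((τ ^ a) (S.e j)) = u j • (τ ^ a) (S.e j) := fun j a => by
      rw [LinearMap.add_apply, LinearMap.smul_apply, hDe, Module.End.one_apply, smul_smul, hu,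
        add_smul, one_smul]
    have h1 := hA x hx (Bop S M u s k l + (S.lam k / S.lam l) • Bop S M u s l k) ?_ ?_
    · have h2 : ∑ j ∈ Finset.univ ×ˢ Finset.range (M - s + 1),
          ((1 + x * e k) ^ n j * (1 + x * e l) ^ (2 * (M - s) + 1 - n j)) • f j =
          (Bop S M u s k l + (S.lam k / S.lam l) • Bop S M u s l k) * (1 + x • D) := by
        rw [Finset.sum_product, Fintype.sum_bool, add_mul, Bop, Bop, Finset.sum_mul,
          smul_mul_assoc, Finset.sum_mul, Finset.smul_sum]
        congr 1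
        · refine Finset.sum_congr rfl fun b hb => ?_
          have hb' := Finset.mem_range.mp hb
          simp only [f, n, if_true]
          rw [smul_mul_assoc, El_mul' S hGs hG, smul_smul]
          congr 1
          rw [show 2 * (M - s) + 1 - 2 * b = 2 * (M - s - b) + 1 by omega]
          simp only [hu]
          ring
        · refine Finset.sum_congr rfl fun b hb => ?_
          have hb' := Finset.mem_range.mp hb
          simp only [f, n, Bool.false_eq_true, if_false]
          rw [smul_mul_assoc, El_mul' S hGs hG, smul_smul, smul_smul, smul_smul]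
          congr 1
          rw [show 2 * (M - s) + 1 - (2 * (M - s - b) + 1) = 2 * b by omega]
          simp only [hu]
          ring
      rw [h2]
      exact h1
    · intro v w
      simp only [LinearMap.add_apply, LinearMap.smul_apply, map_add, map_smul, smul_eq_mul]
      rw [Bop_adj S hq u hs k l v w, Bop_adj S hq u hs l k v w]
      have h3 := S.lam_ne k
      have h4 := S.lam_ne l
      field_simp
      ring
    · rw [add_mul, mul_add, Bop_comm S hm hτ hGs hG hs k l, smul_mul_assoc,
        Bop_comm S hm hτ hGs hG hs l k, mul_smul_comm]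

/-- the product of a diagonal family with an elementary operator, on the left -/
theorem El_mul_Bop (hm : ∀ j, S.m j = M) (u : κ → L) (m k : κ) (a : ℕ) {a' : ℕ} (ha' : a' ≤ M)
    (k' l : κ) : El S M m a k a' * Bop S M u 0 k' l =
      if k = k' then (u k ^ (2 * a') * u l ^ (2 * (M - a'))) • El S M m a l a' else 0 := by
  rw [Bop, Finset.mul_sum]
  by_cases hk : k = k'
  · subst hk
    rw [if_pos rfl, Finset.sum_eq_single a']
    · rw [mul_smul_comm, El_mul S hm _ _ _ ha', if_pos ⟨rfl, (Nat.add_zero a').symm⟩, Nat.sub_zero]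
    · intro b hb hne
      rw [mul_smul_comm, El_mul S hm _ _ _ ha', if_neg (fun h => hne (by
        have := h.2; omega)), smul_zero]
    · intro h
      exact absurd (Finset.mem_range.mpr (by omega)) h
  · rw [if_neg hk]
    refine Finset.sum_eq_zero fun b _ => ?_
    rw [mul_smul_comm, El_mul S hm _ _ _ ha', if_neg (fun h => hk h.1), smul_zero]

/-- the product of a diagonal family with an elementary operator, on the right -/
theorem Bop_mul_El (hm : ∀ j, S.m j = M) (u : κ → L) (m k : κ) {a : ℕ} (ha : a ≤ M) (a' : ℕ)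
    (k' l : κ) : Bop S M u 0 k' l * El S M m a k a' =
      if l = m then (u k' ^ (2 * a) * u l ^ (2 * (M - a))) • El S M k' a k a' else 0 := by
  rw [Bop, Finset.sum_mul]
  by_cases hl : l = m
  · subst hl
    rw [if_pos rfl, Finset.sum_eq_single a]
    · rw [smul_mul_assoc, El_mul S hm _ _ _ ha, if_pos ⟨rfl, rfl⟩, Nat.sub_zero, Nat.add_zero]
    · intro b hb hne
      have hb' := Finset.mem_range.mp hb
      rw [smul_mul_assoc, El_mul S hm _ _ _ (by omega : b ≤ M), if_neg (fun h => hne h.2),
        smul_zero]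
    · intro h
      exact absurd (Finset.mem_range.mpr (by omega)) h
  · rw [if_neg hl]
    refine Finset.sum_eq_zero fun b hb => ?_
    have hb' := Finset.mem_range.mp hb
    rw [smul_mul_assoc, El_mul S hm _ _ _ (by omega : b ≤ M), if_neg (fun h => hl h.1), smul_zero]

/-- diagonal elementary operators -/
theorem El_mem_diag (hq : IsForm q) (hτ : IsSA q τ) (hm : ∀ j, S.m j = M)
    (H : Submodule L (End L V)) (X : Set L) (hX : X.Infinite) (D : End L V) (hD : IsSA q D)
    (e : κ → L) (hDe : ∀ k a, D ((τ ^ a) (S.e k)) = e k • (τ ^ a) (S.e k))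
    (hXe : ∀ x ∈ X, ∀ k, 1 + x * e k ≠ 0) (Off : End L V → Prop)
    (hOff : ∀ k l a b, e k ≠ e l → Off (El S M k a l b))
    (hOa : ∀ A B, Off A → Off B → Off (A + B)) (hOs : ∀ (c : L) A, Off A → Off (c • A))
    (hB : ∀ x ∈ X, ∀ Y Y' : End L V, IsSk q Y → Off Y →
      Y * ((1 + x • D) ^ 2 * τ) = (1 + x • D) ^ 2 * τ * Y → (1 + x • D) * Y' = Y * (1 + x • D) →
      ∀ h : End L V, Off h →
        (∀ c, ∀ v ∈ LinearMap.range (τ ^ c), h v ∈ LinearMap.range (τ ^ c)) →
        h * Y' - Y * h ∈ H)
    {m l : κ} (hml : e m = e l) {k : κ} (hkl : e k ≠ e l) {a a' : ℕ} (hba : a' ≤ a)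
    (ha : a ≤ M) : El S M m a l a' ∈ H := by
  have hne : k ≠ l := fun h => hkl (by rw [h])
  have hnem : k ≠ m := fun h => hkl (by rw [h, hml])
  -- the basic relation
  have key : ∀ x ∈ X,
      ((1 + x * e k) ^ (2 * a') * (1 + x * e l) ^ (2 * M + 1 - 2 * a')) • El S M m a l a' +
      ((1 + x * e k) ^ (2 * a + 1) * (1 + x * e l) ^ (2 * M + 1 - (2 * a + 1))) •
        (if l = m then -El S M k a k a' else 0) ∈ H := by
    intro x hx
    set u : κ → L := fun j => 1 + x * e j with hu
    have hu0 : ∀ j, u j ≠ 0 := hXe x hx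
    have hGs : IsSA q (1 + x • D) := fun v w => by
      simp only [LinearMap.add_apply, LinearMap.smul_apply, Module.End.one_apply, map_add,
        map_smul, hD v w]
    have hG : ∀ j a, (1 + x • D) ((τ ^ a) (S.e j)) = u j • (τ ^ a) (S.e j) := fun j a => by
      rw [LinearMap.add_apply, LinearMap.smul_apply, hDe, Module.End.one_apply, smul_smul, hu,
        add_smul, one_smul]
    have hBG : ∀ k l : κ, Bop S M u 0 k l * (1 + x • D) = u l • Bop S M u 0 k l := fun k l => by
      rw [Bop, Finset.sum_mul, Finset.smul_sum]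
      refine Finset.sum_congr rfl fun b _ => ?_
      rw [smul_mul_assoc, El_mul' S hGs hG, smul_comm]
    have hGB : ∀ k l : κ, (1 + x • D) * Bop S M u 0 k l = u k • Bop S M u 0 k l := fun k l => by
      rw [Bop, Finset.mul_sum, Finset.smul_sum]
      refine Finset.sum_congr rfl fun b _ => ?_
      rw [mul_smul_comm, mul_El S hG, smul_comm]
    have hOB : ∀ k l : κ, e k ≠ e l → Off (Bop S M u 0 k l) := fun k l h => by
      have h0 : Off (0 : End L V) := by
        have := hOs 0 _ (hOff k l 0 0 h)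
        rwa [zero_smul] at this
      rw [Bop]
      refine Finset.sum_induction _ Off hOa h0 fun b _ => hOs _ _ (hOff k l _ _ h)
    have h1 := hB x hx (Bop S M u 0 k l + (-(S.lam k / S.lam l)) • Bop S M u 0 l k)
      ((u l / u k) • Bop S M u 0 k l + (-(S.lam k / S.lam l) * (u k / u l)) • Bop S M u 0 l k)
      ?_ ?_ ?_ ?_ (El S M m a k a') (hOff _ _ _ _ fun h => hkl (h ▸ hml)) ?_
    · have h2 : El S M m a k a' * ((u l / u k) • Bop S M u 0 k l +
          (-(S.lam k / S.lam l) * (u k / u l)) • Bop S M u 0 l k) -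
          (Bop S M u 0 k l + (-(S.lam k / S.lam l)) • Bop S M u 0 l k) * El S M m a k a' =
          ((u l / u k) * (u k ^ (2 * a') * u l ^ (2 * (M - a')))) • El S M m a l a' +
          (u k ^ (2 * a) * u l ^ (2 * (M - a))) • (if l = m then -El S M k a k a' else 0) := by
        rw [mul_add, add_mul, mul_smul_comm, mul_smul_comm, smul_mul_assoc,
          El_mul_Bop S hm u m k a (by omega : a' ≤ M) k l, if_pos rfl,
          El_mul_Bop S hm u m k a (by omega : a' ≤ M) l k, if_neg hne,
          Bop_mul_El S hm u m k ha a' k l, Bop_mul_El S hm u m k ha a' l k, if_neg hnem,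
          smul_zero, smul_zero, add_zero, add_zero, smul_smul]
        split_ifs
        · rw [smul_neg, sub_eq_add_neg]
        · rw [smul_zero, sub_zero, add_zero]
      rw [h2] at h1
      have h3 := H.smul_mem (u k) h1
      rw [smul_add, smul_smul, smul_smul] at h3
      convert h3 using 3
      · rw [show 2 * M + 1 - 2 * a' = 2 * (M - a') + 1 by omega]
        have := hu0 k
        field_simp
        simp only [hu]
        ring
      · rw [show 2 * M + 1 - (2 * a + 1) = 2 * (M - a) by omega]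
        simp only [hu]
        ring
    · intro v w
      simp only [LinearMap.add_apply, LinearMap.smul_apply, map_add, map_smul, smul_eq_mul]
      rw [Bop_adj S hq u (Nat.zero_le M) k l v w, Bop_adj S hq u (Nat.zero_le M) l k v w]
      have h3 := S.lam_ne k
      have h4 := S.lam_ne l
      field_simp
      ring
    · exact hOa _ _ (hOB k l hkl) (hOs _ _ (hOB l k fun h => hkl h.symm))
    · rw [add_mul, mul_add, Bop_comm S hm hτ hGs hG (Nat.zero_le M) k l, smul_mul_assoc,
        Bop_comm S hm hτ hGs hG (Nat.zero_le M) l k, mul_smul_comm]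
    · rw [mul_add (1 + x • D), add_mul (Bop S M u 0 k l), mul_smul_comm (u l / u k),
        mul_smul_comm (-(S.lam k / S.lam l) * (u k / u l)), smul_mul_assoc, hGB, hGB, hBG, hBG,
        smul_smul, smul_smul, smul_smul]
      congr 2
      · exact div_mul_cancel₀ _ (hu0 k)
      · rw [mul_assoc, div_mul_cancel₀ _ (hu0 l)]
    · rintro c _ ⟨y, rfl⟩
      rw [El_apply, ← pow_adj hτ, ← Module.End.mul_apply, ← pow_add]
      by_cases hc : c ≤ a'
      · refine Submodule.smul_mem _ _ ⟨(τ ^ (a - c)) (S.e m), ?_⟩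
        rw [← Module.End.mul_apply, ← pow_add, show c + (a - c) = a by omega]
      · rw [pow_zero_of_le (S.top k) (by rw [hm]; omega), map_zero, LinearMap.zero_apply, mul_zero,
          zero_smul]
        exact Submodule.zero_mem _
  by_cases hlm : l = m
  · -- two values of the parameter
    have h1 := mem_of_homog H (Finset.univ : Finset Bool)
      (fun y => if y then 2 * a' else 2 * a + 1) ?_ (2 * M + 1) ?_
      (fun y => if y then El S M m a l a' else -El S M k a k a') hkl X hX
      (fun x hx => hXe x hx l) ?_ true (Finset.mem_univ _)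
    · simpa using h1
    · intro y _ z _ hyz
      cases y <;> cases z <;> simp at hyz ⊢ <;> omega
    · intro y _
      cases y <;> simp <;> omega
    · intro x hx
      have h2 := key x hx
      rw [if_pos hlm] at h2
      rw [Fintype.sum_bool]
      simpa using h2
  · obtain ⟨x, hx⟩ := hX.nonempty
    have h2 := key x hx
    rw [if_neg hlm, smul_zero, add_zero] at h2
    exact (H.smul_mem_iff (mul_ne_zero (pow_ne_zero _ (hXe x hx k))
      (pow_ne_zero _ (hXe x hx l)))).mp h2

end elem

/-- **Block (ABS)**: the λ-trick for one arm. -/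
theorem abs {L V ι : Type*} [Field L] [AddCommGroup V] [Module L V] [FiniteDimensional L V]
    [Fintype ι] [Nontrivial ι] (h2 : (2 : L) ≠ 0) {q : V →ₗ[L] V →ₗ[L] L} (hq : IsForm q)
    {τ : End L V} (hτ : IsSA q τ) {p : ℕ} (hp : τ ^ p = 0)
    (hV : finrank L V = p * finrank L (LinearMap.ker τ)) (P : ι → End L V)
    (hPS : ∀ i, IsSA q (P i)) (hPP : ∀ i, P i * P i = P i) (hPn : ∀ i j, i ≠ j → P i * P j = 0)
    (hP1 : ∑ i, P i = 1) (hPτ : ∀ i, P i * τ = τ * P i) (hP0 : ∀ i, P i ≠ 0) (d : ι → L)
    (hd : Function.Injective d) {D : End L V} (hD : D = ∑ i, d i • P i)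
    (H : Submodule L (End L V)) (X : Set L) (hX : X.Infinite)
    (hXd : ∀ x ∈ X, ∀ i, 1 + x * d i ≠ 0)
    (hA : ∀ x ∈ X, ∀ β : End L V, IsSA q β →
      β * ((1 + x • D) ^ 2 * τ) = (1 + x • D) ^ 2 * τ * β → β * (1 + x • D) ∈ H)
    (hB : (∀ h : End L V, (∀ i, P i * h * P i = 0) →
        (∀ c, ∀ v ∈ LinearMap.range (τ ^ c), h v ∈ LinearMap.range (τ ^ c)) → h ∈ H) →
      ∀ x ∈ X, ∀ Y Y' : End L V, IsSk q Y → (∀ i, P i * Y * P i = 0) →
      Y * ((1 + x • D) ^ 2 * τ) = (1 + x • D) ^ 2 * τ * Y → (1 + x • D) * Y' = Y * (1 + x • D) →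
      ∀ h : End L V, (∀ i, P i * h * P i = 0) →
        (∀ c, ∀ v ∈ LinearMap.range (τ ^ c), h v ∈ LinearMap.range (τ ^ c)) →
        h * Y' - Y * h ∈ H) (h : End L V)
    (hh : ∀ c, ∀ v ∈ LinearMap.range (τ ^ c), h v ∈ LinearMap.range (τ ^ c)) : h ∈ H := by
  classical
  rcases Nat.eq_zero_or_pos p with rfl | h1
  · rw [zero_mul] at hV
    have := Module.finrank_zero_iff.mp hV
    have h0 : h = 0 := LinearMap.ext fun v => Subsingleton.elim _ _
    rw [h0]
    exact H.zero_mem
  obtain ⟨κ, hκ, S, blk, hm, hP, hsurj⟩ := exists_nf h2 hq hτ hp h1 hV P hPS hPP hPn hP1 hPτ hP0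
  obtain ⟨M, rfl⟩ : ∃ M, p = M + 1 := ⟨p - 1, by omega⟩
  have hm' : ∀ j, S.m j = M := fun j => by have := hm j; omega
  have hPτa : ∀ i a, P i * τ ^ a = τ ^ a * P i := fun i a =>
    (Commute.pow_right (show Commute (P i) τ from hPτ i) a)
  have hPe : ∀ i k a, P i ((τ ^ a) (S.e k)) = if blk k = i then (τ ^ a) (S.e k) else 0 := by
    intro i k a
    rw [← Module.End.mul_apply, hPτa, Module.End.mul_apply, hP]
    split_ifs
    · rfl
    · rw [map_zero]
  have hDe : ∀ k a, D ((τ ^ a) (S.e k)) = d (blk k) • (τ ^ a) (S.e k) := by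
    intro k a
    rw [hD, LinearMap.sum_apply, Finset.sum_eq_single (blk k)]
    · rw [LinearMap.smul_apply, hPe, if_pos rfl]
    · intro i _ hi
      rw [LinearMap.smul_apply, hPe, if_neg (fun h => hi h.symm), smul_zero]
    · intro h; exact absurd (Finset.mem_univ _) h
  have hDs : IsSA q D := fun v w => by
    rw [hD, LinearMap.sum_apply, LinearMap.sum_apply, map_sum, map_sum, LinearMap.sum_apply]
    refine Finset.sum_congr rfl fun i _ => ?_
    rw [LinearMap.smul_apply, LinearMap.smul_apply, map_smul, map_smul, LinearMap.smul_apply,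
      hPS i v w]
  have hPEl : ∀ i k a l b, P i * El S M k a l b * P i =
      if blk k = i ∧ blk l = i then El S M k a l b else 0 := by
    intro i k a l b
    rw [mul_El S (u := fun k => if blk k = i then 1 else 0) (fun k a => by
      rw [hPe]; split_ifs <;> simp), smul_mul_assoc,
      El_mul' S (u := fun k => if blk k = i then 1 else 0) (hPS i) (fun k a => by
      rw [hPe]; split_ifs <;> simp)]
    by_cases h3 : blk k = i <;> by_cases h4 : blk l = i <;> simp [h3, h4]
  have hoff : ∀ k l, blk k ≠ blk l → ∀ a b, b ≤ a → a ≤ M → El S M k a l b ∈ H :=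
    fun k l hkl a b hba ha => El_mem_off S hq hτ hm' H X hX D hDs (fun k => d (blk k)) hDe
      (fun x hx k => hXd x hx _) hA (fun h => hkl (hd h)) hba ha
  -- off-diagonal endomorphisms
  have hstep : ∀ h : End L V, (∀ i, P i * h * P i = 0) →
      (∀ c, ∀ v ∈ LinearMap.range (τ ^ c), h v ∈ LinearMap.range (τ ^ c)) → h ∈ H := by
    intro h hPh hh
    let φ : End L V →ₗ[L] End L V := LinearMap.id - ∑ i, LinearMap.mulLeftRight L (P i, P i)
    have hφ : ∀ g : End L V, φ g = g - ∑ i, P i * g * P i := fun g => by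
      rw [LinearMap.sub_apply, LinearMap.sum_apply]
      rfl
    have h3 : h ∈ H.comap φ := by
      refine mem_of_El S hq hτ hm' _ (fun k l a b hba ha => ?_) h hh
      rw [Submodule.mem_comap, hφ]
      by_cases hkl : blk k = blk l
      · rw [Finset.sum_eq_single (blk k)]
        · rw [hPEl, if_pos ⟨rfl, hkl.symm⟩, sub_self]
          exact H.zero_mem
        · intro i _ hi
          rw [hPEl, if_neg (fun h => hi h.1.symm)]
        · intro h; exact absurd (Finset.mem_univ _) h
      · rw [Finset.sum_eq_zero, sub_zero]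
        · exact hoff k l hkl a b hba ha
        · intro i _
          rw [hPEl, if_neg (fun h => hkl (h.1.trans h.2.symm))]
    rw [Submodule.mem_comap, hφ, Finset.sum_eq_zero (fun i _ => hPh i), sub_zero] at h3
    exact h3
  refine mem_of_El S hq hτ hm' H (fun m l a a' hba ha => ?_) h hh
  by_cases hml : blk m = blk l
  · obtain ⟨i, hi⟩ := exists_ne (blk l)
    obtain ⟨k, rfl⟩ := hsurj i
    refine El_mem_diag S hq hτ hm' H X hX D hDs (fun k => d (blk k)) hDe
      (fun x hx k => hXd x hx _) (fun h => ∀ i, P i * h * P i = 0) ?_ ?_ ?_ (hB hstep)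
      (by simp only [hml]) (k := k) (fun h => hi (hd h)) hba ha
    · intro k l a b hkl i
      rw [hPEl, if_neg]
      rintro ⟨h3, h4⟩
      exact hkl (by simp only [h3, h4])
    · intro A B hA hB i
      rw [mul_add, add_mul, hA, hB, add_zero]
    · intro c A hA i
      rw [mul_smul_comm, smul_mul_assoc, hA, smul_zero]
  · exact hoff m l hml a a' hba ha

end Vale.Agent.P182.H388
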