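import Vale.Agent.P182.H388.Ex
import Vale.Agent.P182.H578.Loc

/-!
# Kodaira–Spencer classes of bundles and their functoriality
-/

namespace Vale.Agent.P182.H388

open LinearMap Submodule Module Vale.Agent.P182 Vale.Agent.P182.H430 Vale.Agent.P182.H668
  Vale.Agent.P182.H578

variable {k F P : Type*} [Field k] [Field F] [Algebra k F] {C : Curve k F P}
variable {E : Type*} [AddCommGroup E] [Module F E] [Module k E] [IsScalarTower k F E]
  [FiniteDimensional F E]
variable {E₂ : Type*} [AddCommGroup E₂] [Module F E₂] [Module k E₂] [IsScalarTower k F E₂]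
  [FiniteDimensional F E₂]

/-- a derivation of the function field compatible with the curve: regular functions stay regular,
and the places with a non-trivial period are constant -/
structure CDer (C : Curve k F P) (δ : Derivation ℤ F F) : Prop where
  reg : ∀ p f, f ∈ (C.pl p).M 1 0 → δ f ∈ (C.pl p).M 1 0
  lev : ∀ p, C.per p ≠ 1 → ∀ c f, f ∈ (C.pl p).M (C.per p) c → δ f ∈ (C.pl p).M (C.per p) c

/-- a connection which is integral at a place -/
structure LConn (A : Bun C E) (δ : Derivation ℤ F F) (p : P) (D : E → E) : Prop where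
  conn : IsConn δ D
  mem : ∀ x, x ∈ A.lat p → D x ∈ A.lat p
  mem' : C.per p ≠ 1 → ∀ a x, x ∈ (A.ch p).L a → D x ∈ (A.ch p).L a

/-- connection in coordinates -/
noncomputable def bconn {n : ℕ} (δ : Derivation ℤ F F) (b : Basis (Fin n) F E) (g : Fin n → F)
    (x : E) : E := ∑ i, ((g i)⁻¹ * δ (g i * b.repr x i)) • b i

omit [Module k E] [IsScalarTower k F E] [FiniteDimensional F E] in
theorem bconn_conn {n : ℕ} (δ : Derivation ℤ F F) (b : Basis (Fin n) F E) {g : Fin n → F}
    (hg : ∀ i, g i ≠ 0) : IsConn δ (bconn δ b g) := by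
  constructor
  · intro x y
    unfold bconn
    rw [← Finset.sum_add_distrib]
    refine Finset.sum_congr rfl fun i _ => ?_
    rw [← add_smul, map_add, Finsupp.add_apply, mul_add, map_add, mul_add]
  · intro f x
    unfold bconn
    have h1 : δ f • x = ∑ i, (δ f * b.repr x i) • b i := by
      conv_lhs => rw [← b.sum_repr x]
      rw [Finset.smul_sum]
      exact Finset.sum_congr rfl fun i _ => by rw [smul_smul]
    rw [h1, Finset.smul_sum, ← Finset.sum_add_distrib]
    refine Finset.sum_congr rfl fun i _ => ?_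
    rw [smul_smul, ← add_smul, map_smul, Finsupp.smul_apply, smul_eq_mul,
      show g i * (f * b.repr x i) = f * (g i * b.repr x i) by ring, Derivation.leibniz,
      smul_eq_mul, smul_eq_mul]
    congr 1
    have := hg i
    field_simp

omit [Module k E] [IsScalarTower k F E] [FiniteDimensional F E] in
theorem bconn_repr {n : ℕ} (δ : Derivation ℤ F F) (b : Basis (Fin n) F E) (g : Fin n → F)
    (x : E) (i : Fin n) : b.repr (bconn δ b g x) i = (g i)⁻¹ * δ (g i * b.repr x i) := by
  unfold bconn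
  rw [map_sum]
  simp [Finsupp.single_apply]

/-- existence of integral connections -/
theorem exists_lconn {δ : Derivation ℤ F F} (hδ : CDer C δ) (A : Bun C E) (p : P) :
    ∃ D, LConn A δ p D := by
  obtain ⟨b, w, hb⟩ := (A.ch p).exists_split
  by_cases hp : C.per p = 1
  · have hu : ∀ i, (C.pl p).unif ^ (w i) ≠ 0 := fun i => zpow_ne_zero _ (C.pl p).unif_ne
    refine ⟨bconn δ b fun i => (C.pl p).unif ^ (w i), bconn_conn δ b hu, ?_,
      fun h => absurd hp h⟩
    intro x hx
    refine (hb 0 _).2 fun i => ?_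
    rw [bconn_repr]
    have h1 := (hb 0 x).1 hx i
    rw [hp] at h1 ⊢
    have h2 : (C.pl p).unif ^ (w i) * b.repr x i ∈ (C.pl p).M 1 0 := by
      rw [(C.pl p).smul_mem_iff (hu i), (C.pl p).ord_zpow]
      exact (C.pl p).M_anti (by push_cast; linarith) h1
    have h3 := hδ.reg p _ h2
    rw [(C.pl p).smul_mem_iff (inv_ne_zero (hu i)), (C.pl p).ord_inv (hu i), (C.pl p).ord_zpow]
    exact (C.pl p).M_anti (by push_cast; linarith) h3
  · have hl : ∀ a x, x ∈ (A.ch p).L a → bconn δ b (fun _ => 1) x ∈ (A.ch p).L a := by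
      intro a x hx
      refine (hb a _).2 fun i => ?_
      rw [bconn_repr, inv_one, one_mul, one_mul]
      exact hδ.lev p hp _ _ ((hb a x).1 hx i)
    exact ⟨bconn δ b fun _ => 1, bconn_conn δ b fun _ => one_ne_zero, hl 0, fun _ => hl⟩

omit [IsScalarTower k F E] [FiniteDimensional F E] in
/-- existence of a global connection, integral at almost all places -/
theorem exists_gconn {δ : Derivation ℤ F F} (hδ : CDer C δ) (A : Bun C E) :
    ∃ D, IsConn δ D ∧ ∀ᶠ p in Filter.cofinite, LConn A δ p D := by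
  obtain ⟨n, b, hb⟩ := A.std
  refine ⟨bconn δ b fun _ => 1, bconn_conn δ b fun _ => one_ne_zero, ?_⟩
  filter_upwards [hb] with p hp
  rw [Bun.splitBy_zero_iff] at hp
  refine ⟨bconn_conn δ b fun _ => one_ne_zero, ?_, ?_⟩
  · intro x hx
    refine (hp 0 _).2 fun i => ?_
    rw [bconn_repr, inv_one, one_mul, one_mul, M_zero_eq _ (C.per_pos p)]
    have h1 := (hp 0 x).1 hx i
    rw [M_zero_eq _ (C.per_pos p)] at h1
    exact hδ.reg p _ h1
  · intro h a x hx
    refine (hp a _).2 fun i => ?_
    rw [bconn_repr, inv_one, one_mul, one_mul]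
    exact hδ.lev p h _ _ ((hp a x).1 hx i)

/-- the defect of a map with respect to two connections -/
def defect {δ : Derivation ℤ F F} {D : E → E} {D' : E₂ → E₂} (h : IsConn δ D) (h' : IsConn δ D')
    (f : E →ₗ[F] E₂) : E →ₗ[F] E₂ where
  toFun x := D' (f x) - f (D x)
  map_add' x y := by
    rw [map_add, h'.1, h.1, map_add]
    abel
  map_smul' c x := by
    rw [map_smul, h'.2, h.2, map_add, map_smul, map_smul, RingHom.id_apply, smul_sub]
    abel

omit [Module k E] [IsScalarTower k F E] [FiniteDimensional F E] [Module k E₂]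
  [IsScalarTower k F E₂] [FiniteDimensional F E₂] in
theorem defect_apply {δ : Derivation ℤ F F} {D : E → E} {D' : E₂ → E₂} (h : IsConn δ D)
    (h' : IsConn δ D') (f : E →ₗ[F] E₂) (x : E) : defect h h' f x = D' (f x) - f (D x) := rfl

/-- a linear map which preserves the level `0` preserves all levels, if the period is one -/
theorem mem_hom_of_per_one {A : Bun C E} {B : Bun C E₂} {p : P} (hp : C.per p = 1)
    {f : E →ₗ[F] E₂} (h : ∀ x ∈ A.lat p, f x ∈ B.lat p) : f ∈ (A.hom B).lat p := by
  rw [Bun.mem_hom_lat]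
  intro b x hx
  have hu : (C.pl p).unif ^ (-b) ≠ 0 := zpow_ne_zero _ (C.pl p).unif_ne
  have hp' : (C.per p : ℤ) = 1 := by exact_mod_cast hp
  have h1 : (C.pl p).unif ^ (-b) • x ∈ (A.ch p).L 0 := by
    rw [(A.ch p).smul_iff _ hu, (C.pl p).ord_zpow]
    exact (A.ch p).anti _ _ (by rw [hp']; linarith) hx
  have h2 : (C.pl p).unif ^ (-b) • f x ∈ (B.ch p).L 0 := by
    rw [← map_smul]
    exact h _ h1
  rw [(B.ch p).smul_iff _ hu, (C.pl p).ord_zpow] at h2
  exact (B.ch p).anti _ _ (by rw [hp']; linarith) h2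

/-- the defect of a morphism with respect to integral connections is integral -/
theorem LConn.defect_mem {A : Bun C E} {B : Bun C E₂} {δ : Derivation ℤ F F} {p : P}
    {D : E → E} {D' : E₂ → E₂} (h : LConn A δ p D) (h' : LConn B δ p D') {f : E →ₗ[F] E₂}
    (hf : Mor A B f) : defect h.conn h'.conn f ∈ (A.hom B).lat p := by
  by_cases hp : C.per p = 1
  · refine mem_hom_of_per_one hp fun x hx => ?_
    rw [defect_apply]
    exact Submodule.sub_mem _ (h'.mem _ (hf p 0 x hx)) (hf p 0 _ (h.mem x hx))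
  · rw [Bun.mem_hom_lat]
    intro b x hx
    rw [defect_apply]
    exact Submodule.sub_mem _ (h'.mem' hp b _ (hf p b x hx)) (hf p b _ (h.mem' hp b x hx))

/-- data defining the Kodaira–Spencer class -/
structure KSD (A : Bun C E) (δ : Derivation ℤ F F) where
  D0 : E → E
  D : P → E → E
  conn0 : IsConn δ D0
  loc : ∀ p, LConn A δ p (D p)
  fin : {p | diffL conn0 (loc p).conn ∉ (A.hom A).lat p}.Finite

theorem exists_KSD {δ : Derivation ℤ F F} (hδ : CDer C δ) (A : Bun C E) : Nonempty (KSD A δ) := by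
  classical
  obtain ⟨D0, h0, h1⟩ := exists_gconn hδ A
  choose D hD using exists_lconn hδ A
  have hloc : ∀ p, LConn A δ p (if LConn A δ p D0 then D0 else D p) := by
    intro p
    split_ifs with h
    · exact h
    · exact hD p
  refine ⟨⟨D0, fun p => if LConn A δ p D0 then D0 else D p, h0, hloc, ?_⟩⟩
  rw [Filter.eventually_cofinite] at h1
  refine h1.subset ?_
  intro p hp h
  apply hp
  have : diffL h0 (hloc p).conn = 0 := by
    apply LinearMap.ext
    intro x
    show D0 x - (if LConn A δ p D0 then D0 else D p) x = 0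
    rw [if_pos h, sub_self]
  rw [this]
  exact Submodule.zero_mem _

/-- the Kodaira–Spencer class -/
noncomputable def KSD.cls {A : Bun C E} {δ : Derivation ℤ F F} (K : KSD A δ) :
    HO (A.hom A).lat :=
  H430.cls (A.hom A).lat (fsMk (fun p => diffL K.conn0 (K.loc p).conn) K.fin)

theorem fsLift_fsMk {k P E₁ E₂ : Type*} [Field k] [AddCommGroup E₁] [Module k E₁]
    [AddCommGroup E₂] [Module k E₂] {Λ₁ : P → Submodule k E₁} {Λ₂ : P → Submodule k E₂}
    (g : E₁ →ₗ[k] E₂) (hg : Maps g Λ₁ Λ₂) (x : P → E₁) (h : {p | x p ∉ Λ₁ p}.Finite) (p : P) :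
    (fsLift g hg (fsMk x h)).1 p = (Λ₂ p).mkQ (g (x p)) := by
  rw [fsLift_apply, fsMk_apply]
  rfl

/-- FUNCTORIALITY of the Kodaira–Spencer class -/
theorem KSD.functorial {A : Bun C E} {B : Bun C E₂} {δ : Derivation ℤ F F} (KA : KSD A δ)
    (KB : KSD B δ) {f : E →ₗ[F] E₂} (hf : Mor A B f) :
    hoMap _ (hf.maps_pre B) KB.cls = hoMap _ (hf.maps_post A) KA.cls := by
  unfold KSD.cls
  rw [hoMap_cls, hoMap_cls, ← sub_eq_zero, ← map_sub (H430.cls (A.hom B).lat), cls_eq_zero]
  refine ⟨defect KA.conn0 KB.conn0 f, fun p => ?_⟩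
  change (fsLift (pre (k := k) E₂ f) (hf.maps_pre B) _).1 p -
    (fsLift (post (k := k) E f) (hf.maps_post A) _).1 p = _
  rw [fsLift_fsMk, fsLift_fsMk, ← map_sub ((A.hom B).lat p).mkQ, ← sub_eq_zero,
    ← map_sub ((A.hom B).lat p).mkQ]
  refine (Submodule.Quotient.mk_eq_zero _).2 ?_
  have h1 := (KA.loc p).defect_mem (KB.loc p) hf
  have h2 : pre (k := k) E₂ f (diffL KB.conn0 (KB.loc p).conn) -
      post (k := k) E f (diffL KA.conn0 (KA.loc p).conn)
      - defect KA.conn0 KB.conn0 f = -defect (KA.loc p).conn (KB.loc p).conn f := by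
    apply LinearMap.ext
    intro x
    show (KB.D0 (f x) - KB.D p (f x)) - f (KA.D0 x - KA.D p x) - (KB.D0 (f x) - f (KA.D0 x)) =
      -(KB.D p (f x) - f (KA.D p x))
    rw [map_sub]
    abel
  rw [h2]
  exact Submodule.neg_mem _ h1

end Vale.Agent.P182.H388
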