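import Vale.Agent.P182.H388.RR
import Vale.Agent.P182.H388.KS

/-!
# Two orthogonal null bricks
-/

namespace Vale.Agent.P182.H388

open LinearMap Submodule Module Vale.Agent.P182 Vale.Agent.P182.H430 Vale.Agent.P182.H668
  Vale.Agent.P182.H578

variable {k F P : Type*} [Field k] [Field F] [Algebra k F] {C : Curve k F P}
variable {E : Type*} [AddCommGroup E] [Module F E] [Module k E] [IsScalarTower k F E]
  [FiniteDimensional F E]
variable {E₂ : Type*} [AddCommGroup E₂] [Module F E₂] [Module k E₂] [IsScalarTower k F E₂]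
  [FiniteDimensional F E₂]
variable {E₃ : Type*} [AddCommGroup E₃] [Module F E₃] [Module k E₃] [IsScalarTower k F E₃]
  [FiniteDimensional F E₃]
variable {E₄ : Type*} [AddCommGroup E₄] [Module F E₄] [Module k E₄] [IsScalarTower k F E₄]
  [FiniteDimensional F E₄]

section Iso

/-- isomorphism of bundles -/
def BIso (A : Bun C E) (B : Bun C E₂) (e : E ≃ₗ[F] E₂) : Prop :=
  ∀ p b x, x ∈ (A.ch p).L b ↔ e x ∈ (B.ch p).L b

theorem BIso.hom {A : Bun C E} {B : Bun C E₂} {A' : Bun C E₃} {B' : Bun C E₄} {e : E ≃ₗ[F] E₃}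
    {e' : E₂ ≃ₗ[F] E₄} (h : BIso A A' e) (h' : BIso B B' e') :
    h0 (A.hom B).lat = h0 (A'.hom B').lat ∧ h1 (A.hom B).lat = h1 (A'.hom B').lat ∧
      chi (A.hom B).lat = chi (A'.hom B').lat := by
  have := coh_equiv (Λ₁ := (A.hom B).lat) (Λ₂ := (A'.hom B').lat)
    ((LinearEquiv.arrowCongr e e').restrictScalars k) (fun p f => ?_)
  · exact this.2
  · show f ∈ (A.hom B).lat p ↔ (LinearEquiv.arrowCongr e e') f ∈ (A'.hom B').lat p
    rw [Bun.mem_hom_lat, Bun.mem_hom_lat]
    constructor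
    · intro hf b y hy
      obtain ⟨x, rfl⟩ := e.surjective y
      rw [LinearEquiv.arrowCongr_apply, e.symm_apply_apply]
      exact (h' p b _).1 (hf b x ((h p b x).2 hy))
    · intro hf b x hx
      have h1 := hf b (e x) ((h p b x).1 hx)
      rw [LinearEquiv.arrowCongr_apply, e.symm_apply_apply] at h1
      exact (h' p b _).2 h1

omit [FiniteDimensional F E] [IsScalarTower k F E] in
theorem BIso.refl (A : Bun C E) : BIso A A (LinearEquiv.refl F E) := fun _ _ _ => Iff.rfl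

omit [IsScalarTower k F E₂] [FiniteDimensional F E] [FiniteDimensional F E₂] [IsScalarTower k F E] in
theorem _root_.Vale.Agent.P182.H430.DPair.ext {A : Bun C E} {A' : Bun C E₂}
    {T : E →ₗ[F] E₂ →ₗ[F] F} (h : DPair A A' T) {y y' : E₂} (hy : ∀ x, T x y = T x y') :
    y = y' := by
  apply h.equiv.injective
  apply LinearMap.ext
  exact hy

/-- transposition with respect to two perfect pairings -/
noncomputable def trsL {A : Bun C E} {A' : Bun C E₂} {T : E →ₗ[F] E₂ →ₗ[F] F} (h : DPair A A' T)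
    {B : Bun C E₃} {B' : Bun C E₄} {T' : E₃ →ₗ[F] E₄ →ₗ[F] F} (h' : DPair B B' T') :
    (E →ₗ[F] E₃) →ₗ[F] (E₄ →ₗ[F] E₂) where
  toFun f := h.equiv.symm.toLinearMap ∘ₗ (f.dualMap ∘ₗ h'.equiv.toLinearMap)
  map_add' f g := by
    apply LinearMap.ext
    intro y
    show h.equiv.symm ((h'.equiv y) ∘ₗ (f + g)) = h.equiv.symm ((h'.equiv y) ∘ₗ f) +
      h.equiv.symm ((h'.equiv y) ∘ₗ g)
    rw [LinearMap.comp_add, map_add]
  map_smul' c f := by
    apply LinearMap.ext
    intro y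
    show h.equiv.symm ((h'.equiv y) ∘ₗ (c • f)) = c • h.equiv.symm ((h'.equiv y) ∘ₗ f)
    rw [LinearMap.comp_smul, map_smul]

omit [IsScalarTower k F E] [IsScalarTower k F E₂] [FiniteDimensional F E₂] [IsScalarTower k F E₃]
  [IsScalarTower k F E₄] [FiniteDimensional F E₄] [FiniteDimensional F E]
  [FiniteDimensional F E₃] in
theorem trsL_spec {A : Bun C E} {A' : Bun C E₂} {T : E →ₗ[F] E₂ →ₗ[F] F} (h : DPair A A' T)
    {B : Bun C E₃} {B' : Bun C E₄} {T' : E₃ →ₗ[F] E₄ →ₗ[F] F} (h' : DPair B B' T')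
    (f : E →ₗ[F] E₃) (x : E) (y : E₄) : T x (trsL h h' f y) = T' (f x) y := by
  have h1 : h.equiv (trsL h h' f y) = (h'.equiv y) ∘ₗ f := by
    show h.equiv (h.equiv.symm _) = _
    rw [LinearEquiv.apply_symm_apply]
    rfl
  rw [← h.equiv_apply, h1]
  rfl

/-- transposition with respect to two perfect pairings -/
noncomputable def trs {A : Bun C E} {A' : Bun C E₂} {T : E →ₗ[F] E₂ →ₗ[F] F} (h : DPair A A' T)
    {B : Bun C E₃} {B' : Bun C E₄} {T' : E₃ →ₗ[F] E₄ →ₗ[F] F} (h' : DPair B B' T') :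
    (E →ₗ[F] E₃) ≃ₗ[F] (E₄ →ₗ[F] E₂) :=
  LinearEquiv.ofLinearMap (trsL h h') (trsL h'.symm h.symm) (by
    apply LinearMap.ext
    intro g
    apply LinearMap.ext
    intro y
    apply h.ext
    intro x
    show T x (trsL h h' (trsL h'.symm h.symm g) y) = T x (g y)
    rw [trsL_spec]
    exact trsL_spec h'.symm h.symm g y x) (by
    apply LinearMap.ext
    intro f
    apply LinearMap.ext
    intro x
    apply h'.symm.ext
    intro y
    show T'.flip y (trsL h'.symm h.symm (trsL h h' f) x) = T'.flip y (f x)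
    rw [trsL_spec h'.symm h.symm]
    exact trsL_spec h h' f x y)

theorem trs_spec {A : Bun C E} {A' : Bun C E₂} {T : E →ₗ[F] E₂ →ₗ[F] F} (h : DPair A A' T)
    {B : Bun C E₃} {B' : Bun C E₄} {T' : E₃ →ₗ[F] E₄ →ₗ[F] F} (h' : DPair B B' T')
    (f : E →ₗ[F] E₃) (x : E) (y : E₄) : T x (trs h h' f y) = T' (f x) y :=
  trsL_spec h h' f x y

theorem hom_trs {A : Bun C E} {A' : Bun C E₂} {T : E →ₗ[F] E₂ →ₗ[F] F} (h : DPair A A' T)
    {B : Bun C E₃} {B' : Bun C E₄} {T' : E₃ →ₗ[F] E₄ →ₗ[F] F} (h' : DPair B B' T') :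
    h0 (A.hom B).lat = h0 (B'.hom A').lat ∧ h1 (A.hom B).lat = h1 (B'.hom A').lat ∧
      chi (A.hom B).lat = chi (B'.hom A').lat := by
  have := coh_equiv (Λ₁ := (A.hom B).lat) (Λ₂ := (B'.hom A').lat)
    ((trs h h').restrictScalars k) (fun p f => ?_)
  · exact this.2
  · show f ∈ (A.hom B).lat p ↔ trs h h' f ∈ (B'.hom A').lat p
    rw [Bun.mem_hom_lat, Bun.mem_hom_lat]
    constructor
    · intro hf b y hy
      rw [h.mem]
      intro a x hx
      rw [trs_spec]
      exact (h'.mem p b y).1 hy a _ (hf a x hx)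
    · intro hf b x hx
      rw [h'.symm.mem]
      intro a y hy
      show T' (f x) y ∈ _
      rw [← trs_spec h h', add_comm]
      exact (h.mem p a _).1 (hf a y hy) b x hx

end Iso

section Brick

/-- a brick: all endomorphisms are scalars -/
def Brick (A : Bun C E) : Prop := ∀ f, Mor A A f → ∃ c : k, f = c • (LinearMap.id : E →ₗ[F] E)

/-- `End = k` for a non-zero brick -/
theorem Brick.h0_eq {A : Bun C E} (h : Brick A) (hE : 0 < finrank F E) :
    h0 (A.hom A).lat = 1 := by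
  have hnt : Nontrivial E := nontrivial_of_finrank_pos hE
  have hid : (LinearMap.id : E →ₗ[F] E) ∈ HZ (A.hom A).lat := mor_iff.1 (Mor.id A)
  have h0 : (⟨LinearMap.id, hid⟩ : HZ (A.hom A).lat) ≠ 0 := by
    intro h
    obtain ⟨x, hx⟩ := exists_ne (0 : E)
    exact hx (LinearMap.congr_fun (congrArg Subtype.val h) x)
  refine finrank_eq_one _ h0 fun f => ?_
  obtain ⟨c, hc⟩ := h _ (mor_iff.2 f.2)
  exact ⟨c, Subtype.ext hc.symm⟩

omit [FiniteDimensional F E] [FiniteDimensional F E₂] in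
/-- (6) a bundle with one map to `M`, which is injective, is a brick -/
theorem brick_of_mono {A : Bun C E} {M : Bun C E₂} {φ : E →ₗ[F] E₂} (hφ : Mor A M φ)
    (hi : Function.Injective φ) (h : ∀ f, Mor A M f → ∃ c : k, f = c • φ) : Brick A := by
  intro f hf
  obtain ⟨c, hc⟩ := h _ (hφ.comp hf)
  refine ⟨c, LinearMap.ext fun x => hi ?_⟩
  have := LinearMap.congr_fun hc x
  rw [LinearMap.comp_apply, LinearMap.smul_apply] at this
  rw [this, LinearMap.smul_apply, LinearMap.id_apply, ← algebraMap_smul F c x, map_smul,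
    algebraMap_smul]

omit [IsScalarTower k F E] [FiniteDimensional F E] [FiniteDimensional F E₂]
  [FiniteDimensional F E₃] in
/-- (6) the image of the only map is a brick -/
theorem brick_of_image {A : Bun C E} {B : Bun C E₂} {M : Bun C E₃} {π : E →ₗ[F] E₂}
    {ι : E₂ →ₗ[F] E₃} (hπ : Mor A B π) (hs : Function.Surjective π) (hι : Mor B M ι)
    (hi : Function.Injective ι) (h : ∀ f, Mor A M f → ∃ c : k, f = c • (ι ∘ₗ π)) : Brick B := by
  intro f hf
  obtain ⟨c, hc⟩ := h _ (hι.comp (hf.comp hπ))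
  refine ⟨c, LinearMap.ext fun y => hi ?_⟩
  obtain ⟨x, rfl⟩ := hs y
  have := LinearMap.congr_fun hc x
  rw [LinearMap.comp_apply, LinearMap.comp_apply, LinearMap.smul_apply] at this
  rw [this, LinearMap.smul_apply, LinearMap.id_apply, ← algebraMap_smul F c (π x), map_smul,
    algebraMap_smul]
  rfl

/-- a non-zero Higgs field gives a non-zero `Ext` -/
theorem h1_pos_of_higgs {κ : P → ℤ} (hκ : Dualizing C κ) {A : Bun C E} {B : Bun C E₂}
    {f : E₂ →ₗ[F] E} (hf : ∀ p, f ∈ ((B.hom A).ch p).L (-κ p)) (hf0 : f ≠ 0) :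
    0 < h1 (A.hom B).lat := by
  have h := (DPair.hom A B).serre hκ
  rw [← h.2.1]
  have := h.1.fin0
  have h1 : f ∈ HZ ((B.hom A).tw κ) := mem_HZ.2 hf
  have hnt : Nontrivial (HZ ((B.hom A).tw κ)) :=
    ⟨⟨f, h1⟩, 0, fun h => hf0 (congrArg Subtype.val h)⟩
  exact finrank_pos

end Brick

section Six

/-- (6) `RHom (E, B) = 0` -/
theorem rhom_EB {A : Bun C E} {B : Bun C E₂} {P₁ : Bun C E₃} {M : Bun C E₄} {π : E₃ →ₗ[F] E₂}
    {ι : E₂ →ₗ[F] E₄} (hπ : Mor P₁ B π) (hs : Function.Surjective π) (hι : Mor B M ι)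
    (hi : Function.Injective ι) (h1P : h1 (A.hom P₁).lat = 0) (h0M : h0 (A.hom M).lat = 0) :
    h0 (A.hom B).lat = 0 ∧ h1 (A.hom B).lat = 0 := by
  have e1 := hι.h0_post_le hi A
  have e2 := hπ.h1_post_le hs A
  omega

/-- (6) `RHom (B, E) = 0`, for `B = P₁ / K`, `K` the kernel of the map to `S`, `E` embedded
in `M` -/
theorem rhom_BE {A : Bun C E} {M : Bun C E₂} {P₁ : Bun C E₃} {S : Bun C E₄} {φ : E →ₗ[F] E₂}
    (hφ : Mor A M φ) (hφi : Function.Injective φ) (K : Submodule F E₃) {ι : (E₃ ⧸ K) →ₗ[F] E₄}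
    (hι : Mor (P₁.quo K) S ι) (hi : Function.Injective ι) (hSM : h1 (S.hom M).lat = 0)
    (hPM : h0 (P₁.hom M).lat = 0) (hPA : h0 (P₁.hom A).lat = 0) (hPA' : h1 (P₁.hom A).lat = 0) :
    h0 ((P₁.quo K).hom A).lat = 0 ∧ h1 ((P₁.quo K).hom A).lat = 0 := by
  have e1 := (mor_mkQ P₁ K).h0_pre_le K.mkQ_surjective A
  have e2 := hι.h1_pre_le hi M
  have e3 := h0_sub_eq_zero (A := P₁) (B := M) K hPM (by omega)
  have e4 := hφ.h0_post_le hφi (P₁.sub K)
  have e5 := chi_hom_left P₁ K A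
  unfold chi at e5
  omega

end Six

section Seven

variable {κ : P → ℤ} (hκ : Dualizing C κ)

include hκ in
/-- (7a) THE SYMMETRIC MAP `B^* → B` IS AN ISOMORPHISM -/
theorem seven_a {A : Bun C E} {B : Bun C E₂} {B' : Bun C E₃} {T : E →ₗ[F] E →ₗ[F] F}
    (hT : DPair A A T) {T' : E₂ →ₗ[F] E₃ →ₗ[F] F} (hT' : DPair B B' T')
    (hE : 0 < finrank F E) (hB : Brick B)
    (hm : ∀ p a, finrank F E₂ * mult (A.ch p) a = finrank F E * mult (B.ch p) a)
    (hd : (finrank F E₂ : ℤ) * dg A = finrank F E * dg B)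
    (hAB0 : h0 (A.hom B).lat = 0) (hBA1 : h1 (B.hom A).lat = 0)
    (hBB : h1 (B.hom B).lat ≤ 1) {δ : Derivation ℤ F F} (hδ : CDer C δ) (K : KSD B δ)
    (hK : K.cls ≠ 0) {g : E₃ →ₗ[F] E₂} (hg : Mor B' B g) (hg0 : g ≠ 0) :
    Function.Bijective g ∧ ∀ p b x, g x ∈ (B.ch p).L b → x ∈ (B'.ch p).L b := by
  -- the image
  let G : Bun C (E₃ ⧸ ker g) := B'.quo (ker g)
  let π : E₃ →ₗ[F] (E₃ ⧸ ker g) := (ker g).mkQ
  let j : (E₃ ⧸ ker g) →ₗ[F] E₂ := (ker g).liftQ g le_rfl
  have hπ : Mor B' G π := mor_mkQ B' (ker g)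
  have hπs : Function.Surjective π := (ker g).mkQ_surjective
  have hjπ : ∀ x, j (π x) = g x := fun x => rfl
  have hj : Mor G B j := by
    rintro p b _ ⟨x, hx, rfl⟩
    exact hg p b x hx
  have hji : Function.Injective j := LinearMap.ker_eq_bot.1 (Submodule.ker_liftQ_eq_bot _ _ _
    le_rfl)
  by_contra hcon
  -- `Hom (B, G) = 0`
  have hBG0 : h0 (B.hom G).lat = 0 := by
    rw [h0_eq_zero_iff]
    intro f hf
    obtain ⟨c, hc⟩ := hB _ (hj.comp hf)
    have hc' : ∀ x, j (f x) = c • x := fun x => LinearMap.congr_fun hc x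
    by_cases hc0 : c = 0
    · apply LinearMap.ext
      intro x
      apply hji
      rw [hc', hc0, zero_smul, LinearMap.zero_apply, map_zero]
    · exfalso
      apply hcon
      have hjs : Function.Surjective j := fun x => ⟨f (c⁻¹ • x), by
        rw [hc', smul_smul, mul_inv_cancel₀ hc0, one_smul]⟩
      have hgs : Function.Surjective g := fun x => by
        obtain ⟨y, rfl⟩ := hjs x
        obtain ⟨z, rfl⟩ := hπs y
        exact ⟨z, rfl⟩
      have hgi : Function.Injective g := by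
        refine (LinearMap.injective_iff_surjective_of_finrank_eq_finrank ?_).2 hgs
        rw [hT'.equiv.finrank_eq]
        exact Subspace.dual_finrank_eq (K := F) (V := E₂)
      refine ⟨⟨hgi, hgs⟩, fun p b x hx => ?_⟩
      have h1 : f (g x) ∈ (G.ch p).L b := hf p b _ hx
      have h2 : f (g x) = c • π x := by
        apply hji
        rw [hc', ← algebraMap_smul F c (π x), map_smul, algebraMap_smul, hjπ]
      rw [h2] at h1
      have h3 : π x ∈ (G.ch p).L b := by
        have := Submodule.smul_mem _ c⁻¹ h1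
        rwa [smul_smul, inv_mul_cancel₀ hc0, one_smul] at this
      obtain ⟨y, hy, hyx⟩ := h3
      have h4 : y = x := hgi (by rw [← hjπ, ← hjπ]; exact congrArg j hyx)
      rwa [← h4]
  -- transposes
  have t1 := hom_trs hT hT'
  have t3 := hom_trs hT' hT
  -- `RHom (G, E) = 0 = RHom (E, G)`
  have c1 := hπ.h0_pre_le hπs A
  have c2 := hj.h1_pre_le hji A
  have c3 := hj.h0_post_le hji A
  have c4 := hπ.h1_post_le hπs A
  have d1 : chi (G.hom A).lat = 0 := by
    unfold chi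
    have := t1.1
    omega
  have d2 : chi (A.hom G).lat = 0 := by
    unfold chi
    have := t3.2.1
    omega
  have hE' : (finrank F E : ℤ) ≠ 0 := by exact_mod_cast hE.ne'
  have d3 : chi (B.hom G).lat = 0 := by
    have := chi_prop_left hκ A B hm hd G
    rw [d2, mul_zero] at this
    exact (mul_eq_zero.1 this.symm).resolve_left hE'
  have d4 : chi (G.hom B).lat = 0 := by
    have := chi_prop_right hκ A B hm hd G
    rw [d1, mul_zero] at this
    exact (mul_eq_zero.1 this.symm).resolve_left hE'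
  have hBG1 : h1 (B.hom G).lat = 0 := by
    unfold chi at d3
    omega
  have hGG1 : h1 (G.hom G).lat = 0 := by
    have := hj.h1_pre_le hji G
    omega
  have f1 := (G.hom G).finCoh.fin1
  have hsub : Subsingleton (HO (G.hom G).lat) := finrank_zero_iff.1 hGG1
  -- `Ext (B, B)` is spanned by the Kodaira–Spencer class
  have f2 := (B.hom B).finCoh.fin1
  have hspan : ∀ z : HO (B.hom B).lat, ∃ c : k, c • K.cls = z := by
    have h5 : finrank k (HO (B.hom B).lat) = 1 := by
      have hnt : Nontrivial (HO (B.hom B).lat) := ⟨K.cls, 0, hK⟩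
      have h6 : 0 < finrank k (HO (B.hom B).lat) := finrank_pos
      exact le_antisymm hBB h6
    exact (finrank_eq_one_iff_of_nonzero' K.cls hK).1 h5
  have hGB1 : h1 (G.hom B).lat = 0 := by
    have key : ∀ y : HO (G.hom B).lat, y = 0 := by
      intro y
      obtain ⟨z, rfl⟩ := hj.ho_pre_surj hji B y
      obtain ⟨c, rfl⟩ := hspan z
      obtain ⟨KG⟩ := exists_KSD hδ G
      rw [map_smul, KG.functorial K hj, Subsingleton.elim KG.cls 0, map_zero, smul_zero]
    have hs : Subsingleton (HO (G.hom B).lat) := ⟨fun a b => by rw [key a, key b]⟩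
    exact finrank_zero_iff.2 hs
  have hGB0 : h0 (G.hom B).lat = 0 := by
    unfold chi at d4
    omega
  have hj0 := h0_eq_zero_iff.1 hGB0 j hj
  apply hg0
  apply LinearMap.ext
  intro x
  rw [← hjπ, hj0]
  rfl

end Seven

end Vale.Agent.P182.H388
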