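import Vale.Agent.P182.H388.NullI
import Vale.Agent.P182.H89.EndI
import Vale.Agent.P182.H55.FlowI

/-!
# (END), step (B), at the base `t + x t'`

`H55.der_HHI'` is applied at the base `t + x t'`, for the core `H89.coreI`, and translated back to
the base `t`.
-/

namespace Vale.Agent.P182.H388

open Vale.Agent.P182.H922 hiding ext0
open Module Matrix Vale.Agent.P182.H533 Vale.Agent.P182.B1 Vale.Agent.P182.H578
  Vale.Agent.P182.H588 Vale.Agent.P182.H181 Vale.Agent.P182.H983 Vale.Agent.P182.H89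

universe u v w

section alg

variable {R : Type*} [Ring R]

/-- inverses commute -/
theorem inv_comm {g gi M : R} (h1 : g * gi = 1) (h2 : gi * g = 1) (hM : M * g = g * M) :
    M * gi = gi * M := by
  have h3 : gi * (M * g) * gi = gi * (g * M) * gi := by rw [hM]
  rw [← mul_assoc, mul_assoc, h1, mul_one] at h3
  rw [h3, ← mul_assoc, h2, one_mul]

theorem alg1 {g gi S G : R} (h1 : g * gi = 1) (h2 : gi * g = 1) (hS : g * S = S * g)
    (hG : G * g = g * G) (hGS : G * S = S * G) :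
    gi * G * (g ^ 2 * S) = g ^ 2 * S * (gi * G) ∧ S * (G * g) = g ^ 2 * S * (gi * G) := by
  have c1 : Commute g gi := by rw [Commute, SemiconjBy, h1, h2]
  have c2 : Commute g S := hS
  have c3 : Commute G g := hG
  have c4 : Commute G S := hGS
  have c5 : Commute S gi := inv_comm h1 h2 hS.symm
  have c6 : Commute G gi := inv_comm h1 h2 hG
  refine ⟨((c1.symm.pow_right 2).mul_right c5.symm).mul_left ((c3.pow_right 2).mul_right c4), ?_⟩
  have e1 : g ^ 2 * S * (gi * G) = g * (g * gi) * (S * G) := by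
    have e2 : S * (gi * G) = gi * (S * G) := by rw [← mul_assoc, c5.eq, mul_assoc]
    rw [mul_assoc, e2, pow_two]
    simp only [mul_assoc]
  rw [e1, h1, mul_one, c3.eq, ← mul_assoc, ← mul_assoc, ← hS]

theorem alg2 {g gi S G : R} (h2 : gi * g = 1)
    (hG : G * g = g * G) (hGS : G * (g ^ 2 * S) = g ^ 2 * S * G) : G * S = S * G := by
  have c3 : Commute G g := hG
  have e1 : g ^ 2 * (G * S) = g ^ 2 * (S * G) := by
    have e2 : g ^ 2 * G = G * g ^ 2 := ((c3.pow_right 2).eq).symm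
    rw [← mul_assoc, e2, mul_assoc, hGS, mul_assoc]
  have e3 : gi ^ 2 * g ^ 2 = 1 := by
    rw [pow_two, pow_two, mul_assoc, ← mul_assoc gi g, h2, one_mul, h2]
  have e4 := congrArg (gi ^ 2 * ·) e1
  beta_reduce at e4
  rwa [← mul_assoc, ← mul_assoc (gi ^ 2), e3, one_mul, one_mul] at e4

end alg

section base

variable {L : Type u} {V : Type v} {J : Type w} [Field L] [AddCommGroup V] [Module L V]
  [FiniteDimensional L V] [Fintype J] [DecidableEq J] {𝒟 : Cfg L V J} {u : J → L}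
  {hG : 𝒟.Good} {t t' : J → V} {C : Core 𝒟.q (Res 𝒟 t)} {D : End L C.V1} {Dh : End L V}

/-- the inverse of `1 + x Dh` on `W` -/
theorem exists_inv (h : DHat hG t' C D Dh) {x : L} (hu : IsUnit (1 + x • D))
    (hon : ∀ w ∈ C.W, ∃ w' ∈ C.W, (1 + x • Dh) w' = w) :
    ∃ M : End L V, (∀ w ∈ C.W, M w ∈ C.W) ∧ (∀ w ∈ C.I, M w ∈ C.I) ∧
      (∀ w ∈ C.W, (1 + x • Dh) (M w) = w) ∧
      ∀ w ∈ C.W, (1 + x • D) (C.P hG.form (M w)) = C.P hG.form w := by
  have hmem : ∀ w ∈ C.W, (1 + x • Dh) w ∈ C.W := fun w hw => h.mem1 x hw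
  set f : End L C.W := (1 + x • Dh).restrict hmem with hf
  have hsurj : Function.Surjective f := by
    rintro ⟨w, hw⟩
    obtain ⟨w', hw', e⟩ := hon w hw
    exact ⟨⟨w', hw'⟩, Subtype.ext e⟩
  obtain ⟨g, hg⟩ := f.exists_rightInverse_of_surjective (LinearMap.range_eq_top.mpr hsurj)
  obtain ⟨π, hπ⟩ := LinearMap.exists_leftInverse_of_injective C.W.subtype
    (Submodule.ker_subtype C.W)
  have hπ' : ∀ w (hw : w ∈ C.W), π w = ⟨w, hw⟩ := fun w hw =>
    LinearMap.congr_fun hπ (⟨w, hw⟩ : C.W)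
  have e1 : ∀ w ∈ C.W, (1 + x • Dh) ((C.W.subtype ∘ₗ g ∘ₗ π) w) = w := by
    intro w hw
    have h2 : f (g (π w)) = π w := LinearMap.congr_fun hg (π w)
    have h3 := congrArg Subtype.val h2
    have h4 : ((π w : C.W) : V) = w := congrArg Subtype.val (hπ' w hw)
    rw [h4] at h3
    exact h3
  have e0 : ∀ w, (C.W.subtype ∘ₗ g ∘ₗ π) w ∈ C.W := fun w => (g (π w)).2
  have e2 : ∀ w ∈ C.W, (1 + x • D) (C.P hG.form ((C.W.subtype ∘ₗ g ∘ₗ π) w)) =
      C.P hG.form w := by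
    intro w hw
    rw [← h.core1 x (e0 w), e1 w hw]
  refine ⟨C.W.subtype ∘ₗ g ∘ₗ π, fun w _ => e0 w, fun w hw => ?_, e1, e2⟩
  apply mem_I_of C hG.form (e0 w)
  have h5 := e2 w hw.1
  rw [P_I C hG.form hw] at h5
  obtain ⟨gi, hgi⟩ := hu.exists_left_inv
  have h6 := congrArg gi h5
  rw [map_zero, ← Module.End.mul_apply, hgi] at h6
  exact h6

/-- an operator preserving `W` and `I` is determined modulo `I` by its effect on the core -/
theorem sub_mem_I (hG : 𝒟.Good) {A B : V} (hA : A ∈ C.W) (hB : B ∈ C.W)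
    (h : C.P hG.form A = C.P hG.form B) : A - B ∈ C.I := by
  apply mem_I_of C hG.form (sub_mem hA hB)
  rw [map_sub, h, sub_self]

/-- facts on an operator of the auxiliary class -/
theorem relG_core (hG : 𝒟.Good) {τ : J → V} (C : Core 𝒟.q (Res 𝒟 τ)) {Γ : End L V} {r : J → V}
    (hr : RelG 𝒟 C.W C.I τ Γ r) : IsSA C.q1 (C.res hG.form Γ) ∧
      (∀ s, C.res hG.form Γ * C.S1 hG.form s = C.S1 hG.form s * C.res hG.form Γ) ∧
      ∀ w ∈ C.W, C.P hG.form (Γ w) = C.res hG.form Γ (C.P hG.form w) := by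
  have hq := hG.form
  have hSA : ∀ s, IsSA 𝒟.q (Res 𝒟 τ s) := Sop_SA 𝒟.arm hq (Tt L τ) hG.skew
  have hP : ∀ w ∈ C.W, C.P hq (Γ w) = C.res hq Γ (C.P hq w) := fun w hw =>
    H55.P_res hq C hr.mapI hw
  refine ⟨?_, fun a => ?_, hP⟩
  · intro v w
    have e1 := hr.sa _ (C.V1_le v.2) _ (C.V1_le w.2)
    rw [C.res_apply, C.res_apply, C.q_P, e1, (C.isForm hq).symm, C.q_P, hq.symm]
  · refine LinearMap.ext fun v => ?_
    have e1 := C.P_eq_zero hq (C.I_le_perp (hr.comm a _ (C.V1_le v.2)))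
    rw [map_sub, hP _ (C.map_W (C.V1_le v.2)), P_S_W C hq hSA a (C.V1_le v.2),
      P_S_W C hq hSA a (hr.mapW _ (C.V1_le v.2)), hP _ (C.V1_le v.2), C.P_coe, sub_eq_zero] at e1
    exact e1

omit [FiniteDimensional L V] in
/-- the inverse of `1 + x D` -/
theorem exists_gi (hDs : IsSA C.q1 D) {x : L} (hu : IsUnit (1 + x • D)) :
    ∃ gi : End L C.V1, (1 + x • D) * gi = 1 ∧ gi * (1 + x • D) = 1 ∧ IsSA C.q1 gi := by
  obtain ⟨gi, hgi1⟩ := hu.exists_right_inv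
  obtain ⟨gj, hgj⟩ := hu.exists_left_inv
  have hgi2 : gi * (1 + x • D) = 1 := by
    have : gj = gi := by
      calc gj = gj * ((1 + x • D) * gi) := by rw [hgi1, mul_one]
        _ = gi := by rw [← mul_assoc, hgj, one_mul]
    rw [← this]; exact hgj
  have hgs : IsSA C.q1 (1 + x • D) := by
    intro u w
    rw [LinearMap.add_apply, LinearMap.add_apply, map_add, map_add, LinearMap.add_apply,
      LinearMap.smul_apply, LinearMap.smul_apply, map_smul, map_smul, LinearMap.smul_apply, hDs]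
    rfl
  refine ⟨gi, hgi1, hgi2, fun u w => ?_⟩
  have e1 : ∀ v, v = (1 + x • D) (gi v) := fun v => (LinearMap.congr_fun hgi1 v).symm
  conv_lhs => rw [e1 w]
  conv_rhs => rw [e1 u]
  rw [← hgs, hgs, ← hgs (gi u) (gi w)]

/-- **The auxiliary class does not depend on the base.** -/
theorem relG_up (h : DHat hG t' C D Dh) (hrel : Rel 𝒟 t t') (hDs : IsSA C.q1 D)
    (hDc : ∀ s, D * C.S1 hG.form s = C.S1 hG.form s * D)
    (hcen : ∀ M : End L C.V1, IsSA C.q1 M →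
      (∀ s, M * C.S1 hG.form s = C.S1 hG.form s * M) → M * D = D * M)
    {x : L} (hu : IsUnit (1 + x • D))
    (hon : ∀ w ∈ C.W, ∃ w' ∈ C.W, (1 + x • Dh) w' = w) {Γ : End L V} {r : J → V}
    (hr : RelG 𝒟 C.W C.I t Γ r) : ∃ Γ', RelG 𝒟 C.W C.I (t + x • t') Γ' r := by
  have hq := hG.form
  have hSA : ∀ s, IsSA 𝒟.q (Res 𝒟 t s) := Sop_SA 𝒟.arm hq (Tt L t) hG.skew
  obtain ⟨M, hM1, hM2, hM3, hM4⟩ := exists_inv h hu hon
  obtain ⟨hΓs, hΓc, hΓP⟩ := relG_core hG C hr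
  set Γ1 := C.res hq Γ with hΓ1
  set g : End L C.V1 := 1 + x • D with hg
  obtain ⟨gi, hgi1, hgi2, hgis⟩ := exists_gi hDs hu
  have hΓD := hcen Γ1 hΓs hΓc
  have hgS : ∀ s, g * C.S1 hq s = C.S1 hq s * g := fun s => comm1 (hDc s) x
  have hΓg : Γ1 * g = g * Γ1 := by
    rw [hg, mul_add, add_mul, mul_one, one_mul, mul_smul_comm, smul_mul_assoc, hΓD]
  have hMP : ∀ w ∈ C.W, C.P hq (M w) = gi (C.P hq w) := by
    intro w hw
    have h1 := congrArg gi (hM4 w hw)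
    rw [← Module.End.mul_apply, hgi2] at h1
    exact h1
  have hsa : IsSA C.q1 (gi * Γ1) := by
    intro u w
    have e1 : gi * Γ1 = Γ1 * gi := (inv_comm hgi1 hgi2 hΓg).symm
    rw [Module.End.mul_apply, hgis, hΓs, ← Module.End.mul_apply, ← e1]
  have hP' : ∀ w ∈ C.W, C.P hq ((M * Γ) w) = (gi * Γ1) (C.P hq w) := by
    intro w hw
    rw [Module.End.mul_apply, hMP _ (hr.mapW w hw), hΓP w hw, Module.End.mul_apply]
  have hW' : ∀ w ∈ C.W, (M * Γ) w ∈ C.W := fun w hw => hM1 _ (hr.mapW w hw)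
  have hmx : ∀ a, ∀ w ∈ C.W, Res 𝒟 (t + x • t') a w ∈ C.W := fun a w hw => by
    rw [h.res_tx hrel x a hw]
    exact C.map_W (h.mem1 x (h.mem1 x hw))
  refine ⟨M * Γ, hW', fun w hw => hM2 _ (hr.mapI w hw), H55.sa_of_P hq C hsa hW' hP', ?_, ?_, ?_⟩
  · intro a w hw
    refine sub_mem_I hG (hW' _ (hmx a w hw)) (hmx a _ (hW' w hw)) ?_
    rw [hP' _ (hmx a w hw), P_Resx' h hrel hDc x a hw, P_Resx' h hrel hDc x a (hW' w hw),
      hP' w hw, ← Module.End.mul_apply, ← Module.End.mul_apply,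
      (alg1 hgi1 hgi2 (hgS a) hΓg (hΓc a)).1]
  · intro w hw l
    rw [hr.one w hw l, hq.symm _ (t l), hq.symm _ ((t + x • t') l), h.rel1 x (hW' w hw),
      Module.End.mul_apply, hM3 _ (hr.mapW w hw)]
  · intro a w hw
    have h1 := h.mem1 x hw
    have h2 := hr.two a _ h1
    rw [h.opr_right x r a hw]
    have h3 : Res 𝒟 t a (Γ ((1 + x • Dh) w)) - Res 𝒟 (t + x • t') a ((M * Γ) w) ∈ C.I := by
      refine sub_mem_I hG (C.map_W (hr.mapW _ h1)) (hmx a _ (hW' w hw)) ?_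
      rw [P_S_W C hq hSA a (hr.mapW _ h1), hΓP _ h1, h.core1 x hw,
        P_Resx' h hrel hDc x a (hW' w hw), hP' w hw]
      exact LinearMap.congr_fun (alg1 hgi1 hgi2 (hgS a) hΓg (hΓc a)).2 (C.P hq w)
    have h4 := add_mem h2 h3
    rwa [sub_add_sub_cancel] at h4

/-- the auxiliary class at `t + x t'` is contained in the one at `t` -/
theorem relG_down (h : DHat hG t' C D Dh) (hrel : Rel 𝒟 t t') (hDs : IsSA C.q1 D)
    (hDc : ∀ s, D * C.S1 hG.form s = C.S1 hG.form s * D)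
    {x : L} (hx : GoodI hG t' C D Dh x) {Γ : End L V} {r : J → V}
    (hr : RelG 𝒟 C.W C.I (t + x • t') Γ r) : ∃ Γ', RelG 𝒟 C.W C.I t Γ' r := by
  have hq := hG.form
  have hSA : ∀ s, IsSA 𝒟.q (Res 𝒟 t s) := Sop_SA 𝒟.arm hq (Tt L t) hG.skew
  obtain ⟨M, hM1, hM2, hM3, hM4⟩ := exists_inv h hx.unit hx.onto
  have hcore : IsSA C.q1 (C.res hG.form Γ) ∧
      (∀ s, C.res hG.form Γ * C.res hG.form (Res 𝒟 (t + x • t') s) =
        C.res hG.form (Res 𝒟 (t + x • t') s) * C.res hG.form Γ) ∧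
      ∀ w ∈ C.W, C.P hG.form (Γ w) = C.res hG.form Γ (C.P hG.form w) :=
    relG_core hG (coreI h hrel hx.onto hx.nil) hr
  obtain ⟨hΓs, hΓc, hΓP⟩ := hcore
  set Γ1 := C.res hq Γ with hΓ1
  set g : End L C.V1 := 1 + x • D with hg
  have hΓc' : ∀ s, Γ1 * (g ^ 2 * C.S1 hq s) = g ^ 2 * C.S1 hq s * Γ1 := fun s => by
    rw [← resI h hrel hDc x s]
    exact hΓc s
  obtain ⟨gi, hgi1, hgi2, hgis⟩ := exists_gi hDs hx.unit
  have hΓD := hx.central Γ1 hΓs hΓc'
  have hgS : ∀ s, g * C.S1 hq s = C.S1 hq s * g := fun s => comm1 (hDc s) x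
  have hΓg : Γ1 * g = g * Γ1 := by
    rw [hg, mul_add, add_mul, mul_one, one_mul, mul_smul_comm, smul_mul_assoc, hΓD]
  have hΓS : ∀ s, Γ1 * C.S1 hq s = C.S1 hq s * Γ1 := fun s =>
    alg2 hgi2 hΓg (hΓc' s)
  have hMP : ∀ w ∈ C.W, C.P hq (M w) = gi (C.P hq w) := by
    intro w hw
    have h1 := congrArg gi (hM4 w hw)
    rw [← Module.End.mul_apply, hgi2] at h1
    exact h1
  have hgs : IsSA C.q1 g := by
    intro u w
    rw [hg, LinearMap.add_apply, LinearMap.add_apply, map_add, map_add, LinearMap.add_apply,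
      LinearMap.smul_apply, LinearMap.smul_apply, map_smul, map_smul, LinearMap.smul_apply, hDs]
    rfl
  have hsa : IsSA C.q1 (g * Γ1) := by
    intro u w
    rw [Module.End.mul_apply, hgs, hΓs, ← Module.End.mul_apply, hΓg]
  have hW' : ∀ w ∈ C.W, ((1 + x • Dh) * Γ) w ∈ C.W := fun w hw => h.mem1 x (hr.mapW w hw)
  have hP' : ∀ w ∈ C.W, C.P hq (((1 + x • Dh) * Γ) w) = (g * Γ1) (C.P hq w) := by
    intro w hw
    rw [Module.End.mul_apply, h.core1 x (hr.mapW w hw), hΓP w hw, Module.End.mul_apply]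
  have hmx : ∀ a, ∀ w ∈ C.W, Res 𝒟 (t + x • t') a w ∈ C.W := fun a w hw => by
    rw [h.res_tx hrel x a hw]
    exact C.map_W (h.mem1 x (h.mem1 x hw))
  refine ⟨(1 + x • Dh) * Γ, hW', fun w hw => ?_, H55.sa_of_P hq C hsa hW' hP', ?_, ?_, ?_⟩
  · apply mem_I_of C hq (hW' w (C.I_le hw))
    rw [hP' w (C.I_le hw), P_I C hq hw, map_zero]
  · intro a w hw
    refine sub_mem_I hG (hW' _ (C.map_W hw)) (C.map_W (hW' w hw)) ?_
    rw [hP' _ (C.map_W hw), P_S_W C hq hSA a hw, P_S_W C hq hSA a (hW' w hw), hP' w hw]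
    have e : g * Γ1 * C.S1 hq a = C.S1 hq a * (g * Γ1) := by
      rw [mul_assoc, hΓS, ← mul_assoc, hgS, mul_assoc]
    exact LinearMap.congr_fun e (C.P hq w)
  · intro w hw l
    rw [hr.one w hw l, hq.symm _ (t l), hq.symm _ ((t + x • t') l), h.rel1 x (hr.mapW w hw),
      Module.End.mul_apply]
  · intro a w hw
    have h1 := hM1 w hw
    have h2 := hr.two a _ h1
    rw [h.opr_right x r a h1, hM3 w hw] at h2
    have h3 : Res 𝒟 (t + x • t') a (Γ (M w)) - Res 𝒟 t a (((1 + x • Dh) * Γ) w) ∈ C.I := by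
      refine sub_mem_I hG (hmx a _ (hr.mapW _ h1)) (C.map_W (hW' w hw)) ?_
      rw [P_S_W C hq hSA a (hW' w hw), hP' w hw, P_Resx' h hrel hDc x a (hr.mapW _ h1),
        hΓP _ h1, hMP w hw]
      have e : g ^ 2 * C.S1 hq a * (Γ1 * gi) = C.S1 hq a * (g * Γ1) := by
        rw [inv_comm hgi1 hgi2 hΓg, ← hΓg]
        exact ((alg1 hgi1 hgi2 (hgS a) hΓg (hΓS a)).2).symm
      exact LinearMap.congr_fun e (C.P hq w)
    have h4 := add_mem h2 h3
    rwa [sub_add_sub_cancel] at h4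

/-- **`WF` does not depend on the base.** -/
theorem WF_base (h : DHat hG t' C D Dh) (hrel : Rel 𝒟 t t') (hDs : IsSA C.q1 D)
    (hDc : ∀ s, D * C.S1 hG.form s = C.S1 hG.form s * D)
    (hcen : ∀ M : End L C.V1, IsSA C.q1 M →
      (∀ s, M * C.S1 hG.form s = C.S1 hG.form s * M) → M * D = D * M)
    {x : L} (hx : GoodI hG t' C D Dh x) :
    WF 𝒟 (t + x • t') C.W C.I u = WF 𝒟 t C.W C.I u := by
  refine le_antisymm ?_ ?_
  · rintro y ⟨r, hr, ⟨Γ, hΓ⟩, hy⟩
    exact ⟨r, hr, relG_down h hrel hDs hDc hx hΓ, hy⟩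
  · rintro y ⟨r, hr, ⟨Γ, hΓ⟩, hy⟩
    exact ⟨r, hr, relG_up h hrel hDs hDc hcen hx.unit hx.onto hΓ, hy⟩

/-- (C0) at the base `t + x t'` -/
theorem rowC0_base (h : DHat hG t' C D Dh) (hC0 : RowC0 𝒟 u t C.W C.I) {x : L}
    (hWF : WF 𝒟 (t + x • t') C.W C.I u = WF 𝒟 t C.W C.I u) :
    RowC0 𝒟 u (t + x • t') C.W C.I := by
  obtain ⟨Da, hDa⟩ := exists_adjI hG.form Dh
  intro a T hT
  rw [hWF]
  have hT2 : T * (1 + x • Da) ∈ Ten 𝒟.q C.I C.W ⊔ Ten 𝒟.q C.W C.I := by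
    obtain ⟨T1, hT1, T2, hT2, rfl⟩ := Submodule.mem_sup.mp hT
    rw [add_mul]
    refine Submodule.add_mem_sup ⟨fun v => hT1.1 _, fun v hv => ?_⟩
      ⟨fun v => hT2.1 _, fun v hv => ?_⟩
    · rw [Module.End.mul_apply]; exact hT1.2 _ (adj_perp h hDa x hv)
    · rw [Module.End.mul_apply]; exact hT2.2 _ (adj_perpI h hDa x hv)
  have hTW : ∀ b, (Pi.single a T : Fin 3 → End L V) b ∈ Ten 𝒟.q C.W C.W := by
    intro b
    by_cases hb : b = a
    · subst hb; rw [Pi.single_eq_same]; exact H55.IW_le C hT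
    · rw [Pi.single_eq_of_ne hb]; exact zero_mem _
  rw [fam_base h hDa hTW x]
  have e1 : (fun b => (Pi.single a T : Fin 3 → End L V) b * (1 + x • Da)) =
      Pi.single a (T * (1 + x • Da)) := by
    funext b
    by_cases hb : b = a
    · subst hb; rw [Pi.single_eq_same, Pi.single_eq_same]
    · rw [Pi.single_eq_of_ne hb, Pi.single_eq_of_ne hb, zero_mul]
  rw [e1]
  exact hC0 a _ hT2

/-- **(END), step (B)**, in the form of `null_endI`. -/
theorem endB (hC : Ctx 𝒟 u) {t t' : J → V} (ht : t ∈ Ku 𝒟 u) (ht' : t' ∈ Ku 𝒟 u)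
    {C : Core 𝒟.q (Res 𝒟 t)} {D : End L C.V1} {Dh : End L V}
    (h : DHat hC.good t' C D Dh) (hDs : IsSA C.q1 D)
    (hDc : ∀ s, D * C.S1 hC.good.form s = C.S1 hC.good.form s * D)
    (hD1 : ∀ s, C.res hC.good.form (opr 𝒟.q (Tt L t) (Gm 𝒟.arm 𝒟.Ω s) (Tt L t')) =
      C.S1 hC.good.form s * D)
    (hspan : ∀ k ∈ Ku 𝒟 u, ∃ a b : L, k = a • t + b • t')
    (hC0 : RowC0 𝒟 u t C.W C.I)
    (hcen : ∀ M : End L C.V1, IsSA C.q1 M →
      (∀ s, M * C.S1 hC.good.form s = C.S1 hC.good.form s * M) → M * D = D * M)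
    (h2 : (2 : L) ≠ 0) {n : ℕ} {P : Fin n → End L C.V1} {d : Fin n → L}
    (hb : BlkD hC.good C D P d) (s : Fin 3)
    (H2 : ∀ h : End L C.V1, (∀ i, P i * h * P i = 0) →
      (∀ c : ℕ, ∀ v ∈ LinearMap.range (C.S1 hC.good.form s ^ c),
        h v ∈ LinearMap.range (C.S1 hC.good.form s ^ c)) → h ∈ HHI hC.good u C s)
    {x : L} (hx : GoodI hC.good t' C D Dh x) {Y Y' : End L C.V1} (hY : IsSk C.q1 Y)
    (hYo : ∀ i, P i * Y * P i = 0)
    (hYc : Y * ((1 + x • D) ^ 2 * C.S1 hC.good.form s) =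
      (1 + x • D) ^ 2 * C.S1 hC.good.form s * Y)
    (hYY : (1 + x • D) * Y' = Y * (1 + x • D))
    {k : End L C.V1} (hko : ∀ i, P i * k * P i = 0)
    (hkr : ∀ c : ℕ, ∀ v ∈ LinearMap.range (C.S1 hC.good.form s ^ c),
      k v ∈ LinearMap.range (C.S1 hC.good.form s ^ c)) :
    k * Y' - Y * k ∈ HHI hC.good u C s := by
  have hG := hC.good
  have hq := hG.form
  have hrel : Rel 𝒟 t t' := U.rel_of_krel hC.krel ht ht'
  have hWF := WF_base (u := u) h hrel hDs hDc hcen hx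
  have htx : t + x • t' ∈ Ku 𝒟 u := Submodule.add_mem _ ht (Submodule.smul_mem _ _ ht')
  set g : End L C.V1 := 1 + x • D with hg
  obtain ⟨gi, hgi1, hgi2, hgis⟩ := exists_gi hDs hx.unit
  have hgS : ∀ s, g * C.S1 hq s = C.S1 hq s * g := fun s => comm1 (hDc s) x
  have hDg : D * g = g * D := by rw [hg, mul_add, add_mul, mul_one, one_mul, mul_smul_comm,
    smul_mul_assoc]
  have hDgi : D * gi = gi * D := inv_comm hgi1 hgi2 hDg
  have hgiS : ∀ s, C.S1 hq s * gi = gi * C.S1 hq s := fun s =>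
    inv_comm hgi1 hgi2 (hgS s).symm
  have hPD : ∀ i, P i * D = D * P i := fun i => by rw [hb.diag.mul_D, hb.diag.D_mul]
  have hPg : ∀ i, P i * g = g * P i := fun i => by
    rw [hg, mul_add, add_mul, mul_one, one_mul, mul_smul_comm, smul_mul_assoc, hPD]
  have hPgi : ∀ i, P i * gi = gi * P i := fun i => inv_comm hgi1 hgi2 (hPg i)
  have hne : ∀ i, 1 + x * d i ≠ 0 := fun i => hb.ne_zero hx.unit i
  -- the operator at the base `t + x t'`
  set Dx : End L C.V1 := D * gi with hDx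
  have hgd : ∀ i, g * P i = (1 + x * d i) • P i := fun i => by
    rw [hg, add_mul, one_mul, smul_mul_assoc, hb.diag.D_mul, smul_smul, add_smul, one_smul]
  have hdiag : Diag Dx P (fun i => d i / (1 + x * d i)) := by
    refine ⟨hb.diag.sq, hb.diag.ortho, hb.sum, fun i j hij => ?_, ?_⟩
    · beta_reduce at hij
      rw [div_eq_div_iff (hne i) (hne j)] at hij
      apply hb.inj
      linear_combination hij
    · have e1 : Dx = ∑ i, Dx * P i := by rw [← Finset.mul_sum, hb.sum, mul_one]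
      rw [e1]
      refine Finset.sum_congr rfl fun i _ => ?_
      have e2 : gi * P i = (1 + x * d i)⁻¹ • P i := by
        have e3 : gi * (g * P i) = P i := by rw [← mul_assoc, hgi2, one_mul]
        rw [hgd, mul_smul_comm] at e3
        rw [← e3, smul_smul, inv_mul_cancel₀ (hne i), one_smul, e3]
      rw [hDx, mul_assoc, e2, mul_smul_comm, hb.diag.D_mul, smul_smul, div_eq_inv_mul]
  have hS1x : ∀ s, (coreI h hrel hx.onto hx.nil).S1 hq s = (g ^ 2 * C.S1 hq s : End L C.V1) :=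
    fun s => resI h hrel hDc x s
  have hcx : ∀ {M : End L C.V1}, M * D = D * M → M * Dx = Dx * M := by
    intro M hM
    have e1 : M * g = g * M := by
      rw [hg, mul_add, add_mul, mul_one, one_mul, mul_smul_comm, smul_mul_assoc, hM]
    rw [hDx, ← mul_assoc, hM, mul_assoc, inv_comm hgi1 hgi2 e1, mul_assoc]
  -- ranges
  have hrange : ∀ c : ℕ, LinearMap.range ((g ^ 2 * C.S1 hq s) ^ c) =
      LinearMap.range (C.S1 hq s ^ c) := by
    intro c
    have c1 : Commute (g ^ 2) (C.S1 hq s) := (Commute.pow_left (hgS s) 2)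
    have e1 : (g ^ 2 * C.S1 hq s) ^ c = C.S1 hq s ^ c * (g ^ 2) ^ c := by
      rw [c1.mul_pow, (c1.pow_pow c c).eq]
    have e2 : (g ^ 2) ^ c * (gi ^ 2) ^ c = 1 := by
      have c2 : Commute g gi := by rw [Commute, SemiconjBy, hgi1, hgi2]
      rw [← pow_mul, ← pow_mul, ← c2.mul_pow, hgi1, one_pow]
    apply le_antisymm
    · rintro _ ⟨w, rfl⟩
      exact ⟨((g ^ 2) ^ c) w, by rw [e1]; rfl⟩
    · rintro _ ⟨w, rfl⟩
      refine ⟨((gi ^ 2) ^ c) w, ?_⟩
      rw [e1]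
      have e3 := LinearMap.congr_fun e2 w
      show (C.S1 hq s ^ c) (((g ^ 2) ^ c * (gi ^ 2) ^ c) w) = _
      rw [e2]
      rfl
  have hSc : ∀ (M : End L C.V1), M * C.S1 hq s = C.S1 hq s * M → ∀ c : ℕ,
      ∀ v ∈ LinearMap.range (C.S1 hq s ^ c), M v ∈ LinearMap.range (C.S1 hq s ^ c) := by
    rintro M hM c _ ⟨w, rfl⟩
    refine ⟨M w, ?_⟩
    have h1 : M * C.S1 hq s ^ c = C.S1 hq s ^ c * M := (Commute.pow_right hM c)
    exact (LinearMap.congr_fun h1 w).symm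
  -- the two spaces
  have hHH : ∀ k : End L C.V1, k ∈ H55.HHI hG u (coreI h hrel hx.onto hx.nil) s ↔
      k * g ∈ HHI hG u C s := by
    intro k
    have e1 := single_base h hDs hC0 x (s := s) (k := k) (T := ext0 hG C k) (ext0_Ten hG k)
      (fun w _ => P_ext0' hG k w)
    rw [← e1, ← hWF]
    exact Iff.rfl
  -- the second element at the base `t + x t'`
  have hc := hC.krel.compat hq hG.skew ⟨t, ht, rfl⟩ ⟨t', ht', rfl⟩
  have hD1x : ∀ s, C.res hq (opr 𝒟.q (Tt L (t + x • t')) (Gm 𝒟.arm 𝒟.Ω s) (Tt L t')) =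
      g ^ 2 * C.S1 hq s * Dx := by
    intro s
    have e1 : opr 𝒟.q (Tt L (t + x • t')) (Gm 𝒟.arm 𝒟.Ω s) (Tt L t') =
        opr 𝒟.q (Tt L t') (Gm 𝒟.arm 𝒟.Ω s) (Tt L (t + x • t')) :=
      hC.krel.swap hq hG.skew ⟨_, htx, rfl⟩ ⟨_, ht', rfl⟩ s
    have e2 : opr 𝒟.q (Tt L t') (Gm 𝒟.arm 𝒟.Ω s) (Tt L t) =
        opr 𝒟.q (Tt L t) (Gm 𝒟.arm 𝒟.Ω s) (Tt L t') :=
      hC.krel.swap hq hG.skew ⟨_, ht', rfl⟩ ⟨_, ht, rfl⟩ s
    have e3 : C.res hq (opr 𝒟.q (Tt L (t + x • t')) (Gm 𝒟.arm 𝒟.Ω s) (Tt L t')) =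
        C.S1 hq s * D * g := by
      refine LinearMap.ext fun v => ?_
      have hv := C.V1_le v.2
      rw [C.res_apply, e1, h.opr_right x t' s hv, e2,
        H55.P_res hq C (fun i hi => hc.map_I C s hi) (h.mem1 x hv), hD1, h.core1 x hv, C.P_coe]
      rfl
    have e4 : g ^ 2 * C.S1 hq s * Dx = C.S1 hq s * D * g := by
      have e5 := (alg1 hgi1 hgi2 (hgS s) hDg (hDc s)).2
      rw [hDgi, ← e5, mul_assoc]
    rw [e3, e4]
  -- application at the base `t + x t'`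
  set Sx : Fin 3 → End L C.V1 := fun a => C.res hq (Res 𝒟 (t + x • t') a) with hSx
  have hSxe : ∀ a, Sx a = g ^ 2 * C.S1 hq a := fun a => resI h hrel hDc x a
  have q0 : ∀ r ∈ Ku 𝒟 u, ∃ a b : L, r = a • (t + x • t') + b • t' := by
    intro r hr
    obtain ⟨a, b, e⟩ := hspan r hr
    refine ⟨a, b - a * x, ?_⟩
    rw [e, smul_add, smul_smul, sub_smul]
    abel
  have q1 : ∀ i a, P i * Sx a = Sx a * P i := by
    intro i a
    rw [hSxe]
    have c1 : Commute (P i) g := hPg i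
    have c2 : Commute (P i) (C.S1 hq a) := hb.comm i a
    exact (c1.pow_right 2).mul_right c2
  have q2 : ∀ s, C.res hq (opr 𝒟.q (Tt L (t + x • t')) (Gm 𝒟.arm 𝒟.Ω s) (Tt L t')) =
      Sx s * Dx := fun a => by rw [hSxe]; exact hD1x a
  have q3 : ∀ M : End L C.V1, IsSA C.q1 M → (∀ a, M * Sx a = Sx a * M) → M * Dx = Dx * M := by
    intro M hM hMS
    refine hcx (hx.central M hM fun a => ?_)
    have := hMS a
    rwa [hSxe] at this
  have q4 : ∀ k' : End L C.V1, (∀ i, P i * k' * P i = 0) →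
      (∀ c : ℕ, ∀ v ∈ LinearMap.range (Sx s ^ c), k' v ∈ LinearMap.range (Sx s ^ c)) →
      k' ∈ H55.HHI hG u (coreI h hrel hx.onto hx.nil) s := by
    intro k' hko' hkr'
    refine (hHH k').mpr ?_
    refine H2 _ (fun i => ?_) fun c v hv => ?_
    · have e1 : P i * (k' * g) * P i = P i * k' * P i * g := by
        rw [mul_assoc, mul_assoc, ← hPg, ← mul_assoc, ← mul_assoc]
      rw [e1, hko', zero_mul]
    · have e1 := hkr' c (g v)
      rw [hSxe, hrange] at e1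
      exact e1 (hSc g (hgS s) c v hv)
  have q5 : Y * Sx s = Sx s * Y := by rw [hSxe]; exact hYc
  have main : ∀ k : End L C.V1, (∀ i, P i * k * P i = 0) →
      (∀ c : ℕ, ∀ v ∈ LinearMap.range (C.S1 hq s ^ c), k v ∈ LinearMap.range (C.S1 hq s ^ c)) →
      (k * Y - Y * k) * g ∈ HHI hG u C s := by
    intro k hko hkr
    refine (hHH (k * Y - Y * k)).mp ?_
    have q6 : ∀ c : ℕ, ∀ v ∈ LinearMap.range (Sx s ^ c), k v ∈ LinearMap.range (Sx s ^ c) := by
      intro c v hv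
      rw [hSxe, hrange] at hv ⊢
      exact hkr c v hv
    exact H55.der_HHI' (C := coreI h hrel hx.onto hx.nil) (t' := t') (D := Dx) (P := P) hC htx
      ht' q0 (rowC0_base h hC0 hWF) hdiag hb.sa q1 q2 q3 s h2 q4 hY hYo q5 hko q6
  have h5 := main (k * gi) (fun i => ?_) fun c v hv => ?_
  · have e1 : (k * gi * Y - Y * (k * gi)) * g = k * Y' - Y * k := by
      rw [sub_mul]
      congr 1
      · rw [mul_assoc, ← hYY, ← mul_assoc, mul_assoc k, hgi2, mul_one]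
      · rw [mul_assoc, mul_assoc, hgi2, mul_one]
    rwa [e1] at h5
  · have e1 : P i * (k * gi) * P i = P i * k * P i * gi := by
      rw [mul_assoc, mul_assoc, ← hPgi, ← mul_assoc, ← mul_assoc]
    rw [e1, hko, zero_mul]
  · exact hkr c _ (hSc gi (hgiS s).symm c v hv)

end base

end Vale.Agent.P182.H388
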