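import Vale.Agent.P182.H668.Lorentz

/-!
# `Hom` and `Ext` of bundles: numerical exactness
-/

namespace Vale.Agent.P182.H388

open LinearMap Submodule Module Vale.Agent.P182 Vale.Agent.P182.H430 Vale.Agent.P182.H668

variable {k F P : Type*} [Field k] [Field F] [Algebra k F] {C : Curve k F P}
variable {E : Type*} [AddCommGroup E] [Module F E] [Module k E] [IsScalarTower k F E]
  [FiniteDimensional F E]
variable {E₂ : Type*} [AddCommGroup E₂] [Module F E₂] [Module k E₂] [IsScalarTower k F E₂]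
  [FiniteDimensional F E₂]
variable {E₃ : Type*} [AddCommGroup E₃] [Module F E₃] [Module k E₃] [IsScalarTower k F E₃]
  [FiniteDimensional F E₃]

section Basic

/-- a morphism of bundles -/
def Mor (A : Bun C E) (B : Bun C E₂) (f : E →ₗ[F] E₂) : Prop :=
  ∀ p b x, x ∈ (A.ch p).L b → f x ∈ (B.ch p).L b

variable {A : Bun C E} {B : Bun C E₂} {D : Bun C E₃}

theorem mor_iff {f : E →ₗ[F] E₂} : Mor A B f ↔ f ∈ HZ (A.hom B).lat := by
  rw [mem_HZ]
  exact forall_congr' fun p => (Bun.mem_hom_lat A B p f).symm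

omit [FiniteDimensional F E] [FiniteDimensional F E₂] [FiniteDimensional F E₃]
  [IsScalarTower k F E] [IsScalarTower k F E₂] [IsScalarTower k F E₃] in
theorem Mor.comp {f : E →ₗ[F] E₂} {g : E₂ →ₗ[F] E₃} (hg : Mor B D g) (hf : Mor A B f) :
    Mor A D (g ∘ₗ f) := fun p b x hx => hg p b _ (hf p b x hx)

omit [FiniteDimensional F E] [IsScalarTower k F E] in
theorem Mor.id (A : Bun C E) : Mor A A LinearMap.id := fun _ _ _ hx => hx

omit [FiniteDimensional F E] in
theorem mor_subtype (A : Bun C E) (S : Submodule F E) : Mor (A.sub S) A S.subtype :=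
  fun _ _ _ hx => hx

omit [FiniteDimensional F E] in
theorem mor_mkQ (A : Bun C E) (S : Submodule F E) : Mor A (A.quo S) S.mkQ :=
  fun p _ _ hx => (A.ch p).mkQ_mem_quo S hx

/-- `Hom = 0` -/
theorem h0_eq_zero_iff : h0 (A.hom B).lat = 0 ↔ ∀ f : E →ₗ[F] E₂, Mor A B f → f = 0 := by
  have h3 := (A.hom B).finCoh.fin0
  constructor
  · intro h f hf
    have hs : Subsingleton (HZ (A.hom B).lat) := finrank_zero_iff.1 h
    have h4 : (⟨f, mor_iff.1 hf⟩ : HZ (A.hom B).lat) = 0 := Subsingleton.elim _ _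
    exact congrArg Subtype.val h4
  · intro h
    have hs : Subsingleton (HZ (A.hom B).lat) := by
      refine ⟨fun a b => Subtype.ext ?_⟩
      rw [h _ (mor_iff.2 a.2), h _ (mor_iff.2 b.2)]
    exact finrank_zero_iff.2 hs

/-- precomposition -/
def pre (E₃ : Type*) [AddCommGroup E₃] [Module F E₃] [Module k E₃] [IsScalarTower k F E₃]
    (f : E →ₗ[F] E₂) : (E₂ →ₗ[F] E₃) →ₗ[k] (E →ₗ[F] E₃) :=
  (LinearMap.lcomp F E₃ f).restrictScalars k

/-- postcomposition -/
def post (E : Type*) [AddCommGroup E] [Module F E] [Module k E] [IsScalarTower k F E]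
    (g : E₂ →ₗ[F] E₃) : (E →ₗ[F] E₂) →ₗ[k] (E →ₗ[F] E₃) :=
  (LinearMap.compRight F g).restrictScalars k

omit [IsScalarTower k F E] [FiniteDimensional F E] [Module k E] [IsScalarTower k F E₂]
  [FiniteDimensional F E₂] [Module k E₂] [FiniteDimensional F E₃] in
@[simp] theorem pre_apply (f : E →ₗ[F] E₂) (h : E₂ →ₗ[F] E₃) : pre (k := k) E₃ f h = h ∘ₗ f := rfl

omit [FiniteDimensional F E] [FiniteDimensional F E₂] [FiniteDimensional F E₃] in
@[simp] theorem post_apply (g : E₂ →ₗ[F] E₃) (h : E →ₗ[F] E₂) :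
    post (k := k) E g h = g ∘ₗ h := rfl

theorem Mor.maps_pre {f : E →ₗ[F] E₂} (hf : Mor A B f) (D : Bun C E₃) :
    Maps (pre (k := k) E₃ f) (B.hom D).lat (A.hom D).lat := by
  intro p h hh
  rw [Bun.mem_hom_lat] at hh
  show h ∘ₗ f ∈ (A.hom D).lat p
  rw [Bun.mem_hom_lat]
  intro b x hx
  exact hh b _ (hf p b x hx)

theorem Mor.maps_post {g : E₂ →ₗ[F] E₃} (hg : Mor B D g) (A : Bun C E) :
    Maps (post (k := k) E g) (A.hom B).lat (A.hom D).lat := by
  intro p h hh
  rw [Bun.mem_hom_lat] at hh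
  show g ∘ₗ h ∈ (A.hom D).lat p
  rw [Bun.mem_hom_lat]
  intro b x hx
  exact hg p b _ (hh b x hx)

/-- `Ext (B, D) → Ext (A, D)` is onto for a monomorphism `A → B` -/
theorem Mor.ho_pre_surj {f : E →ₗ[F] E₂} (hf : Mor A B f) (hi : Function.Injective f)
    (D : Bun C E₃) : Function.Surjective (hoMap _ (hf.maps_pre D)) := by
  refine hoMap_surjective _ _ fun h => ?_
  obtain ⟨g, hg⟩ := LinearMap.exists_leftInverse_of_injective f (LinearMap.ker_eq_bot.2 hi)
  exact ⟨h ∘ₗ g, by rw [pre_apply, LinearMap.comp_assoc, hg, LinearMap.comp_id]⟩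

/-- `Ext (A, B) → Ext (A, D)` is onto for a generically surjective map `B → D` -/
theorem Mor.ho_post_surj {g : E₂ →ₗ[F] E₃} (hg : Mor B D g) (hs : Function.Surjective g)
    (A : Bun C E) : Function.Surjective (hoMap _ (hg.maps_post A)) := by
  refine hoMap_surjective _ _ fun h => ?_
  obtain ⟨s, hs⟩ := LinearMap.exists_rightInverse_of_surjective g (LinearMap.range_eq_top.2 hs)
  exact ⟨s ∘ₗ h, by rw [post_apply, ← LinearMap.comp_assoc, hs, LinearMap.id_comp]⟩

theorem Mor.h1_pre_le {f : E →ₗ[F] E₂} (hf : Mor A B f) (hi : Function.Injective f)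
    (D : Bun C E₃) : h1 (A.hom D).lat ≤ h1 (B.hom D).lat := by
  have := (B.hom D).finCoh.fin1
  exact LinearMap.finrank_le_finrank_of_surjective (hf.ho_pre_surj hi D)

theorem Mor.h1_post_le {g : E₂ →ₗ[F] E₃} (hg : Mor B D g) (hs : Function.Surjective g)
    (A : Bun C E) : h1 (A.hom D).lat ≤ h1 (A.hom B).lat := by
  have := (A.hom B).finCoh.fin1
  exact LinearMap.finrank_le_finrank_of_surjective (hg.ho_post_surj hs A)

theorem Mor.h0_pre_le {f : E →ₗ[F] E₂} (hf : Mor A B f) (hs : Function.Surjective f)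
    (D : Bun C E₃) : h0 (B.hom D).lat ≤ h0 (A.hom D).lat := by
  refine h0_le_of_injective (A.hom D).finCoh _ (hf.maps_pre D) ?_
  intro h h' e
  apply LinearMap.ext
  intro y
  obtain ⟨x, rfl⟩ := hs y
  exact LinearMap.congr_fun e x

theorem Mor.h0_post_le {g : E₂ →ₗ[F] E₃} (hg : Mor B D g) (hi : Function.Injective g)
    (A : Bun C E) : h0 (A.hom B).lat ≤ h0 (A.hom D).lat := by
  refine h0_le_of_injective (A.hom D).finCoh _ (hg.maps_post A) ?_
  intro h h' e
  apply LinearMap.ext
  intro x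
  exact hi (LinearMap.congr_fun e x)

end Basic

section Add

/-- additivity in the first variable -/
theorem chi_hom_left (A : Bun C E) (S : Submodule F E) (B : Bun C E₂) :
    chi (A.hom B).lat = chi ((A.sub S).hom B).lat + chi ((A.quo S).hom B).lat := by
  have h := chi_ses (k := k) (Λ₁ := ((A.quo S).hom B).lat) (Λ₂ := (A.hom B).lat)
    (Λ₃ := ((A.sub S).hom B).lat) (i := pre (k := k) E₂ S.mkQ) (q := pre (k := k) E₂ S.subtype)
    ?_ ?_ ?_ (A.hom B).adm ((A.quo S).hom B).finCoh ((A.sub S).hom B).finCoh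
  · rw [h.2, add_comm]
  · refine ⟨?_, ?_, ?_⟩
    · intro h h' e
      apply LinearMap.ext
      intro y
      obtain ⟨x, rfl⟩ := S.mkQ_surjective y
      exact LinearMap.congr_fun e x
    · ext h
      constructor
      · rintro ⟨g, rfl⟩
        rw [LinearMap.mem_ker]
        apply LinearMap.ext
        intro x
        show g (S.mkQ (x : E)) = 0
        have : S.mkQ (x : E) = 0 := by simp
        rw [this, map_zero]
      · intro h0
        have h1 : S ≤ LinearMap.ker h := fun x hx => by
          have := LinearMap.congr_fun h0 ⟨x, hx⟩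
          exact this
        exact ⟨S.liftQ h h1, by
          apply LinearMap.ext
          intro x
          rfl⟩
    · intro g
      obtain ⟨h, hh⟩ := LinearMap.exists_extend g
      exact ⟨h, hh⟩
  · intro p
    ext h
    exact LChain.hom_quo_left_iff (A.ch p) (B.ch p) S (c := 0) (φ := h)
  · intro p
    ext g
    constructor
    · rintro ⟨h, hh, rfl⟩
      exact LChain.hom_sub_mem (A.ch p) (B.ch p) S hh
    · intro hg
      exact LChain.hom_sub_surj (A.ch p) (B.ch p) S hg

/-- additivity in the second variable -/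
theorem chi_hom_right (A : Bun C E) (B : Bun C E₂) (S : Submodule F E₂) :
    chi (A.hom B).lat = chi (A.hom (B.sub S)).lat + chi (A.hom (B.quo S)).lat := by
  have h := chi_ses (k := k) (Λ₁ := (A.hom (B.sub S)).lat) (Λ₂ := (A.hom B).lat)
    (Λ₃ := (A.hom (B.quo S)).lat) (i := post (k := k) E S.subtype) (q := post (k := k) E S.mkQ)
    ?_ ?_ ?_ (A.hom B).adm (A.hom (B.sub S)).finCoh (A.hom (B.quo S)).finCoh
  · exact h.2
  · refine ⟨?_, ?_, ?_⟩
    · intro h h' e
      apply LinearMap.ext
      intro y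
      exact Subtype.ext (LinearMap.congr_fun e y)
    · ext h
      constructor
      · rintro ⟨g, rfl⟩
        rw [LinearMap.mem_ker]
        apply LinearMap.ext
        intro x
        show S.mkQ (g x : E₂) = 0
        simp
      · intro h0
        have h1 : ∀ x, h x ∈ S := fun x => by
          have := LinearMap.congr_fun h0 x
          exact (Submodule.Quotient.mk_eq_zero S).1 this
        exact ⟨h.codRestrict S h1, by
          apply LinearMap.ext
          intro x
          rfl⟩
    · intro g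
      obtain ⟨s, hs⟩ := S.mkQ.exists_rightInverse_of_surjective (LinearMap.range_eq_top.2
        S.mkQ_surjective)
      exact ⟨s ∘ₗ g, by rw [post_apply, ← LinearMap.comp_assoc, hs, LinearMap.id_comp]⟩
  · intro p
    rfl
  · intro p
    ext g
    constructor
    · rintro ⟨h, hh, rfl⟩
      exact LChain.hom_quo_mem (A.ch p) (B.ch p) S hh
    · intro hg
      exact LChain.hom_quo_surj (A.ch p) (B.ch p) S hg

/-- `Hom (A, B) = 0` and `Ext (A / S, B) = 0` imply `Hom (S, B) = 0` -/
theorem h0_sub_eq_zero {A : Bun C E} {B : Bun C E₂} (S : Submodule F E)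
    (h : h0 (A.hom B).lat = 0) (h' : h1 ((A.quo S).hom B).lat = 0) :
    h0 ((A.sub S).hom B).lat = 0 := by
  have e1 := chi_hom_left A S B
  have e2 := (mor_mkQ A S).h0_pre_le S.mkQ_surjective B
  have e3 := (mor_subtype A S).h1_pre_le S.injective_subtype B
  unfold chi at e1
  omega

end Add

end Vale.Agent.P182.H388
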