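import Vale.Agent.P182.H388.GlueI
import Vale.Agent.P182.H388.EndB
import Vale.Agent.P182.H62.ExBlk
import Vale.Agent.P182.H922.RowS
import Vale.Agent.P182.H534.RowC0

/-!
# The glued null case does not occur
-/

namespace Vale.Agent.P182.H388

open Module Vale.Agent.P182.H533 Vale.Agent.P182.B1 Vale.Agent.P182.H578
  Vale.Agent.P182.H922 Vale.Agent.P182.H588 Vale.Agent.P182.H983

universe u v w

/-- **The glued null case does not occur.** -/
theorem hypGlueU (L : Type u) (J : Type w) [Field L] [Fintype J] [DecidableEq J]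
    [IsAlgClosed L] [CharZero L] : H55.HypGlueU.{u, v, w} L J := by
  intro V _ _ _ 𝒟 u h t ht hm C _ _ t' ht' D hDs hD1 hD2 he hN
  obtain ⟨n, P, d, p, -, -, -, B⟩ := H62.exists_blk h ht.1 hm C ht' hDs hD1 hD2 he hN
  obtain ⟨F, hF, hF0, hS⟩ := H922.S2.exists_rowS two_ne_zero B h.ctx ht
  have hC0 := H534.rowC0 h.ctx ht B
  have hrel : Rel 𝒟 t t' := U.rel_of_krel h.ctx.krel ht.1 ht'
  refine glue_end h ht hm C ht' hDs hD1 hD2 he hN hF hF0
    (fun s => H89.HHI h.ctx.good u C s) ?_ ?_ ?_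
  · intro hDc _ _ Dh hDh _ x hx _ _ hxF s β hβ hc
    exact H89.mem_HHI_comm two_ne_zero hDh hrel hDs hDc hC0 hx (hS 1 x hxF).2.2 s hβ hc
  · intro hDc hK hstr Dh hDh _ x hx _ _ _ n P d hb s H2 Y Y' hY hYo hYc hYY k hko hkr
    exact endB h.ctx ht.1 ht' hDh hDs hDc hD1 hK hC0
      (fun M hM hMS => H55.comm_of_struct hstr hM hMS hDs hDc) two_ne_zero hb s H2 hx hY hYo hYc
      hYY hko hkr
  · intro _ hK _ Dh hDh _ k hk
    exact H89.HHI_end hDh hDs ht.1.2 hK hk

/-- **The null case does not occur.** -/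
theorem hypNullU (L : Type u) (J : Type w) [Field L] [Fintype J] [DecidableEq J]
    [IsAlgClosed L] [CharZero L] : HypNullU.{u, v, w} L J :=
  H55.hypNullU_of_glue L J (hypGlueU L J)

end Vale.Agent.P182.H388
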