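import Vale.Agent.P182.H388.NullI
import Vale.Agent.P182.H89.BaseI
import Vale.Agent.P182.H55.DHat
import Vale.Agent.P182.H983.GDef

/-!
# The glued null case from its rows

`HHI s` : the endomorphisms `h` of `V₁` whose lift at the arm `s` is in `WW`.
`Sit` : the situation of the glued null case. `hypGlueU_of_rows` : `HypGlueU` from the rows.
-/

namespace Vale.Agent.P182.H388

open Module Vale.Agent.P182.H533 Vale.Agent.P182.B1 Vale.Agent.P182.H578
  Vale.Agent.P182.H922 Vale.Agent.P182.H588 Vale.Agent.P182.H983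

universe u v w

variable {L : Type u} {V : Type v} {J : Type w} [Field L] [AddCommGroup V] [Module L V]
  [FiniteDimensional L V] [Fintype J] [DecidableEq J] {𝒟 : Cfg L V J} {u : J → L}

section fam

omit [FiniteDimensional L V] [DecidableEq J] in
theorem fam_add (𝒟 : Cfg L V J) (t : J → V) (T T' : Fin 3 → End L V) :
    fam 𝒟 t (T + T') = fam 𝒟 t T + fam 𝒟 t T' := by
  refine Prod.ext (funext fun l => ?_) (funext fun l => ?_) <;> rfl

omit [FiniteDimensional L V] [DecidableEq J] in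
theorem fam_smul (𝒟 : Cfg L V J) (t : J → V) (c : L) (T : Fin 3 → End L V) :
    fam 𝒟 t (c • T) = c • fam 𝒟 t T := by
  refine Prod.ext (funext fun l => ?_) (funext fun l => ?_) <;> rfl

omit [FiniteDimensional L V] [DecidableEq J] in
theorem fam_zero (𝒟 : Cfg L V J) (t : J → V) : fam 𝒟 t 0 = 0 := by
  refine Prod.ext (funext fun l => ?_) (funext fun l => ?_) <;> rfl

omit [FiniteDimensional L V] [DecidableEq J] in
theorem fam_sub (𝒟 : Cfg L V J) (t : J → V) (T T' : Fin 3 → End L V) :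
    fam 𝒟 t (T - T') = fam 𝒟 t T - fam 𝒟 t T' := by
  refine Prod.ext (funext fun l => ?_) (funext fun l => ?_) <;> rfl

/-- **The spaces `HH_s`**: the endomorphisms of `V₁` whose lift at the arm `s` is in `WW`. -/
def HHI (hG : 𝒟.Good) (u : J → L) {t : J → V} (C : Core 𝒟.q (Res 𝒟 t)) (s : Fin 3) :
    Submodule L (End L C.V1) where
  carrier := {h | fam 𝒟 t (Pi.single s (H55.lf hG.form C h)) ∈ WF 𝒟 t C.W C.I u}
  zero_mem' := by
    have h1 : H55.lf hG.form C (0 : End L C.V1) = 0 := by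
      ext v
      rfl
    show fam 𝒟 t (Pi.single s (H55.lf hG.form C 0)) ∈ WF 𝒟 t C.W C.I u
    rw [h1, Pi.single_zero, fam_zero]
    exact zero_mem _
  add_mem' := by
    intro a b ha hb
    have h1 : H55.lf hG.form C (a + b) = H55.lf hG.form C a + H55.lf hG.form C b := by
      ext v
      rfl
    show fam 𝒟 t (Pi.single s (H55.lf hG.form C (a + b))) ∈ WF 𝒟 t C.W C.I u
    rw [h1, Pi.single_add, fam_add]
    exact add_mem ha hb
  smul_mem' := by
    intro c a ha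
    have h1 : H55.lf hG.form C (c • a) = c • H55.lf hG.form C a := by
      ext v
      rfl
    show fam 𝒟 t (Pi.single s (H55.lf hG.form C (c • a))) ∈ WF 𝒟 t C.W C.I u
    rw [h1, Pi.single_smul, fam_smul]
    exact Submodule.smul_mem _ _ ha

theorem mem_HHI {hG : 𝒟.Good} {t : J → V} {C : Core 𝒟.q (Res 𝒟 t)} {s : Fin 3}
    {h : End L C.V1} : h ∈ HHI hG u C s ↔
      fam 𝒟 t (Pi.single s (H55.lf hG.form C h)) ∈ WF 𝒟 t C.W C.I u := Iff.rfl

/-- a tensor in `W ⊗ W` which is zero modulo `I` is in `I ⊗ W + W ⊗ I` -/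
theorem mem_IW_of_res {q : V →ₗ[L] V →ₗ[L] L} (hq : IsForm q) {S : Fin 3 → End L V}
    (C : Core q S) {T : End L V} (hT : T ∈ Ten q C.W C.W) (h0 : ∀ w ∈ C.W, T w ∈ C.I) :
    T ∈ Ten q C.I C.W ⊔ Ten q C.W C.I := by
  -- `P` is the projection to `V₁`
  set P : End L V := C.V1.subtype ∘ₗ C.P hq with hP
  have hP1 : ∀ v, P v ∈ C.V1 := fun v => (C.P hq v).2
  have e : T = T * P + (T - T * P) := by abel
  rw [e]
  refine Submodule.add_mem_sup ⟨fun v => ?_, fun v hv => ?_⟩ ⟨fun v => ?_, fun v hv => ?_⟩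
  · exact h0 _ (C.V1_le (hP1 v))
  · have : P v = 0 := by
      show ((C.P hq v : C.V1) : V) = 0
      rw [C.P_eq_zero hq hv, Submodule.coe_zero]
    rw [Module.End.mul_apply, this, map_zero]
  · rw [LinearMap.sub_apply]
    exact sub_mem (hT.1 _) (hT.1 _)
  · rw [LinearMap.sub_apply, Module.End.mul_apply, ← map_sub]
    exact hT.2 _ (C.sub_P_mem hq hv)

/-- two lifts of `h` -/
theorem mem_HHI_of_lift {hG : 𝒟.Good} {t : J → V} {C : Core 𝒟.q (Res 𝒟 t)} {s : Fin 3}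
    (hC0 : RowC0 𝒟 u t C.W C.I) {T : End L V} (hT : T ∈ Ten 𝒟.q C.W C.W) {h : End L C.V1}
    (hh : ∀ w ∈ C.W, C.P hG.form (T w) = h (C.P hG.form w)) :
    h ∈ HHI hG u C s ↔ fam 𝒟 t (Pi.single s T) ∈ WF 𝒟 t C.W C.I u := by
  have h1 : H55.lf hG.form C h - T ∈ Ten 𝒟.q C.I C.W ⊔ Ten 𝒟.q C.W C.I := by
    refine mem_IW_of_res hG.form C (sub_mem ⟨fun v => H55.lf_mem _ C h v, fun v hv =>
      H55.lf_kill _ C h hv⟩ hT) fun w hw => ?_
    have h2 : C.P hG.form ((H55.lf hG.form C h - T) w) = 0 := by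
      rw [LinearMap.sub_apply, map_sub, H55.P_lf, hh w hw, sub_self]
    have h3 := C.sub_P_mem_I hG.form (v := (H55.lf hG.form C h - T) w)
      (by rw [LinearMap.sub_apply]; exact sub_mem (H55.lf_mem _ C h w) (hT.1 w))
    rwa [h2, Submodule.coe_zero, sub_zero] at h3
  have h4 := hC0 s _ h1
  rw [Pi.single_sub, fam_sub] at h4
  rw [mem_HHI]
  constructor
  · intro h5
    have := sub_mem h5 h4
    rwa [sub_sub_cancel] at this
  · intro h5
    have := add_mem h4 h5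
    rwa [sub_add_cancel] at this

end fam

/-- finitely many lines -/
theorem infinite_avoid {X : Set L} (hX : X.Infinite) {B : Set (L × L)} (hB : B.Finite)
    (hB0 : ∀ b ∈ B, b ≠ 0) : {x ∈ X | ∀ b ∈ B, b.1 * 1 + b.2 * x ≠ 0}.Infinite := by
  have h1 : (⋃ b ∈ B, {x : L | b.1 * 1 + b.2 * x = 0}).Finite := by
    refine hB.biUnion fun b hb => ?_
    refine Set.Subsingleton.finite fun x hx y hy => ?_
    have hx' : b.1 * 1 + b.2 * x = 0 := hx
    have hy' : b.1 * 1 + b.2 * y = 0 := hy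
    by_cases h2 : b.2 = 0
    · exfalso
      rw [h2] at hx'
      have h3 : b.1 = 0 := by linear_combination hx'
      exact hB0 b hb (Prod.ext h3 h2)
    · exact mul_left_cancel₀ h2 (by linear_combination hx' - hy')
  refine (hX.sdiff h1).mono ?_
  rintro x ⟨hx, hx'⟩
  refine ⟨hx, fun b hb h => hx' ?_⟩
  exact Set.mem_biUnion hb h

/-- **The glued null case from the three end rows.** -/
theorem glue_end [IsAlgClosed L] [CharZero L] (h : CritU 𝒟 u)
    {t : J → V} (ht : MaxCoreU 𝒟 u t) (hm : MovesU 𝒟 u t)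
    (C : Core 𝒟.q (Res 𝒟 t)) {t' : J → V} (ht' : t' ∈ Ku 𝒟 u)
    {D : End L C.V1} (hDs : IsSA C.q1 D)
    (hD1 : ∀ s, C.res h.ctx.good.form (opr 𝒟.q (Tt L t) (Gm 𝒟.arm 𝒟.Ω s) (Tt L t')) =
      C.S1 h.ctx.good.form s * D)
    (hD2 : ∀ s, C.res h.ctx.good.form (opr 𝒟.q (Tt L t) (Gm 𝒟.arm 𝒟.Ω s) (Tt L t')) =
      D * C.S1 h.ctx.good.form s)
    (he : ∃ a b : L, a ≠ b ∧ D.HasEigenvalue a ∧ D.HasEigenvalue b)
    (hN : NullCore C h.ctx.good.form)
    {B : Set (L × L)} (hB : B.Finite) (hB0 : ∀ b ∈ B, b ≠ 0)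
    (H : Fin 3 → Submodule L (End L C.V1))
    (rA : (∀ s, D * C.S1 h.ctx.good.form s = C.S1 h.ctx.good.form s * D) →
      (∀ k ∈ Ku 𝒟 u, ∃ a b : L, k = a • t + b • t') →
      H89.StructS C.q1 (C.S1 h.ctx.good.form) →
      ∀ Dh : End L V, H89.DHat h.ctx.good t' C D Dh → (∀ w ∈ C.I, Dh w ∈ C.I) →
      ∀ x : L, H89.GoodI h.ctx.good t' C D Dh x → MaxCoreU 𝒟 u (t + x • t') →
      MovesU 𝒟 u (t + x • t') → (∀ b ∈ B, b.1 * 1 + b.2 * x ≠ 0) →
      ∀ s, ∀ β : End L C.V1, IsSA C.q1 β →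
      β * ((1 + x • D) ^ 2 * C.S1 h.ctx.good.form s) =
        (1 + x • D) ^ 2 * C.S1 h.ctx.good.form s * β →
      β * (1 + x • D) ∈ H s)
    (rB : (∀ s, D * C.S1 h.ctx.good.form s = C.S1 h.ctx.good.form s * D) →
      (∀ k ∈ Ku 𝒟 u, ∃ a b : L, k = a • t + b • t') →
      H89.StructS C.q1 (C.S1 h.ctx.good.form) →
      ∀ Dh : End L V, H89.DHat h.ctx.good t' C D Dh → (∀ w ∈ C.I, Dh w ∈ C.I) →
      ∀ x : L, H89.GoodI h.ctx.good t' C D Dh x → MaxCoreU 𝒟 u (t + x • t') →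
      MovesU 𝒟 u (t + x • t') → (∀ b ∈ B, b.1 * 1 + b.2 * x ≠ 0) →
      ∀ {n : ℕ} (P : Fin n → End L C.V1) (d : Fin n → L), BlkD h.ctx.good C D P d →
      ∀ s, (∀ h' : End L C.V1, (∀ i, P i * h' * P i = 0) →
        (∀ c : ℕ, ∀ v ∈ LinearMap.range (C.S1 h.ctx.good.form s ^ c),
          h' v ∈ LinearMap.range (C.S1 h.ctx.good.form s ^ c)) → h' ∈ H s) →
      ∀ Y Y' : End L C.V1, IsSk C.q1 Y → (∀ i, P i * Y * P i = 0) →
      Y * ((1 + x • D) ^ 2 * C.S1 h.ctx.good.form s) =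
        (1 + x • D) ^ 2 * C.S1 h.ctx.good.form s * Y →
      (1 + x • D) * Y' = Y * (1 + x • D) →
      ∀ h' : End L C.V1, (∀ i, P i * h' * P i = 0) →
        (∀ c : ℕ, ∀ v ∈ LinearMap.range (C.S1 h.ctx.good.form s ^ c),
          h' v ∈ LinearMap.range (C.S1 h.ctx.good.form s ^ c)) → h' * Y' - Y * h' ∈ H s)
    (rC : (∀ s, D * C.S1 h.ctx.good.form s = C.S1 h.ctx.good.form s * D) →
      (∀ k ∈ Ku 𝒟 u, ∃ a b : L, k = a • t + b • t') →
      H89.StructS C.q1 (C.S1 h.ctx.good.form) →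
      ∀ Dh : End L V, H89.DHat h.ctx.good t' C D Dh → (∀ w ∈ C.I, Dh w ∈ C.I) →
      ∀ h' : End L C.V1, (∀ s, h' ∈ H s) → IsSA C.q1 h') : False := by
  have hC := h.ctx
  have hG := hC.good
  have hDc : ∀ s, D * C.S1 h.ctx.good.form s = C.S1 h.ctx.good.form s * D := fun s => by
    rw [← hD2, ← hD1]
  have hK := H55.span_of_DU h.ctx.good (Ku 𝒟 u) h.dim ht.1 ht' C hD1 he
  obtain ⟨p, hp⟩ := H258.nul_core h.ctx.good t C hN
  have hstr := H58.structThm _ _ _ p hp (hC.realS t ht.1 hm C)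
  obtain ⟨Dh, e1, e2, e3, e4⟩ := H55.exists_Dhat h.ctx.good h.ctx.krel ht.1 ht' C hD2
  have hDh : H89.DHat h.ctx.good t' C D Dh := ⟨e1, e4, e3⟩
  have hX := infinite_avoid (H89.exists_goodI h ht hm ht' hDh hDs hDc hK hN) hB hB0
  refine null_endI (two_ne_zero) h.ctx.good C hDs hDc he hN hstr hX
    (fun x hx => hx.1.1.unit) H ?_ ?_ ?_
  · intro s x hx β hβ hc
    exact rA hDc hK hstr Dh hDh e2 x hx.1.1 hx.1.2.1 hx.1.2.2 hx.2 s β hβ hc
  · intro n P d hb s hH x hx Y Y' hY hYo hYc hYY h' hho hhf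
    exact rB hDc hK hstr Dh hDh e2 x hx.1.1 hx.1.2.1 hx.1.2.2 hx.2 P d hb s hH Y Y' hY hYo hYc
      hYY h' hho hhf
  · exact rC hDc hK hstr Dh hDh e2

end Vale.Agent.P182.H388
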