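import Vale.Agent.P182.H533.Form
import Mathlib.FieldTheory.IsAlgClosed.Basic
import Mathlib.Algebra.QuadraticDiscriminant
import Mathlib.Tactic

/-!
# Commutators of a large space of self-adjoint operators
-/

namespace Vale.Agent.P182.H388

open Module Vale.Agent.P182.H533

section iso

variable {L V : Type*} [Field L] [AddCommGroup V] [Module L V]

/-- isotropic vectors in planes -/
theorem exists_isotropic [IsAlgClosed L] {q : V →ₗ[L] V →ₗ[L] L} (hq : IsForm q)
    (h2 : (2 : L) ≠ 0) {u v : V} (huv : ∀ a b : L, a • u + b • v = 0 → a = 0 ∧ b = 0) :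
    ∃ a b : L, a • u + b • v ≠ 0 ∧ q (a • u + b • v) (a • u + b • v) = 0 := by
  by_cases hu : q u u = 0
  · refine ⟨1, 0, fun h => one_ne_zero (huv 1 0 h).1, ?_⟩
    simp [hu]
  · have : NeZero (2 : L) := ⟨h2⟩
    obtain ⟨s, hs⟩ := IsAlgClosed.exists_eq_mul_self (discrim (q u u) (2 * q u v) (q v v))
    obtain ⟨x, hx⟩ := exists_quadratic_eq_zero hu ⟨s, hs⟩
    refine ⟨x, 1, fun h => one_ne_zero (huv x 1 h).2, ?_⟩
    simp only [map_add, map_smul, LinearMap.add_apply, LinearMap.smul_apply, smul_eq_mul]
    rw [hq.symm v u]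
    linear_combination hx

/-- a skew operator for which all isotropic vectors are eigenvectors is zero -/
theorem exists_iso_not_eigen [IsAlgClosed L] [FiniteDimensional L V]
    {q : V →ₗ[L] V →ₗ[L] L} (hq : IsForm q) (h2 : (2 : L) ≠ 0) (hk : 3 ≤ finrank L V)
    {Z : End L V} (hZ : IsSk q Z) (hZ0 : Z ≠ 0) : ∃ m, q m m = 0 ∧ ∀ c : L, Z m ≠ c • m := by
  by_contra hcon
  push Not at hcon
  apply hZ0
  -- a nonzero isotropic vector
  obtain ⟨m, hm0, hmm⟩ : ∃ m : V, m ≠ 0 ∧ q m m = 0 := by
    have h1 : 0 < finrank L V := by omega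
    obtain ⟨u, hu⟩ := (Module.finrank_pos_iff_exists_ne_zero (R := L) (M := V)).1 h1
    have h3 : ∃ v : V, v ∉ Submodule.span L {u} := by
      by_contra h
      push Not at h
      have h4 : Submodule.span L {u} = ⊤ := eq_top_iff.2 fun x _ => h x
      have h5 : finrank L (Submodule.span L {u}) = finrank L V := by rw [h4, finrank_top]
      rw [finrank_span_singleton hu] at h5
      omega
    obtain ⟨v, hv⟩ := h3
    have huv : ∀ a b : L, a • u + b • v = 0 → a = 0 ∧ b = 0 := by
      intro a b h
      have hb : b = 0 := by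
        by_contra hb
        apply hv
        rw [Submodule.mem_span_singleton]
        refine ⟨-(b⁻¹ * a), ?_⟩
        have h6 : b • v = -(a • u) := eq_neg_of_add_eq_zero_right h
        have h7 : v = b⁻¹ • (b • v) := by rw [smul_smul, inv_mul_cancel₀ hb, one_smul]
        rw [h7, h6, smul_neg, smul_smul, neg_smul]
      refine ⟨?_, hb⟩
      rw [hb, zero_smul, add_zero] at h
      exact (smul_eq_zero.1 h).resolve_right hu
    obtain ⟨a, b, h8, h9⟩ := exists_isotropic hq h2 huv
    exact ⟨_, h8, h9⟩
  -- a hyperbolic partner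
  obtain ⟨n1, hn1⟩ : ∃ n1, q m n1 ≠ 0 := by
    by_contra h
    push Not at h
    exact hm0 (hq.nondeg m h)
  obtain ⟨n0, hmn0⟩ : ∃ n0, q m n0 = 1 :=
    ⟨(q m n1)⁻¹ • n1, by rw [map_smul, smul_eq_mul, inv_mul_cancel₀ hn1]⟩
  obtain ⟨n, hmn, hnn⟩ : ∃ n, q m n = 1 ∧ q n n = 0 := by
    refine ⟨n0 - (q n0 n0 / 2) • m, ?_, ?_⟩
    · rw [map_sub, map_smul, hmm, smul_zero, sub_zero, hmn0]
    · simp only [map_sub, map_smul, LinearMap.sub_apply, LinearMap.smul_apply, smul_eq_mul, hmm,
        hmn0, hq.symm n0 m]
      field_simp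
      ring
  have hnm : q n m = 1 := by rw [hq.symm, hmn]
  obtain ⟨lam, hlam⟩ := hcon m hmm
  obtain ⟨mu, hmu⟩ := hcon n hnn
  have hml : mu = -lam := by
    have h1 := hZ m n
    rw [hlam, hmu, map_smul, LinearMap.smul_apply, map_smul, hmn, smul_eq_mul, smul_eq_mul] at h1
    linear_combination h1
  -- vectors orthogonal to `m` and `n`
  have key : ∀ w, q m w = 0 → q n w = 0 → Z w = lam • w - (2 * lam * (q w w / 2)) • n ∧
      lam * q w w = 0 := by
    intro w hmw hnw
    have hwm : q w m = 0 := by rw [hq.symm, hmw]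
    have hwn : q w n = 0 := by rw [hq.symm, hnw]
    have hiso : q (m + w - (q w w / 2) • n) (m + w - (q w w / 2) • n) = 0 := by
      simp only [map_sub, map_add, map_smul, LinearMap.sub_apply, LinearMap.add_apply,
        LinearMap.smul_apply, smul_eq_mul, hmm, hmw, hmn, hwm, hwn, hnm, hnn, hnw]
      field_simp
      ring
    obtain ⟨nu, hnu⟩ := hcon _ hiso
    have h1 := congrArg (fun z => q z n) hnu
    have h3 := congrArg (fun z => q z m) hnu
    have hZwn : q (Z w) n = 0 := by rw [hZ, hmu, map_smul, hwn, smul_zero, neg_zero]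
    have hZwm : q (Z w) m = 0 := by rw [hZ, hlam, map_smul, hwm, smul_zero, neg_zero]
    simp only [map_sub, map_add, map_smul, LinearMap.sub_apply, LinearMap.add_apply,
      LinearMap.smul_apply, smul_eq_mul, hmm, hmw, hmn, hwm, hwn, hnm, hnn, hnw, hlam, hmu,
      hZwn, hZwm] at h1 h3
    have hnul : nu = lam := by linear_combination -h1
    rw [hnul, hml] at h3
    have h5 : lam * q w w = 0 := by
      have h6 : (2 : L) * (lam * q w w) = 0 := by
        field_simp at h3
        linear_combination h3
      exact (mul_eq_zero.1 h6).resolve_left h2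
    refine ⟨?_, h5⟩
    rw [hnul, map_sub, map_add, map_smul, hlam, hmu, hml] at hnu
    have h7 : Z w = lam • (m + w - (q w w / 2) • n) - lam • m + (q w w / 2) • (-lam • n) := by
      rw [← hnu]
      abel
    rw [h7]
    module
  -- some vector orthogonal to `m`, `n` is not isotropic
  have hP : ∀ v : V, q m (v - q n v • m - q m v • n) = 0 ∧
      q n (v - q n v • m - q m v • n) = 0 := by
    intro v
    constructor <;>
    · simp only [map_sub, map_smul, smul_eq_mul, hmm, hmn, hnm, hnn]
      ring
  have hlam0 : lam = 0 := by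
    by_contra hl
    have h1 : ∀ w, q m w = 0 → q n w = 0 → q w w = 0 := fun w h3 h4 =>
      (mul_eq_zero.1 (key w h3 h4).2).resolve_left hl
    have h3 : ∀ w, q m w = 0 → q n w = 0 → w = 0 := by
      intro w h4 h5
      apply hq.nondeg
      intro v
      obtain ⟨h6, h7⟩ := hP v
      have h8 := h1 (w + (v - q n v • m - q m v • n)) (by rw [map_add, h4, h6, add_zero])
        (by rw [map_add, h5, h7, add_zero])
      have h9 := h1 w h4 h5
      have h10 := h1 _ h6 h7
      have h11 : q w (v - q n v • m - q m v • n) = 0 := by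
        have h12 : (2 : L) * q w (v - q n v • m - q m v • n) = 0 := by
          simp only [map_add, LinearMap.add_apply] at h8
          rw [h9, h10, hq.symm _ w] at h8
          linear_combination h8
        exact (mul_eq_zero.1 h12).resolve_left h2
      rw [map_sub, map_sub, map_smul, map_smul, hq.symm w m, hq.symm w n, h4, h5] at h11
      simpa using h11
    have h4 : finrank L V ≤ 2 := by
      classical
      have h5 : Submodule.span L (({m, n} : Finset V) : Set V) = ⊤ := by
        rw [eq_top_iff]
        intro v _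
        obtain ⟨h6, h7⟩ := hP v
        have h8 := h3 _ h6 h7
        have h9 : v = q n v • m + q m v • n := by
          rw [sub_sub, sub_eq_zero] at h8
          exact h8
        rw [h9]
        exact Submodule.add_mem _ (Submodule.smul_mem _ _ (Submodule.subset_span (by simp)))
          (Submodule.smul_mem _ _ (Submodule.subset_span (by simp)))
      have h6 := finrank_span_finset_le_card (R := L) ({m, n} : Finset V)
      unfold Set.finrank at h6
      rw [h5, finrank_top] at h6
      exact h6.trans Finset.card_le_two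
    omega
  apply LinearMap.ext
  intro v
  obtain ⟨h6, h7⟩ := hP v
  have h8 := (key _ h6 h7).1
  rw [hlam0] at h8
  have h9 : v = (v - q n v • m - q m v • n) + q n v • m + q m v • n := by abel
  rw [h9, map_add, map_add, map_smul, map_smul, hlam, hmu, hml, hlam0, h8]
  simp

end iso

section count

variable {L W : Type*} [Field L] [AddCommGroup W] [Module L W] [FiniteDimensional L W]

/-- a form vanishing on `X` and on `A`, which sees every vector of `A` -/
theorem count_isotropic (W0 X A : Submodule L W) (hX : X ≤ W0) (hA : A ≤ W0)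
    (ω : W →ₗ[L] W →ₗ[L] L) (h1 : ∀ x ∈ X, ∀ y ∈ X, ω x y = 0) (h2 : ∀ x ∈ A, ∀ y ∈ A, ω x y = 0)
    (h3 : ∀ x ∈ A, x ≠ 0 → ∃ w ∈ W0, ω x w ≠ 0) :
    finrank L X + finrank L A ≤ finrank L W0 := by
  let I : Submodule L W := X ⊓ A
  let Q : Submodule L W0 := (X ⊔ A).comap W0.subtype
  let Ψ : I →ₗ[L] Dual L W0 := (LinearMap.lcomp L L W0.subtype) ∘ₗ ω ∘ₗ I.subtype
  have hΨ : ∀ (x : I) (w : W0), Ψ x w = ω x w := fun _ _ => rfl
  have hinj : Function.Injective Ψ := by
    rw [injective_iff_map_eq_zero]
    intro x hx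
    by_contra hx0
    obtain ⟨w, hw, hxw⟩ := h3 x x.2.2 fun h => hx0 (Subtype.ext h)
    apply hxw
    have := LinearMap.congr_fun hx ⟨w, hw⟩
    exact this
  have hann : LinearMap.range Ψ ≤ Q.dualAnnihilator := by
    rintro _ ⟨x, rfl⟩
    rw [Submodule.mem_dualAnnihilator]
    intro w hw
    have hw' : (w : W) ∈ X ⊔ A := hw
    rw [hΨ]
    obtain ⟨u, hu, v, hv, huv⟩ := Submodule.mem_sup.1 hw'
    rw [← huv, map_add, h1 _ x.2.1 _ hu, h2 _ x.2.2 _ hv, add_zero]
  have h4 : finrank L I ≤ finrank L Q.dualAnnihilator := by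
    rw [← LinearMap.finrank_range_of_inj hinj]
    exact Submodule.finrank_mono hann
  have h5 : finrank L Q + finrank L Q.dualAnnihilator = finrank L W0 :=
    Subspace.finrank_add_finrank_dualAnnihilator_eq Q
  have h6 : finrank L Q = finrank L (X ⊔ A : Submodule L W) :=
    (Submodule.comapSubtypeEquivOfLe (sup_le hX hA)).finrank_eq
  have h7 : finrank L (X ⊔ A : Submodule L W) + finrank L I = finrank L X + finrank L A :=
    Submodule.finrank_sup_add_finrank_inf_eq X A
  omega

end count

section main

variable {L V : Type*} [Field L] [AddCommGroup V] [Module L V]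

/-- the self-adjoint operators -/
def saS (q : V →ₗ[L] V →ₗ[L] L) : Submodule L (End L V) where
  carrier := {D | IsSA q D}
  add_mem' := fun {a b} ha hb u v => by
    rw [LinearMap.add_apply, LinearMap.add_apply, map_add, map_add, LinearMap.add_apply, ha, hb]
  zero_mem' := fun u v => by simp
  smul_mem' := fun c a ha u v => by
    rw [LinearMap.smul_apply, LinearMap.smul_apply, map_smul, map_smul, LinearMap.smul_apply, ha]

/-- the operator `x ↦ q(m,x) v + q(v,x) m` -/
def dotO (q : V →ₗ[L] V →ₗ[L] L) (m : V) : V →ₗ[L] End L V where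
  toFun v := (q m).smulRight v + (q v).smulRight m
  map_add' u v := by
    apply LinearMap.ext
    intro x
    simp only [LinearMap.add_apply, LinearMap.smulRight_apply, map_add, smul_add, add_smul]
    abel
  map_smul' c v := by
    apply LinearMap.ext
    intro x
    simp only [LinearMap.add_apply, LinearMap.smulRight_apply, map_smul, LinearMap.smul_apply,
      RingHom.id_apply, smul_add, smul_eq_mul, mul_smul]
    rw [smul_comm]

theorem dotO_apply (q : V →ₗ[L] V →ₗ[L] L) (m v x : V) :
    dotO q m v x = q m x • v + q v x • m := rfl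

theorem dotO_sa {q : V →ₗ[L] V →ₗ[L] L} (hq : IsForm q) (m v : V) : IsSA q (dotO q m v) := by
  intro x y
  rw [dotO_apply, dotO_apply]
  simp only [map_add, map_smul, LinearMap.add_apply, LinearMap.smul_apply, smul_eq_mul]
  rw [hq.symm x v, hq.symm x m]
  ring

/-- **Lemma C** -/
theorem lemC [IsAlgClosed L] [FiniteDimensional L V] {q : V →ₗ[L] V →ₗ[L] L} (hq : IsForm q)
    (h2 : (2 : L) ≠ 0) (hk : 3 ≤ finrank L V) (X : Submodule L (End L V)) (hX : X ≤ saS q)
    (hcod : finrank L (saS q) + 2 ≤ finrank L X + finrank L V) {Z : End L V} (hZ : IsSk q Z)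
    (hZX : ∀ b ∈ X, ∀ b' ∈ X, LinearMap.trace L V (Z * (b * b' - b' * b)) = 0) : Z = 0 := by
  by_contra hZ0
  obtain ⟨m, hmm, hZm⟩ := exists_iso_not_eigen hq h2 hk hZ hZ0
  have hm0 : m ≠ 0 := by
    rintro rfl
    exact hZm 0 (by simp)
  -- the space `m^⊥`
  let P : Submodule L V := LinearMap.ker (q m)
  have hP : ∀ v, v ∈ P ↔ q m v = 0 := fun v => Iff.rfl
  obtain ⟨n, hn⟩ : ∃ n, q m n = 1 := by
    obtain ⟨n1, hn1⟩ : ∃ n1, q m n1 ≠ 0 := by
      by_contra h
      push Not at h
      exact hm0 (hq.nondeg m h)
    exact ⟨(q m n1)⁻¹ • n1, by rw [map_smul, smul_eq_mul, inv_mul_cancel₀ hn1]⟩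
  have hPdim : finrank L P + 1 = finrank L V := by
    have h3 := LinearMap.finrank_range_add_finrank_ker (q m)
    have h4 : LinearMap.range (q m) = ⊤ := by
      rw [LinearMap.range_eq_top]
      intro c
      exact ⟨c • n, by rw [map_smul, hn, smul_eq_mul, mul_one]⟩
    rw [h4, finrank_top, finrank_self] at h3
    change finrank L (LinearMap.ker (q m)) + 1 = _
    omega
  let A : Submodule L (End L V) := P.map (dotO q m)
  have hinj : ∀ v ∈ P, dotO q m v = 0 → v = 0 := by
    intro v hv h
    have h3 := LinearMap.congr_fun h n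
    rw [dotO_apply, hn, one_smul, LinearMap.zero_apply] at h3
    have h4 : v = -(q v n) • m := by rw [neg_smul]; exact eq_neg_of_add_eq_zero_left h3
    have h5 : q v n = -(q v n) := by
      conv_lhs => rw [h4]
      rw [map_smul, LinearMap.smul_apply, hn, smul_eq_mul, mul_one]
    have h6 : q v n = 0 := by
      have h7 : (2 : L) * q v n = 0 := by linear_combination h5
      exact (mul_eq_zero.1 h7).resolve_left h2
    rw [h4, h6]
    simp
  have hAdim : finrank L A = finrank L P := by
    have h3 : Function.Injective ((dotO q m).domRestrict P) := by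
      rw [injective_iff_map_eq_zero]
      intro v hv
      exact Subtype.ext (hinj v v.2 hv)
    have h4 : LinearMap.range ((dotO q m).domRestrict P) = A := by
      ext T
      constructor
      · rintro ⟨v, rfl⟩
        exact ⟨v, v.2, rfl⟩
      · rintro ⟨v, hv, rfl⟩
        exact ⟨⟨v, hv⟩, rfl⟩
    rw [← h4, LinearMap.finrank_range_of_inj h3]
  -- the form
  let ω : End L V →ₗ[L] End L V →ₗ[L] L := LinearMap.mk₂ L
    (fun b b' => LinearMap.trace L V (Z * (b * b' - b' * b)))
    (fun b c b' => by
      rw [← map_add]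
      congr 1
      noncomm_ring)
    (fun c b b' => by
      rw [← map_smul]
      congr 1
      rw [smul_mul_assoc, mul_smul_comm, ← smul_sub, mul_smul_comm])
    (fun b b' c => by
      rw [← map_add]
      congr 1
      noncomm_ring)
    (fun c b b' => by
      rw [← map_smul]
      congr 1
      rw [smul_mul_assoc, mul_smul_comm, ← smul_sub, mul_smul_comm])
  have hω : ∀ b b', ω b b' = LinearMap.trace L V (Z * (b * b' - b' * b)) := fun _ _ => rfl
  have hcomm : ∀ v ∈ P, ∀ v' ∈ P, dotO q m v * dotO q m v' = dotO q m v' * dotO q m v := by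
    intro v hv v' hv'
    rw [hP] at hv hv'
    apply LinearMap.ext
    intro x
    rw [Module.End.mul_apply, Module.End.mul_apply]
    simp only [dotO_apply, map_add, map_smul, hmm, hv, hv', hq.symm v m, hq.symm v' m, smul_zero,
      zero_smul, add_zero, zero_add]
    rw [hq.symm v v']
  have hA2 : ∀ x ∈ A, ∀ y ∈ A, ω x y = 0 := by
    rintro _ ⟨v, hv, rfl⟩ _ ⟨v', hv', rfl⟩
    rw [hω, hcomm v hv v' hv', sub_self, mul_zero, map_zero]
  have hZq : ∀ x, q (Z x) x = 0 := by
    intro x
    have h3 := hZ x x
    rw [hq.symm x] at h3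
    have h4 : (2 : L) * q (Z x) x = 0 := by linear_combination h3
    exact (mul_eq_zero.1 h4).resolve_left h2
  have hA3 : ∀ x ∈ A, x ≠ 0 → ∃ w ∈ saS q, ω x w ≠ 0 := by
    rintro _ ⟨v, hv, rfl⟩ hx0
    have hv0 : v ≠ 0 := by
      rintro rfl
      exact hx0 (map_zero _)
    replace hv : q m v = 0 := hv
    by_contra hcon
    push Not at hcon
    -- the commutator vanishes
    have hc : ∀ x y, q (Z (dotO q m v x) - dotO q m v (Z x)) y = 0 := by
      intro x y
      have h3 := hcon (dotO q x y) (dotO_sa hq x y)
      rw [hω] at h3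
      have h4 : LinearMap.trace L V (Z * (dotO q m v * dotO q x y - dotO q x y * dotO q m v)) =
          LinearMap.trace L V ((Z * dotO q m v - dotO q m v * Z) * dotO q x y) := by
        rw [mul_sub, map_sub, sub_mul, map_sub, ← mul_assoc]
        congr 1
        rw [← mul_assoc, LinearMap.trace_mul_comm, ← mul_assoc]
      rw [h4] at h3
      have h5 : (Z * dotO q m v - dotO q m v * Z) * dotO q x y =
          (q x).smulRight ((Z * dotO q m v - dotO q m v * Z) y) +
            (q y).smulRight ((Z * dotO q m v - dotO q m v * Z) x) := by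
        apply LinearMap.ext
        intro u
        rw [Module.End.mul_apply, dotO_apply, map_add, map_smul, map_smul]
        rfl
      rw [h5, map_add, LinearMap.trace_smulRight, LinearMap.trace_smulRight] at h3
      have hD := dotO_sa hq m v
      have h6 : q x ((Z * dotO q m v - dotO q m v * Z) y) =
          q y ((Z * dotO q m v - dotO q m v * Z) x) := by
        rw [hq.symm y]
        show q x (Z (dotO q m v y) - dotO q m v (Z y)) = q (Z (dotO q m v x) - dotO q m v (Z x)) y
        rw [map_sub, map_sub, LinearMap.sub_apply, hZ (dotO q m v x) y, hD (Z x) y,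
          hZ x (dotO q m v y), hD x (Z y)]
        ring
      rw [h6] at h3
      have h7 : (2 : L) * q y ((Z * dotO q m v - dotO q m v * Z) x) = 0 := by
        linear_combination h3
      have h8 := (mul_eq_zero.1 h7).resolve_left h2
      rw [hq.symm y] at h8
      exact h8
    have hc' : ∀ x, Z (dotO q m v x) = dotO q m v (Z x) := fun x =>
      sub_eq_zero.1 (hq.nondeg _ (hc x))
    have hc2 : ∀ x, q m x • Z v + q v x • Z m + q (Z m) x • v + q (Z v) x • m = 0 := by
      intro x
      have h3 := hc' x
      rw [dotO_apply, dotO_apply, map_add, map_smul, map_smul] at h3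
      have h4 : q m (Z x) = -q (Z m) x := by rw [hZ, neg_neg]
      have h5 : q v (Z x) = -q (Z v) x := by rw [hZ, neg_neg]
      rw [h4, h5, neg_smul, neg_smul] at h3
      rw [h3]
      abel
    by_cases hvm : ∃ c : L, v = c • m
    · obtain ⟨c, rfl⟩ := hvm
      have hc0 : c ≠ 0 := by
        rintro rfl
        exact hv0 (zero_smul _ _)
      have h3 := hc2 n
      rw [map_smul, map_smul, map_smul, LinearMap.smul_apply, LinearMap.smul_apply, hn,
        smul_eq_mul, mul_one, one_smul, smul_eq_mul] at h3
      have h4 : (2 * c) • Z m = -((2 * c * q (Z m) n) • m) := by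
        rw [eq_neg_iff_add_eq_zero, ← h3]
        module
      apply hZm (-(q (Z m) n))
      have h5 : (2 * c) ≠ 0 := mul_ne_zero h2 hc0
      refine smul_right_injective V h5 ?_
      show (2 * c) • Z m = (2 * c) • (-(q (Z m) n) • m)
      rw [h4]
      module
    · push Not at hvm
      -- a vector orthogonal to `m` and not to `v`
      obtain ⟨x, hx1, hx2⟩ : ∃ x, q m x = 0 ∧ q v x = 1 := by
        have h3 : ∃ x, q m x = 0 ∧ q v x ≠ 0 := by
          by_contra h
          push Not at h
          apply hvm (q v n)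
          apply hq.ext
          intro w
          have h4 := h (w - q m w • n) (by rw [map_sub, map_smul, hn, smul_eq_mul, mul_one, sub_self])
          rw [map_sub, map_smul, sub_eq_zero] at h4
          rw [h4, map_smul, LinearMap.smul_apply, smul_eq_mul, smul_eq_mul, mul_comm]
        obtain ⟨x, h3, h4⟩ := h3
        exact ⟨(q v x)⁻¹ • x, by rw [map_smul, h3, smul_zero],
          by rw [map_smul, smul_eq_mul, inv_mul_cancel₀ h4]⟩
      have h3 := hc2 x
      rw [hx1, hx2, zero_smul, zero_add, one_smul] at h3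
      have h4 : Z m = -(q (Z m) x • v) - q (Z v) x • m := by
        rw [eq_sub_iff_add_eq, eq_neg_iff_add_eq_zero, ← h3]
        abel
      have h5 : q (Z m) x = 0 := by
        have h6 : q (Z m) x = -q (Z m) x := by
          conv_lhs => rw [h4]
          rw [map_sub, map_neg, map_smul, map_smul, LinearMap.sub_apply, LinearMap.neg_apply,
            LinearMap.smul_apply, LinearMap.smul_apply, hx1, hx2, smul_eq_mul, smul_eq_mul,
            mul_one, mul_zero, sub_zero]
        have h7 : (2 : L) * q (Z m) x = 0 := by linear_combination h6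
        exact (mul_eq_zero.1 h7).resolve_left h2
      apply hZm (-(q (Z v) x))
      rw [h5, zero_smul, neg_zero, zero_sub] at h4
      rw [neg_smul]
      exact h4
  have hAle : A ≤ saS q := by
    rintro _ ⟨v, -, rfl⟩
    exact dotO_sa hq m v
  have := count_isotropic (saS q) X A hX hAle ω hZX hA2 hA3
  omega

end main

end Vale.Agent.P182.H388
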