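import Vale.Agent.P182.H388.VV
import Vale.Agent.P182.H430.NFinal

/-!
# Versality of the concrete bundle, in terms of connections
-/

namespace Vale.Agent.P182.H388

open LinearMap Submodule Module Polynomial Vale.Agent.P182 Vale.Agent.P182.H430
  Vale.Agent.P182.H668 Vale.Agent.P182.H578

variable {k : Type*} [Field k] {J : Type*} [Fintype J] [DecidableEq J] (X : NData k J)
variable {F : Type*} [Field F] [Algebra k[X] F] [IsFractionRing k[X] F]
  [Algebra k F] [IsScalarTower k k[X] F] [IsAlgClosed k]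

/-- the derivations are compatible with the curve -/
theorem ncder (d : X.Ders) : CDer (X.cur F) (X.dF F d) where
  reg p _ hf := X.dF_reg d p hf
  lev p hp c f hf := by
    by_cases hm : X.Marked p
    · exact X.dF_fil d (Or.inr hm) _ c hf
    · exact absurd (X.per_unmarked hm) hp

/-- the local connections -/
theorem nlconn (hdet : IsUnit X.Om'.det) (d : X.Ders) (p : Option k) :
    LConn (X.N' F) (X.dF F d) p (X.Dp F d p) := by
  by_cases hp : p = none ∨ X.Marked p
  · have h : ∀ a x, x ∈ ((X.N' F).ch p).L a → X.Dp F d p x ∈ ((X.N' F).ch p).L a := by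
      intro a x hx
      rw [X.mem_N'] at hx ⊢
      exact X.Dp_pres hdet d hp hx
    exact ⟨X.Dp_conn d p, h 0, fun _ => h⟩
  · push Not at hp
    obtain ⟨h1, hm⟩ := hp
    rcases p with _ | q
    · exact absurd rfl h1
    refine ⟨X.Dp_conn d _, fun x hx => ?_, fun h => absurd (X.per_unmarked hm) h⟩
    have hx' : x ∈ ((X.N' F).ch (some q)).L 0 := hx
    show X.Dp F d (some q) x ∈ ((X.N' F).ch (some q)).L 0
    rw [X.mem_N', X.tht_unmarked hm, sub_zero, X.mem_unmarked hm] at hx' ⊢
    intro j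
    have h2 : X.Dp F d (some q) x j = X.dF F d (x j) := by
      unfold NData.Dp
      rw [X.Yp_unmarked d hm, LinearMap.zero_apply, sub_zero]
      rfl
    rw [h2]
    exact X.dF_reg d _ (hx' j)

/-- the normalised bundle is orthogonal -/
theorem northo (hdet : IsUnit X.Om'.det) : Orth (X.N' F) (X.b F) where
  dual := X.selfDual hdet
  symm := X.b_symm F
  nd := X.b_nondeg hdet

/-- **the concrete bundle is versal** -/
noncomputable def novers (hdet : IsUnit X.Om'.det) (h2 : (2 : k) ≠ 0) (hΩ : X.VersΩ) :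
    OVers (X.N' F) (X.b F) X.kap X.Ders where
  δ := X.dF F
  cder := ncder X
  vers Y hY hYp h := by
    refine (X.vers (F := F) hdet h2 hΩ).vers Y hY hYp fun d => ?_
    obtain ⟨D0, h0, hm, hI⟩ := h d
    exact ⟨D0, h0, hm, fun p => hI p _ (nlconn X hdet d p)⟩

/-- **(VV) for the concrete bundle** -/
theorem nvv (hdet : IsUnit X.Om'.det) (h2 : (2 : k) ≠ 0) (hΩ : X.VersΩ) (p : Option k)
    {a : (J → F) →ₗ[F] (J → F)} (ha : a ∈ adj (X.b F) (-1)) :
    ∃ δ : Derivation ℤ F F, CDer (X.cur F) δ ∧ ∃ n : (J → F) → (J → F), IsConn δ n ∧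
      IsMetric (X.b F) δ n ∧ (∀ q, q ≠ p → LConn (X.N' F) δ q n) ∧
      LConn (X.N' F) δ p (fun x => n x + a x) := by
  have h2F : (2 : F) ≠ 0 := by
    have h3 : (2 : F) = algebraMap k F 2 := (map_ofNat _ _).symm
    rw [h3]
    exact (_root_.map_ne_zero _).2 h2
  exact exists_vv (X.dualizing F) (novers X hdet h2 hΩ) (northo X hdet) h2 h2F p ha

end Vale.Agent.P182.H388
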