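import Vale.Agent.P182.H55.NullU

/-!
# The end of the null case from the spaces `H s`

The abstract end of the null case (honest or glued): submodules `H s` of `End C.V1` with the
three properties (A), (B), (C) of the honest case lead to a contradiction. Nothing is assumed on
`C.I`.
-/

namespace Vale.Agent.P182.H388

open Module Vale.Agent.P182.H533 Vale.Agent.P182.B1 Vale.Agent.P182.H578
  Vale.Agent.P182.H922 Vale.Agent.P182.H588

universe u v w

variable {L : Type u} {V : Type v} {J : Type w} [Field L] [AddCommGroup V] [Module L V]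
  [FiniteDimensional L V] [Fintype J] [DecidableEq J] {𝒟 : Cfg L V J}

/-- the data of the blocks of `D` on the core -/
structure BlkD {t : J → V} (hG : 𝒟.Good) (C : Core 𝒟.q (Res 𝒟 t)) (D : End L C.V1) {n : ℕ}
    (P : Fin n → End L C.V1) (d : Fin n → L) : Prop where
  sa : ∀ i, IsSA C.q1 (P i)
  comm : ∀ i s, P i * C.S1 hG.form s = C.S1 hG.form s * P i
  mul : ∀ i j, P i * P j = if i = j then P i else 0
  sum : ∑ i, P i = 1
  ne : ∀ i, P i ≠ 0
  inj : Function.Injective d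
  eq : D = ∑ i, d i • P i

theorem BlkD.diag {t : J → V} {hG : 𝒟.Good} {C : Core 𝒟.q (Res 𝒟 t)} {D : End L C.V1} {n : ℕ}
    {P : Fin n → End L C.V1} {d : Fin n → L} (h : BlkD hG C D P d) : Diag D P d :=
  ⟨fun i => by rw [h.mul, if_pos rfl], fun i j hij => by rw [h.mul, if_neg hij], h.sum, h.inj,
    h.eq⟩

/-- the blocks exist -/
theorem exists_blkD {t : J → V} (hG : 𝒟.Good) (C : Core 𝒟.q (Res 𝒟 t)) {D : End L C.V1}
    (hDs : IsSA C.q1 D) (hDc : ∀ s, D * C.S1 hG.form s = C.S1 hG.form s * D)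
    (hS : H89.StructS C.q1 (C.S1 hG.form)) :
    ∃ (n : ℕ) (P : Fin n → End L C.V1) (d : Fin n → L), BlkD hG C D P d := by
  obtain ⟨⟨m, e, hes, hec, hem, he1, hspan⟩, -⟩ := hS
  obtain ⟨κ, hκ⟩ := hspan D hDs hDc
  obtain ⟨n, P, d, hPS, hPc, hPP, hP1, hP0, hd, hDP⟩ := H55.group_idem hes hec hem he1 hκ
  exact ⟨n, P, d, hPS, hPc, hPP, hP1, hP0, hd, hDP⟩

theorem BlkD.ne_zero {t : J → V} {hG : 𝒟.Good} {C : Core 𝒟.q (Res 𝒟 t)} {D : End L C.V1} {n : ℕ}
    {P : Fin n → End L C.V1} {d : Fin n → L} (h : BlkD hG C D P d) {x : L}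
    (hu : IsUnit (1 + x • D)) (i : Fin n) : 1 + x * d i ≠ 0 := by
  intro h0
  have h1 : (1 + x • D) * P i = 0 := by
    have h3 : D * P i = d i • P i := by
      rw [h.eq, Finset.sum_mul, Finset.sum_eq_single i]
      · rw [smul_mul_assoc, h.mul, if_pos rfl]
      · intro j _ hj
        rw [smul_mul_assoc, h.mul, if_neg hj, smul_zero]
      · intro h
        exact absurd (Finset.mem_univ i) h
    rw [add_mul, one_mul, smul_mul_assoc, h3, smul_smul]
    have h4 : P i + (x * d i) • P i = (1 + x * d i) • P i := by rw [add_smul, one_smul]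
    rw [h4, h0, zero_smul]
  exact h.ne i ((hu.mul_right_eq_zero).mp h1)

/-- **The end of the null case.** -/
theorem null_endI (h2 : (2 : L) ≠ 0) {t : J → V} (hG : 𝒟.Good) (C : Core 𝒟.q (Res 𝒟 t))
    {D : End L C.V1} (hDs : IsSA C.q1 D)
    (hDc : ∀ s, D * C.S1 hG.form s = C.S1 hG.form s * D)
    (he : ∃ a b : L, a ≠ b ∧ D.HasEigenvalue a ∧ D.HasEigenvalue b)
    (hN : NullCore C hG.form) (hS : H89.StructS C.q1 (C.S1 hG.form))
    {X : Set L} (hX : X.Infinite) (hXu : ∀ x ∈ X, IsUnit (1 + x • D))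
    (H : Fin 3 → Submodule L (End L C.V1))
    (hA : ∀ s, ∀ x ∈ X, ∀ β : End L C.V1, IsSA C.q1 β →
      β * ((1 + x • D) ^ 2 * C.S1 hG.form s) = (1 + x • D) ^ 2 * C.S1 hG.form s * β →
      β * (1 + x • D) ∈ H s)
    (hB : ∀ {n : ℕ} (P : Fin n → End L C.V1) (d : Fin n → L), BlkD hG C D P d →
      ∀ s, (∀ h : End L C.V1, (∀ i, P i * h * P i = 0) →
        (∀ c : ℕ, ∀ v ∈ LinearMap.range (C.S1 hG.form s ^ c),
          h v ∈ LinearMap.range (C.S1 hG.form s ^ c)) → h ∈ H s) →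
      ∀ x ∈ X, ∀ Y Y' : End L C.V1, IsSk C.q1 Y → (∀ i, P i * Y * P i = 0) →
      Y * ((1 + x • D) ^ 2 * C.S1 hG.form s) = (1 + x • D) ^ 2 * C.S1 hG.form s * Y →
      (1 + x • D) * Y' = Y * (1 + x • D) →
      ∀ h : End L C.V1, (∀ i, P i * h * P i = 0) →
        (∀ c : ℕ, ∀ v ∈ LinearMap.range (C.S1 hG.form s ^ c),
          h v ∈ LinearMap.range (C.S1 hG.form s ^ c)) → h * Y' - Y * h ∈ H s)
    (hE : ∀ h : End L C.V1, (∀ s, h ∈ H s) → IsSA C.q1 h) : False := by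
  obtain ⟨n, P, d, hb⟩ := exists_blkD hG C hDs hDc hS
  obtain ⟨a, b, hab, ha, hb'⟩ := he
  have hnt := H55.nontrivial_of_two_eig hb.sum hb.eq hab ha hb'
  obtain ⟨p, hp, hfree, hsum⟩ := hN
  have hSA : ∀ s, IsSA C.q1 (C.S1 hG.form s) := fun s =>
    C.S1_SA hG.form (Sop_SA 𝒟.arm hG.form (Tt L t) hG.skew) s
  refine H55.null_end (C.isForm hG.form) h2 hSA hp hfree hsum
    (H55.three_lt_of_two_eig hp hfree hsum hDc hab ha hb') (H := H) ?_ hE
  intro s h hh
  exact H388.abs h2 (C.isForm hG.form) (hSA s) (hp s) (hfree s) P hb.sa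
    (fun i => by rw [hb.mul, if_pos rfl]) (fun i j hij => by rw [hb.mul, if_neg hij]) hb.sum
    (fun i => hb.comm i s) hb.ne d hb.inj hb.eq (H s) X hX
    (fun x hx i => hb.ne_zero (hXu x hx) i) (hA s)
    (fun hH x hx Y Y' hY hYo hYc hYY h hho hhf =>
      hB P d hb s hH x hx Y Y' hY hYo hYc hYY h hho hhf) h hh

end Vale.Agent.P182.H388
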