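import Vale.Agent.P182.H430.NKS

/-!
# Partial fractions on the line with three marked points
-/

namespace Vale.Agent.P182.H388

open LinearMap Submodule Module Polynomial Vale.Agent.P182 Vale.Agent.P182.H430

variable {k : Type*} [Field k] {J : Type*} [Fintype J] [DecidableEq J] (X : NData k J)
variable {F : Type*} [Field F] [Algebra k[X] F] [IsFractionRing k[X] F]
  [Algebra k F] [IsScalarTower k k[X] F]

omit [DecidableEq J] in
/-- the residue at a marked point -/
theorem exists_resid {p : Option k} {g : F} (hg : g ∈ (linePl k F p).M 1 0) :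
    ∃ c : k, g - algebraMap k F c ∈ (linePl k F p).M 1 1 := by
  by_cases h0 : g = 0
  · exact ⟨0, by rw [h0, map_zero, sub_zero]; exact Submodule.zero_mem _⟩
  rw [Place.mem_M_of_ne _ h0] at hg
  obtain ⟨c, hc | hc⟩ := (linePl k F p).resid g h0 (by simpa using hg)
  · exact ⟨c, by rw [hc, sub_self]; exact Submodule.zero_mem _⟩
  · refine ⟨c, Or.inr ?_⟩
    push_cast
    omega

/-- the terms are regular away from their pole -/
theorem pf_other (c : k) (s : Fin 3) {a : k} (ha : a ≠ X.z s) :
    algebraMap k F c * (X.lin F s)⁻¹ ∈ (linePl k F (some a)).M 1 0 :=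
  Place.M_anti _ (by norm_num) (Place.mul_mem_M _ (NData.const_mem _ 1 c) (X.inv_mem_other s 1 ha))

theorem pf_none (c : k) (s : Fin 3) :
    algebraMap k F c * (X.lin F s)⁻¹ ∈ (linePl k F none).M 1 1 :=
  Place.M_anti _ (by norm_num) (Place.mul_mem_M _ (NData.const_mem _ 1 c) (X.inv_mem_none s))

/-- uniqueness of the residues -/
theorem pf_unique {r : Fin 3 → k} (h : ∑ s, algebraMap k F (r s) * (X.lin F s)⁻¹ = 0) : r = 0 := by
  funext s
  by_contra hr
  have hr' : r s ≠ 0 := hr
  have h1 : algebraMap k F (r s) * (X.lin F s)⁻¹ ∈ (linePl k F (some (X.z s))).M 1 0 := by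
    rw [← Finset.add_sum_erase _ _ (Finset.mem_univ s)] at h
    rw [eq_neg_of_add_eq_zero_left h]
    refine Submodule.neg_mem _ (Submodule.sum_mem _ fun t ht => pf_other X _ _ fun h2 => ?_)
    exact (Finset.ne_of_mem_erase ht) (X.hz h2).symm
  have h2 : algebraMap k F (r s) ≠ 0 := (_root_.map_ne_zero _).2 hr'
  have h3 := inv_ne_zero (X.lin_ne F s)
  rw [Place.mem_M_of_ne _ (mul_ne_zero h2 h3), Place.ord_mul _ _ _ h2 h3, Place.ord_alg _ _ hr',
    Place.ord_inv _ (X.lin_ne F s), X.ord_lin_self] at h1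
  norm_num at h1

variable [IsAlgClosed k]

/-- **partial fractions** -/
theorem exists_pf {f : F} (h1 : ∀ a : k, ¬ X.Marked (some a) → f ∈ (linePl k F (some a)).M 1 0)
    (h2 : f ∈ (linePl k F none).M 1 2)
    (h3 : ∀ s, X.lin F s * f ∈ (linePl k F (some (X.z s))).M 1 0) :
    ∃ r : Fin 3 → k, f = ∑ s, algebraMap k F (r s) * (X.lin F s)⁻¹ ∧ ∑ s, r s = 0 := by
  choose r hr using fun s => exists_resid (h3 s)
  have h4 : ∀ s, f - algebraMap k F (r s) * (X.lin F s)⁻¹ ∈
      (linePl k F (some (X.z s))).M 1 0 := by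
    intro s
    have h5 := hr s
    have e : X.lin F s * f - algebraMap k F (r s) =
        X.lin F s * (f - algebraMap k F (r s) * (X.lin F s)⁻¹) := by
      have := X.lin_ne F s
      field_simp
    rw [e, Place.smul_mem_iff _ (X.lin_ne F s), X.ord_lin_self] at h5
    exact Place.M_anti _ (by norm_num) h5
  refine ⟨r, ?_, ?_⟩
  · have h5 : f - ∑ s, algebraMap k F (r s) * (X.lin F s)⁻¹ = 0 := by
      apply NData.reg_zero (k := k)
      · intro a
        by_cases hm : X.Marked (some a)
        · obtain ⟨s, hs⟩ := hm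
          obtain rfl : a = X.z s := Option.some_injective _ hs
          rw [← Finset.add_sum_erase _ _ (Finset.mem_univ s), ← sub_sub]
          refine Submodule.sub_mem _ (h4 s) (Submodule.sum_mem _ fun t ht =>
            pf_other X _ _ fun h => ?_)
          exact (Finset.ne_of_mem_erase ht) (X.hz h).symm
        · refine Submodule.sub_mem _ (h1 a hm) (Submodule.sum_mem _ fun s _ =>
            pf_other X _ _ fun h => hm ⟨s, by rw [h]⟩)
      · exact Submodule.sub_mem _ (Place.M_anti _ (by norm_num) h2)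
          (Submodule.sum_mem _ fun s _ => pf_none X _ _)
    exact sub_eq_zero.1 h5
  · have h6 := X.res_sum (F := F) (fun s => -r s) f h1 h2 fun s => by
      rw [map_neg, neg_mul, ← sub_eq_add_neg]
      exact h4 s
    rw [Finset.sum_neg_distrib, neg_eq_zero] at h6
    exact h6

/-- a function regular everywhere is constant -/
theorem exists_const {f : F} (h : ∀ p, f ∈ (linePl k F p).M 1 0) : ∃ c : k, f = algebraMap k F c := by
  obtain ⟨c, hc⟩ := line_H0 (k := k) f h
  exact ⟨c, hc.symm⟩

end Vale.Agent.P182.H388
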