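import Vale.Agent.P182.H388.Ex

/-!
# Riemann–Roch for `Hom` and proportional classes
-/

namespace Vale.Agent.P182.H388

open LinearMap Submodule Module Vale.Agent.P182 Vale.Agent.P182.H430 Vale.Agent.P182.H668

universe u v

section Arith

theorem div_sub_div {m : ℕ} (hm : 0 < m) (w w' : ℤ) :
    (w' - w) / (m : ℤ) = w' / m - w / m - if w' % (m : ℤ) < w % m then 1 else 0 := by
  have hm' : (0 : ℤ) < m := by exact_mod_cast hm
  have h1 := Int.emod_add_mul_ediv w m
  have h2 := Int.emod_add_mul_ediv w' m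
  have h3 := Int.emod_nonneg w hm'.ne'
  have h4 := Int.emod_lt_of_pos w hm'
  have h5 := Int.emod_nonneg w' hm'.ne'
  have h6 := Int.emod_lt_of_pos w' hm'
  split_ifs with h
  · exact ((Int.ediv_emod_unique (r := w' % m - w % m + m) (q := w' / m - w / m - 1) hm').2
      ⟨by linarith, by linarith, by linarith⟩).1
  · rw [sub_zero]
    exact ((Int.ediv_emod_unique (r := w' % m - w % m) (q := w' / m - w / m) hm').2
      ⟨by linarith, by linarith, by linarith⟩).1

/-- the indicator of a residue class is the indicator of a remainder -/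
theorem dvd_iff_emod {m : ℕ} (hm : 0 < m) (w : ℤ) {c : ℕ} (hc : c < m) :
    (m : ℤ) ∣ w - c ↔ w % m = c := by
  have hm' : (0 : ℤ) < m := by exact_mod_cast hm
  constructor
  · rintro ⟨q, hq⟩
    exact ((Int.ediv_emod_unique (a := w) (r := (c : ℤ)) (q := q) hm').2
      ⟨by linarith, by exact_mod_cast Nat.zero_le c, by exact_mod_cast hc⟩).2
  · intro h
    have h1 := Int.emod_add_mul_ediv w m
    exact ⟨w / m, by rw [← h]; linarith⟩

theorem sum_ind {m : ℕ} (hm : 0 < m) (w w' : ℤ) :
    ∑ c ∈ Finset.range m, ∑ d ∈ Finset.range m, (if d < c then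
      (if (m : ℤ) ∣ w - c then 1 else 0) * (if (m : ℤ) ∣ w' - d then 1 else 0) else 0 : ℤ) =
      if w' % (m : ℤ) < w % m then 1 else 0 := by
  have hm' : (0 : ℤ) < m := by exact_mod_cast hm
  obtain ⟨c0, hc0⟩ := Int.eq_ofNat_of_zero_le (Int.emod_nonneg w hm'.ne')
  obtain ⟨d0, hd0⟩ := Int.eq_ofNat_of_zero_le (Int.emod_nonneg w' hm'.ne')
  have hc1 : c0 < m := by
    have := Int.emod_lt_of_pos w hm'
    rw [hc0] at this
    exact_mod_cast this
  have hd1 : d0 < m := by
    have := Int.emod_lt_of_pos w' hm'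
    rw [hd0] at this
    exact_mod_cast this
  rw [Finset.sum_eq_single c0]
  · rw [Finset.sum_eq_single d0]
    · rw [if_pos ((dvd_iff_emod hm w hc1).2 hc0), if_pos ((dvd_iff_emod hm w' hd1).2 hd0), hc0,
        hd0]
      simp
    · intro d hd hd'
      rw [Finset.mem_range] at hd
      rw [if_neg (c := (m : ℤ) ∣ w' - d)]
      · simp
      · rw [dvd_iff_emod hm w' hd, hd0]
        exact fun h => hd' (by exact_mod_cast h.symm)
    · intro h
      exact absurd (Finset.mem_range.2 hd1) h
  · intro c hc hc'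
    rw [Finset.mem_range] at hc
    refine Finset.sum_eq_zero fun d _ => ?_
    rw [if_neg (c := (m : ℤ) ∣ w - c)]
    · simp
    · rw [dvd_iff_emod hm w hc, hc0]
      exact fun h => hc' (by exact_mod_cast h.symm)
  · intro h
    exact absurd (Finset.mem_range.2 hc1) h

end Arith

section Chains

variable {k F : Type*} [Field k] [Field F] [Algebra k F] {Q : Place k F} {m : ℕ}
variable {E : Type*} [AddCommGroup E] [Module F E] [Module k E] [IsScalarTower k F E]
  [FiniteDimensional F E]
variable {E₂ : Type*} [AddCommGroup E₂] [Module F E₂] [Module k E₂] [IsScalarTower k F E₂]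
  [FiniteDimensional F E₂]

/-- a splitting basis from a subspace and the quotient -/
theorem splitBy_ext (L : LChain Q m E) (S : Submodule F E) {ι₁ ι₂ : Type*} [Fintype ι₁]
    [Fintype ι₂] {b₁ : Basis ι₁ F S} {w₁ : ι₁ → ℤ} (h₁ : (L.sub S).SplitBy b₁ w₁)
    {b₂ : Basis ι₂ F (E ⧸ S)} {w₂ : ι₂ → ℤ} (h₂ : (L.quo S).SplitBy b₂ w₂) :
    ∃ b : Basis (ι₁ ⊕ ι₂) F E, L.SplitBy b (Sum.elim w₁ w₂) := by
  obtain ⟨s, hs1, hs2⟩ := L.exists_section S
  let pr : E →ₗ[F] S := (LinearMap.id - s ∘ₗ S.mkQ).codRestrict S fun x => by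
    have h : S.mkQ ((LinearMap.id - s ∘ₗ S.mkQ : E →ₗ[F] E) x) = 0 := by
      rw [LinearMap.sub_apply, LinearMap.id_apply, LinearMap.comp_apply, map_sub, hs1, sub_self]
    exact (Submodule.Quotient.mk_eq_zero S).mp h
  have hpr : ∀ x, (pr x : E) = x - s (S.mkQ x) := fun x => rfl
  let e : (S × (E ⧸ S)) ≃ₗ[F] E := LinearEquiv.ofLinearMap
    (S.subtype.coprod s) (pr.prod S.mkQ) (by
      apply LinearMap.ext
      intro x
      show (pr x : E) + s (S.mkQ x) = x
      rw [hpr, sub_add_cancel]) (by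
      apply LinearMap.ext
      rintro ⟨x, y⟩
      have h0 : S.mkQ ((x : E) + s y) = y := by
        rw [map_add, hs1]
        have : S.mkQ (x : E) = 0 := by simp
        rw [this, zero_add]
      refine Prod.ext ?_ ?_
      · apply Subtype.ext
        show (pr ((x : E) + s y) : E) = x
        rw [hpr, h0, add_sub_cancel_right]
      · exact h0)
  refine ⟨(b₁.prod b₂).map e, ?_⟩
  refine L.splitBy_of _ _ ?_ ?_
  · rintro (i | j)
    · have h0 : ((b₁.prod b₂).map e) (Sum.inl i) = (b₁ i : E) := by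
        rw [Basis.map_apply]
        show ((b₁.prod b₂ (Sum.inl i)).1 : E) + s (b₁.prod b₂ (Sum.inl i)).2 = _
        rw [Basis.prod_apply_inl_fst, Basis.prod_apply_inl_snd, map_zero, add_zero]
      rw [h0]
      exact h₁.basis_mem i
    · have h0 : ((b₁.prod b₂).map e) (Sum.inr j) = s (b₂ j) := by
        rw [Basis.map_apply]
        show ((b₁.prod b₂ (Sum.inr j)).1 : E) + s (b₁.prod b₂ (Sum.inr j)).2 = _
        rw [Basis.prod_apply_inr_fst, Basis.prod_apply_inr_snd, Submodule.coe_zero, zero_add]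
      rw [h0]
      exact hs2 _ _ (h₂.basis_mem j)
  · rintro a x hx (i | j)
    · have h0 : ((b₁.prod b₂).map e).repr x (Sum.inl i) = b₁.repr (pr x) i := by
        rw [Basis.map_repr, LinearEquiv.trans_apply, Basis.prod_repr_inl]
        rfl
      rw [h0]
      refine (h₁ a (pr x)).1 ?_ i
      rw [LChain.mem_sub, hpr]
      exact Submodule.sub_mem _ hx (hs2 a _ (L.mkQ_mem_quo S hx))
    · have h0 : ((b₁.prod b₂).map e).repr x (Sum.inr j) = b₂.repr (S.mkQ x) j := by
        rw [Basis.map_repr, LinearEquiv.trans_apply, Basis.prod_repr_inr]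
        rfl
      rw [h0]
      exact (h₂ a _).1 (L.mkQ_mem_quo S hx) j

/-- multiplicities are additive -/
theorem mult_add (L : LChain Q m E) (S : Submodule F E) (a : ℤ) :
    (mult L a : ℤ) = mult (L.sub S) a + mult (L.quo S) a := by
  obtain ⟨b₁, w₁, h₁⟩ := (L.sub S).exists_split
  obtain ⟨b₂, w₂, h₂⟩ := (L.quo S).exists_split
  obtain ⟨b, h⟩ := splitBy_ext L S h₁ h₂
  rw [mult_eq h, mult_eq h₁, mult_eq h₂, Fintype.sum_sum_type]
  rfl

/-- the local term of Riemann–Roch -/
noncomputable def loc (L : LChain Q m E) (M : LChain Q m E₂) : ℤ :=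
  ∑ c ∈ Finset.range m, ∑ d ∈ Finset.range m, if d < c then (mult L c : ℤ) * mult M d else 0

omit [IsScalarTower k F E₂] [FiniteDimensional F E₂] in
theorem loc_add_left (L : LChain Q m E) (S : Submodule F E) (M : LChain Q m E₂) :
    loc L M = loc (L.sub S) M + loc (L.quo S) M := by
  unfold loc
  rw [← Finset.sum_add_distrib]
  refine Finset.sum_congr rfl fun c _ => ?_
  rw [← Finset.sum_add_distrib]
  refine Finset.sum_congr rfl fun d _ => ?_
  split_ifs
  · rw [mult_add L S c]; ring
  · ring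

omit [IsScalarTower k F E] [FiniteDimensional F E] in
theorem loc_add_right (L : LChain Q m E) (M : LChain Q m E₂) (S : Submodule F E₂) :
    loc L M = loc L (M.sub S) + loc L (M.quo S) := by
  unfold loc
  rw [← Finset.sum_add_distrib]
  refine Finset.sum_congr rfl fun c _ => ?_
  rw [← Finset.sum_add_distrib]
  refine Finset.sum_congr rfl fun d _ => ?_
  split_ifs
  · rw [mult_add M S d]; ring
  · ring

end Chains

section Global

variable {k F P : Type*} [Field k] [Field F] [Algebra k F] {C : Curve k F P}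

/-- the degree -/
noncomputable def dg {E : Type*} [AddCommGroup E] [Module F E] [Module k E] (A : Bun C E) : ℤ :=
  chi A.lat - finrank F E

/-- the right hand side of Riemann–Roch -/
noncomputable def rrs {κ : P → ℤ} (hκ : Dualizing C κ) {E : Type*} [AddCommGroup E] [Module F E]
    [Module k E] {E₂ : Type*} [AddCommGroup E₂] [Module F E₂] [Module k E₂]
    (A : Bun C E) (B : Bun C E₂) : ℤ :=
  finrank F E * finrank F E₂ + finrank F E * dg B - finrank F E₂ * dg A -
    ∑ p ∈ hκ.fin.toFinset, loc (A.ch p) (B.ch p)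

variable {κ : P → ℤ} (hκ : Dualizing C κ)

section two

variable {E : Type*} [AddCommGroup E] [Module F E] [Module k E] [IsScalarTower k F E]
  [FiniteDimensional F E]
variable {E₂ : Type*} [AddCommGroup E₂] [Module F E₂] [Module k E₂] [IsScalarTower k F E₂]
  [FiniteDimensional F E₂]

theorem dg_add (A : Bun C E) (S : Submodule F E) : dg A = dg (A.sub S) + dg (A.quo S) := by
  unfold dg
  rw [A.chi_add S]
  have h : (finrank F (E ⧸ S) : ℤ) + finrank F S = finrank F E := by
    exact_mod_cast S.finrank_quotient_add_finrank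
  linarith

theorem rrs_add_left (A : Bun C E) (S : Submodule F E) (B : Bun C E₂) :
    rrs hκ A B = rrs hκ (A.sub S) B + rrs hκ (A.quo S) B := by
  unfold rrs
  have h : (finrank F (E ⧸ S) : ℤ) + finrank F S = finrank F E := by
    exact_mod_cast S.finrank_quotient_add_finrank
  have h2 : ∑ p ∈ hκ.fin.toFinset, loc (A.ch p) (B.ch p) =
      ∑ p ∈ hκ.fin.toFinset, loc ((A.sub S).ch p) (B.ch p) +
      ∑ p ∈ hκ.fin.toFinset, loc ((A.quo S).ch p) (B.ch p) := by
    rw [← Finset.sum_add_distrib]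
    exact Finset.sum_congr rfl fun p _ => loc_add_left _ S _
  rw [h2, dg_add A S, ← h]
  ring

theorem rrs_add_right (A : Bun C E) (B : Bun C E₂) (S : Submodule F E₂) :
    rrs hκ A B = rrs hκ A (B.sub S) + rrs hκ A (B.quo S) := by
  unfold rrs
  have h : (finrank F (E₂ ⧸ S) : ℤ) + finrank F S = finrank F E₂ := by
    exact_mod_cast S.finrank_quotient_add_finrank
  have h2 : ∑ p ∈ hκ.fin.toFinset, loc (A.ch p) (B.ch p) =
      ∑ p ∈ hκ.fin.toFinset, loc (A.ch p) ((B.sub S).ch p) +
      ∑ p ∈ hκ.fin.toFinset, loc (A.ch p) ((B.quo S).ch p) := by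
    rw [← Finset.sum_add_distrib]
    exact Finset.sum_congr rfl fun p _ => loc_add_right _ _ S
  rw [h2, dg_add B S, ← h]
  ring

omit [IsScalarTower k F E] [FiniteDimensional F E] in
/-- a one dimensional chain -/
theorem splitBy_one {Q : Place k F} {m : ℕ} (L : LChain Q m E) {x : E} (hx0 : x ≠ 0)
    (hx : ∀ y : E, ∃ c : F, c • x = y) {w : ℤ} (hw : ∀ a, x ∈ L.L a ↔ a ≤ w) :
    ∃ b : Basis (Fin 1) F E, (∀ i, b i = x) ∧ L.SplitBy b (fun _ => w) := by
  have hinj : Function.Injective (LinearMap.toSpanSingleton F E x) := by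
    intro c d h
    exact smul_left_injective F hx0 h
  let e : F ≃ₗ[F] E := LinearEquiv.ofBijective (LinearMap.toSpanSingleton F E x) ⟨hinj, hx⟩
  have he : ∀ c, e c = c • x := fun c => rfl
  let b : Basis (Fin 1) F E := (Basis.singleton (Fin 1) F).map e
  have hbx : ∀ i, b i = x := by
    intro i
    simp [b, he]
  refine ⟨b, hbx, L.splitBy_of b _ ?_ ?_⟩
  · intro i
    rw [hbx]
    exact (hw _).2 le_rfl
  · intro a y hy i
    obtain ⟨c, rfl⟩ := hx y
    have hc : b.repr (c • x) i = c := by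
      have : c • x = c • b i := by rw [hbx]
      rw [this, map_smul, b.repr_self]
      simp
    rw [hc]
    by_cases h0 : c = 0
    · exact Or.inl h0
    rw [L.smul_iff c h0, hw] at hy
    rw [Q.mem_M_of_ne h0]
    linarith

/-- Riemann–Roch for two line bundles -/
theorem rr_one_one (A : Bun C E) (B : Bun C E₂) (x : E) (hx0 : x ≠ 0)
    (hx : ∀ y : E, ∃ c : F, c • x = y) (y : E₂) (hy0 : y ≠ 0)
    (hy : ∀ z : E₂, ∃ c : F, c • y = z) : chi (A.hom B).lat = rrs hκ A B := by
  classical
  obtain ⟨w, hw0, hw, -, hwc⟩ := A.rank_one x hx0 hx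
  obtain ⟨v, hv0, hv, -, hvc⟩ := B.rank_one y hy0 hy
  obtain ⟨φ, hφ⟩ := LChain.exists_functional (F := F) hx0
  -- the generator of the space of maps
  let f : E →ₗ[F] E₂ := ((φ x)⁻¹ • φ).smulRight y
  have hfx : f x = y := by
    show ((φ x)⁻¹ * φ x) • y = y
    rw [inv_mul_cancel₀ hφ, one_smul]
  have hf0 : f ≠ 0 := fun h => hy0 (by rw [← hfx, h]; rfl)
  have hf : ∀ g : E →ₗ[F] E₂, ∃ c : F, c • f = g := by
    intro g
    obtain ⟨c, hc⟩ := hy (g x)
    refine ⟨c, LinearMap.ext fun z => ?_⟩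
    obtain ⟨d, rfl⟩ := hx z
    rw [LinearMap.smul_apply, map_smul, map_smul, hfx, ← hc, smul_comm]
  obtain ⟨u, hu0, hu, -, huc⟩ := (A.hom B).rank_one f hf0 hf
  have huw : ∀ p, u p = v p - w p := by
    intro p
    have h1 : ∀ a, f ∈ ((A.hom B).ch p).L a ↔ a ≤ v p - w p := by
      intro a
      constructor
      · intro h
        have h2 := h (w p) x ((hw p _).2 le_rfl)
        rw [hfx, hv] at h2
        linarith
      · intro h b z hz
        obtain ⟨c, rfl⟩ := hx z
        rw [map_smul, hfx]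
        by_cases hc : c = 0
        · rw [hc, zero_smul]; exact Submodule.zero_mem _
        rw [(A.ch p).smul_iff c hc, hw] at hz
        rw [(B.ch p).smul_iff c hc, hv]
        linarith
    have h2 := hu p (u p)
    rw [h1] at h2
    have h3 := h1 (v p - w p)
    rw [hu] at h3
    exact le_antisymm (h2.2 le_rfl) (h3.2 le_rfl)
  have hP : Nonempty P := by
    by_contra hP
    have h1 := hκ.deg
    have h2 : ∀ p : P, p ∉ (∅ : Finset P) → κ p = 0 := fun p _ => (hP ⟨p⟩).elim
    rw [C.deg_eq_sum ∅ h2] at h1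
    simp at h1
  obtain ⟨p0⟩ := hP
  have hE : finrank F E = 1 := by
    obtain ⟨b, -⟩ := splitBy_one (A.ch p0) hx0 hx (hw p0)
    simpa using finrank_eq_card_basis b
  have hE₂ : finrank F E₂ = 1 := by
    obtain ⟨b, -⟩ := splitBy_one (B.ch p0) hy0 hy (hv p0)
    simpa using finrank_eq_card_basis b
  unfold rrs dg
  rw [huc, hwc, hvc, hE, hE₂]
  -- degrees
  let T : Finset P := hκ.fin.toFinset ∪ (hw0.toFinset ∪ (hv0.toFinset ∪ hu0.toFinset))
  have hTκ : ∀ p, p ∉ T → p ∉ hκ.fin.toFinset := fun p hp h => hp (Finset.mem_union_left _ h)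
  have hTw : ∀ p, p ∉ T → w p = 0 := by
    intro p hp
    by_contra h0
    exact hp (Finset.mem_union_right _ (Finset.mem_union_left _ (hw0.mem_toFinset.2 h0)))
  have hTv : ∀ p, p ∉ T → v p = 0 := by
    intro p hp
    by_contra h0
    exact hp (Finset.mem_union_right _ (Finset.mem_union_right _ (Finset.mem_union_left _
      (hv0.mem_toFinset.2 h0))))
  have hTu : ∀ p, p ∉ T → u p = 0 := by
    intro p hp
    rw [huw, hTw p hp, hTv p hp, sub_zero]
  have hloc : ∀ p, loc (A.ch p) (B.ch p) =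
      if v p % (C.per p : ℤ) < w p % (C.per p : ℤ) then 1 else 0 := by
    intro p
    obtain ⟨b, -, hb⟩ := splitBy_one (A.ch p) hx0 hx (hw p)
    obtain ⟨b', -, hb'⟩ := splitBy_one (B.ch p) hy0 hy (hv p)
    rw [← sum_ind (C.per_pos p)]
    unfold loc
    refine Finset.sum_congr rfl fun c _ => Finset.sum_congr rfl fun d _ => ?_
    rw [mult_eq' hb, mult_eq' hb']
    simp
  have hsub : hκ.fin.toFinset ⊆ T := Finset.subset_union_left
  have hlocT : ∑ p ∈ hκ.fin.toFinset, loc (A.ch p) (B.ch p) = ∑ p ∈ T, loc (A.ch p) (B.ch p) := by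
    refine Finset.sum_subset hsub fun p _ hp => ?_
    have h0 : κ p = 0 := by
      by_contra h0
      exact hp (hκ.fin.mem_toFinset.2 h0)
    have h1 := hκ.cong p
    rw [h0, Int.zero_emod] at h1
    have h3 : (C.per p : ℤ) = 1 := by linarith
    rw [hloc, h3, Int.emod_one, Int.emod_one]
    simp
  rw [hlocT, C.deg_eq_sum T hTu, C.deg_eq_sum T hTw, C.deg_eq_sum T hTv]
  have h5 : ∑ p ∈ T, u p / (C.per p : ℤ) = ∑ p ∈ T, v p / (C.per p : ℤ) -
      ∑ p ∈ T, w p / (C.per p : ℤ) - ∑ p ∈ T, loc (A.ch p) (B.ch p) := by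
    rw [← Finset.sum_sub_distrib, ← Finset.sum_sub_distrib]
    refine Finset.sum_congr rfl fun p _ => ?_
    rw [hloc, huw, div_sub_div (C.per_pos p)]
  rw [h5]
  push_cast
  ring

end two

theorem rr_zero_left {E : Type*} [AddCommGroup E] [Module F E] [Module k E] [IsScalarTower k F E]
    [FiniteDimensional F E] {E₂ : Type*} [AddCommGroup E₂] [Module F E₂] [Module k E₂]
    [IsScalarTower k F E₂] [FiniteDimensional F E₂] (A : Bun C E) (B : Bun C E₂)
    (h : finrank F E = 0) : chi (A.hom B).lat = rrs hκ A B := by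
  have hs : Subsingleton E := finrank_zero_iff.1 h
  have hd : Subsingleton (E →ₗ[F] E₂) :=
    ⟨fun a b => LinearMap.ext fun x => by rw [Subsingleton.elim x 0, map_zero, map_zero]⟩
  rw [chi_subsingleton]
  unfold rrs dg
  rw [h, chi_subsingleton (Λ := A.lat)]
  have hl : ∀ p, loc (A.ch p) (B.ch p) = 0 := by
    intro p
    unfold loc
    refine Finset.sum_eq_zero fun c _ => Finset.sum_eq_zero fun d _ => ?_
    have h1 : mult (A.ch p) c = 0 := by
      rw [mult_eq_zero]
      intro x _
      rw [Subsingleton.elim x 0]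
      exact Submodule.zero_mem _
    rw [h1]
    simp
  simp [hl]

theorem rr_zero_right {E : Type*} [AddCommGroup E] [Module F E] [Module k E] [IsScalarTower k F E]
    [FiniteDimensional F E] {E₂ : Type*} [AddCommGroup E₂] [Module F E₂] [Module k E₂]
    [IsScalarTower k F E₂] [FiniteDimensional F E₂] (A : Bun C E) (B : Bun C E₂)
    (h : finrank F E₂ = 0) : chi (A.hom B).lat = rrs hκ A B := by
  have hs : Subsingleton E₂ := finrank_zero_iff.1 h
  have hd : Subsingleton (E →ₗ[F] E₂) :=
    ⟨fun a b => LinearMap.ext fun x => Subsingleton.elim _ _⟩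
  rw [chi_subsingleton]
  unfold rrs dg
  rw [h, chi_subsingleton (Λ := B.lat)]
  have hl : ∀ p, loc (A.ch p) (B.ch p) = 0 := by
    intro p
    unfold loc
    refine Finset.sum_eq_zero fun c _ => Finset.sum_eq_zero fun d _ => ?_
    have h1 : mult (B.ch p) d = 0 := by
      rw [mult_eq_zero]
      intro x _
      rw [Subsingleton.elim x 0]
      exact Submodule.zero_mem _
    rw [h1]
    simp
  simp [hl]

/-- line bundle in the first variable -/
theorem rr_one_any (n : ℕ) {E : Type u} [AddCommGroup E] [Module F E] [Module k E]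
    [IsScalarTower k F E] [FiniteDimensional F E] (A : Bun C E) (x : E) (hx0 : x ≠ 0)
    (hx : ∀ y : E, ∃ c : F, c • x = y) :
    ∀ (E₂ : Type v) [AddCommGroup E₂] [Module F E₂] [Module k E₂] [IsScalarTower k F E₂]
      [FiniteDimensional F E₂], finrank F E₂ = n → ∀ B : Bun C E₂,
      chi (A.hom B).lat = rrs hκ A B := by
  induction n with
  | zero =>
    intro E₂ _ _ _ _ _ h B
    exact rr_zero_right hκ A B h
  | succ n ih =>
    intro E₂ _ _ _ _ _ h B
    have hnt : Nontrivial E₂ := by
      apply nontrivial_of_finrank_pos (R := F)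
      omega
    obtain ⟨y, hy⟩ := exists_ne (0 : E₂)
    let S : Submodule F E₂ := Submodule.span F {y}
    have hS1 : finrank F S = 1 := finrank_span_singleton hy
    have hQ : finrank F (E₂ ⧸ S) = n := by
      have := S.finrank_quotient_add_finrank
      omega
    let y' : S := ⟨y, Submodule.mem_span_singleton_self y⟩
    have hy'0 : y' ≠ 0 := fun h => hy (congrArg Subtype.val h)
    have hy' : ∀ z : S, ∃ c : F, c • y' = z := by
      rintro ⟨z, hz⟩
      obtain ⟨c, hc⟩ := Submodule.mem_span_singleton.1 hz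
      exact ⟨c, Subtype.ext hc⟩
    rw [chi_hom_right A B S, rrs_add_right hκ A B S, ih (E₂ ⧸ S) hQ (B.quo S),
      rr_one_one hκ A (B.sub S) x hx0 hx y' hy'0 hy']

theorem rr_hom_aux (n : ℕ) {E₂ : Type v} [AddCommGroup E₂] [Module F E₂] [Module k E₂]
    [IsScalarTower k F E₂] [FiniteDimensional F E₂] (B : Bun C E₂) :
    ∀ (E : Type u) [AddCommGroup E] [Module F E] [Module k E] [IsScalarTower k F E]
      [FiniteDimensional F E], finrank F E = n → ∀ A : Bun C E,
      chi (A.hom B).lat = rrs hκ A B := by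
  induction n with
  | zero =>
    intro E _ _ _ _ _ h A
    exact rr_zero_left hκ A B h
  | succ n ih =>
    intro E _ _ _ _ _ h A
    have hnt : Nontrivial E := by
      apply nontrivial_of_finrank_pos (R := F)
      omega
    obtain ⟨y, hy⟩ := exists_ne (0 : E)
    let S : Submodule F E := Submodule.span F {y}
    have hS1 : finrank F S = 1 := finrank_span_singleton hy
    have hQ : finrank F (E ⧸ S) = n := by
      have := S.finrank_quotient_add_finrank
      omega
    let y' : S := ⟨y, Submodule.mem_span_singleton_self y⟩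
    have hy'0 : y' ≠ 0 := fun h => hy (congrArg Subtype.val h)
    have hy' : ∀ z : S, ∃ c : F, c • y' = z := by
      rintro ⟨z, hz⟩
      obtain ⟨c, hc⟩ := Submodule.mem_span_singleton.1 hz
      exact ⟨c, Subtype.ext hc⟩
    rw [chi_hom_left A S B, rrs_add_left hκ A S B, ih (E ⧸ S) hQ (A.quo S),
      rr_one_any hκ _ (A.sub S) y' hy'0 hy' E₂ rfl B]

variable {E : Type u} [AddCommGroup E] [Module F E] [Module k E] [IsScalarTower k F E]
  [FiniteDimensional F E]
variable {E₂ : Type v} [AddCommGroup E₂] [Module F E₂] [Module k E₂] [IsScalarTower k F E₂]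
  [FiniteDimensional F E₂]

/-- RIEMANN–ROCH for `Hom` -/
theorem rr_hom (A : Bun C E) (B : Bun C E₂) :
    chi (A.hom B).lat = finrank F E * finrank F E₂ + finrank F E * dg B - finrank F E₂ * dg A -
      ∑ p ∈ hκ.fin.toFinset, loc (A.ch p) (B.ch p) :=
  rr_hom_aux hκ _ B E rfl A

include hκ in
/-- proportional multiplicities and symmetric Euler form: proportional degrees -/
theorem dg_prop (A : Bun C E) (B : Bun C E₂) (hE₂ : 0 < finrank F E₂)
    (hm : ∀ p a, finrank F E₂ * mult (A.ch p) a = finrank F E * mult (B.ch p) a)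
    (hs : chi (A.hom B).lat = chi (B.hom A).lat) :
    (finrank F E₂ : ℤ) * dg A = finrank F E * dg B := by
  have hm' : ∀ p a, (finrank F E₂ : ℤ) * mult (A.ch p) a = finrank F E * mult (B.ch p) a :=
    fun p a => by exact_mod_cast hm p a
  have e1 := rr_hom hκ A B
  have e2 := rr_hom hκ B A
  have e3 : ∑ p ∈ hκ.fin.toFinset, loc (A.ch p) (B.ch p) =
      ∑ p ∈ hκ.fin.toFinset, loc (B.ch p) (A.ch p) := by
    refine Finset.sum_congr rfl fun p _ => ?_
    have h0 : (finrank F E₂ : ℤ) ≠ 0 := by exact_mod_cast hE₂.ne'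
    apply mul_left_cancel₀ h0
    unfold loc
    rw [Finset.mul_sum, Finset.mul_sum]
    refine Finset.sum_congr rfl fun c _ => ?_
    rw [Finset.mul_sum, Finset.mul_sum]
    refine Finset.sum_congr rfl fun d _ => ?_
    split_ifs
    · linear_combination (mult (B.ch p) d : ℤ) * hm' p c - (mult (B.ch p) c : ℤ) * hm' p d
    · rfl
  linarith

include hκ in
/-- proportional in the first variable -/
theorem chi_prop_left (A : Bun C E) (B : Bun C E₂)
    (hm : ∀ p a, finrank F E₂ * mult (A.ch p) a = finrank F E * mult (B.ch p) a)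
    (hd : (finrank F E₂ : ℤ) * dg A = finrank F E * dg B)
    {E₃ : Type*} [AddCommGroup E₃] [Module F E₃] [Module k E₃] [IsScalarTower k F E₃]
    [FiniteDimensional F E₃] (D : Bun C E₃) :
    (finrank F E₂ : ℤ) * chi (A.hom D).lat = finrank F E * chi (B.hom D).lat := by
  have hm' : ∀ p a, (finrank F E₂ : ℤ) * mult (A.ch p) a = finrank F E * mult (B.ch p) a :=
    fun p a => by exact_mod_cast hm p a
  have e3 : (finrank F E₂ : ℤ) * ∑ p ∈ hκ.fin.toFinset, loc (A.ch p) (D.ch p) =
      finrank F E * ∑ p ∈ hκ.fin.toFinset, loc (B.ch p) (D.ch p) := by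
    rw [Finset.mul_sum, Finset.mul_sum]
    refine Finset.sum_congr rfl fun p _ => ?_
    unfold loc
    rw [Finset.mul_sum, Finset.mul_sum]
    refine Finset.sum_congr rfl fun c _ => ?_
    rw [Finset.mul_sum, Finset.mul_sum]
    refine Finset.sum_congr rfl fun d _ => ?_
    split_ifs
    · linear_combination (mult (D.ch p) d : ℤ) * hm' p c
    · ring
  rw [rr_hom hκ A D, rr_hom hκ B D]
  linear_combination (-(finrank F E₃ : ℤ)) * hd - e3

include hκ in
/-- proportional in the second variable -/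
theorem chi_prop_right (A : Bun C E) (B : Bun C E₂)
    (hm : ∀ p a, finrank F E₂ * mult (A.ch p) a = finrank F E * mult (B.ch p) a)
    (hd : (finrank F E₂ : ℤ) * dg A = finrank F E * dg B)
    {E₃ : Type*} [AddCommGroup E₃] [Module F E₃] [Module k E₃] [IsScalarTower k F E₃]
    [FiniteDimensional F E₃] (D : Bun C E₃) :
    (finrank F E₂ : ℤ) * chi (D.hom A).lat = finrank F E * chi (D.hom B).lat := by
  have hm' : ∀ p a, (finrank F E₂ : ℤ) * mult (A.ch p) a = finrank F E * mult (B.ch p) a :=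
    fun p a => by exact_mod_cast hm p a
  have e3 : (finrank F E₂ : ℤ) * ∑ p ∈ hκ.fin.toFinset, loc (D.ch p) (A.ch p) =
      finrank F E * ∑ p ∈ hκ.fin.toFinset, loc (D.ch p) (B.ch p) := by
    rw [Finset.mul_sum, Finset.mul_sum]
    refine Finset.sum_congr rfl fun p _ => ?_
    unfold loc
    rw [Finset.mul_sum, Finset.mul_sum]
    refine Finset.sum_congr rfl fun c _ => ?_
    rw [Finset.mul_sum, Finset.mul_sum]
    refine Finset.sum_congr rfl fun d _ => ?_
    split_ifs
    · linear_combination (mult (D.ch p) c : ℤ) * hm' p d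
    · ring
  rw [rr_hom hκ D A, rr_hom hκ D B]
  linear_combination (finrank F E₃ : ℤ) * hd - e3

end Global

end Vale.Agent.P182.H388
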