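import Vale.Agent.P182.H588.SFour
import Vale.Agent.P182.H258.Core

/-!
# Special configurations: the core

`H258/Core` for special configurations: `E (R^⊥)` is replaced by `Esh (R^⊥)`, `K` by `Ks`.
-/

namespace Vale.Agent.P182.H388.S

open Module Matrix Vale.Agent.P182.H533 Vale.Agent.P182.H96 Vale.Agent.P182.H96.Cf
  Vale.Agent.P182.H588.SP

variable {L V J : Type*} [Field L] [AddCommGroup V] [Module L V]
  {a : Cf L V J (Fin 3)} {c0 c1 : J}

open Classical in
/-- reduced families -/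
noncomputable def rd (c0 c1 : J) : (J → V) →ₗ[L] (J → V) where
  toFun z l := if l = c0 then z c0 + z c1 else if l = c1 then 0 else z l
  map_add' z w := by
    funext l
    simp only [Pi.add_apply]
    split_ifs
    · abel
    · rw [add_zero]
    · rfl
  map_smul' b z := by
    funext l
    simp only [Pi.smul_apply, RingHom.id_apply]
    split_ifs
    · rw [smul_add]
    · rw [smul_zero]
    · rfl

theorem rd_c0 (z : J → V) : rd (L := L) c0 c1 z c0 = z c0 + z c1 := if_pos rfl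

theorem rd_c1 (h : c0 ≠ c1) (z : J → V) : rd (L := L) c0 c1 z c1 = 0 :=
  (if_neg h.symm).trans (if_pos rfl)

theorem rd_ne {l : J} (h0 : l ≠ c0) (h1 : l ≠ c1) (z : J → V) :
    rd (L := L) c0 c1 z l = z l := (if_neg h0).trans (if_neg h1)

theorem mem_Esh' (h : c0 ≠ c1) {D : Submodule L V} {z : J → V} :
    z ∈ Esh a c0 c1 D ↔ (∀ l, z l ∈ a.C l) ∧ ∀ l, rd (L := L) c0 c1 z l ∈ D := by
  rw [mem_Esh]
  refine and_congr_right fun _ => ⟨fun hz l => ?_, fun hz => ⟨fun l h0 h1 => ?_, ?_⟩⟩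
  · by_cases h0 : l = c0
    · subst h0; rw [rd_c0]; exact hz.2
    · by_cases h1 : l = c1
      · subst h1; rw [rd_c1 h]; exact D.zero_mem
      · rw [rd_ne h0 h1]; exact hz.1 l h0 h1
  · have := hz l
    rwa [rd_ne h0 h1] at this
  · have := hz c0
    rwa [rd_c0] at this

variable [Fintype J]

/-- a family killed by `UM` is determined by the reduced family -/
theorem mem_of_rd (hs : Spc a c0 c1) (h : a.Good) (h2 : (2 : L) ≠ 0) {D : Submodule L V}
    {z : J → V} (hz : ∀ l, rd (L := L) c0 c1 z l ∈ D) (hU : UM a c0 c1 z ∈ D) :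
    ∀ l, z l ∈ D := by
  classical
  have hzl : ∀ l, l ≠ c0 → l ≠ c1 → z l ∈ D := fun l h0 h1 => by
    have := hz l
    rwa [rd_ne h0 h1] at this
  have hz0 : z c0 + z c1 ∈ D := by
    have := hz c0
    rwa [rd_c0] at this
  have e1 : z c1 - z c0 ∈ D := by
    have h3 : UM a c0 c1 z = z c1 - z c0 +
        ∑ l ∈ (Finset.univ.filter fun l => l ≠ c0 ∧ l ≠ c1), uu a c0 c1 l • z l := by
      rw [UM_apply, ← Finset.add_sum_erase _ _ (Finset.mem_univ c0),
        ← Finset.add_sum_erase _ _ (Finset.mem_erase.mpr ⟨hs.ne.symm, Finset.mem_univ c1⟩),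
        uu_c0 hs h, uu_c1 hs, neg_one_smul, one_smul]
      have h4 : (Finset.univ.erase c0).erase c1 =
          Finset.univ.filter fun l => l ≠ c0 ∧ l ≠ c1 := by
        ext l
        simp only [Finset.mem_erase, Finset.mem_univ, and_true, Finset.mem_filter, true_and]
        tauto
      rw [h4]
      abel
    rw [h3] at hU
    have h5 : ∑ l ∈ (Finset.univ.filter fun l => l ≠ c0 ∧ l ≠ c1), uu a c0 c1 l • z l ∈ D := by
      refine D.sum_mem fun l hl => ?_
      simp only [Finset.mem_filter, Finset.mem_univ, true_and] at hl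
      exact D.smul_mem _ (hzl l hl.1 hl.2)
    have := D.sub_mem hU h5
    rwa [add_sub_cancel_right] at this
  have e3 : z c1 ∈ D := by
    have h3 : (2 : L) • z c1 ∈ D := by
      have := D.add_mem e1 hz0
      convert this using 1
      rw [two_smul]
      abel
    have := D.smul_mem (2 : L)⁻¹ h3
    rwa [smul_smul, inv_mul_cancel₀ h2, one_smul] at this
  have e4 : z c0 ∈ D := by
    have := D.sub_mem e3 e1
    rwa [sub_sub_cancel] at this
  intro l
  by_cases h0 : l = c0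
  · subst h0; exact e4
  · by_cases h1 : l = c1
    · subst h1; exact e3
    · exact hzl l h0 h1

variable (a c0 c1) in
/-- the span of all images of the special kernel -/
def UUs : Submodule L V := Submodule.span L {v | ∃ t ∈ Ks a c0 c1, ∃ l, v = t l}

theorem mem_UUs {t : J → V} (ht : t ∈ Ks a c0 c1) (l : J) : t l ∈ UUs a c0 c1 :=
  Submodule.subset_span ⟨t, ht, l, rfl⟩

theorem UUs_induction {p : V → Prop} (h0 : p 0) (hadd : ∀ u v, p u → p v → p (u + v))
    (hsmul : ∀ (c : L) u, p u → p (c • u)) (hK : ∀ t ∈ Ks a c0 c1, ∀ l, p (t l)) :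
    ∀ u ∈ UUs a c0 c1, p u := by
  intro u hu
  induction hu using Submodule.span_induction with
  | mem u hu =>
    obtain ⟨t, ht, l, rfl⟩ := hu
    exact hK t ht l
  | zero => exact h0
  | add u v _ _ hu hv => exact hadd u v hu hv
  | smul c u _ hu => exact hsmul c u hu

theorem Us_iso (hH : ∀ x ∈ Ks a c0 c1, ∀ y ∈ Ks a c0 c1, ∀ l k, a.q (x l) (y k) = 0) :
    UUs a c0 c1 ≤ pp a.q (UUs a c0 c1) := by
  intro u hu
  refine UUs_induction (a := a) (p := fun u => u ∈ pp a.q (UUs a c0 c1)) (Submodule.zero_mem _)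
    (fun _ _ => Submodule.add_mem _) (fun _ _ => Submodule.smul_mem _ _) ?_ u hu
  intro t ht l v hv
  refine UUs_induction (a := a) (p := fun v => a.q v (t l) = 0)
    (by rw [map_zero, LinearMap.zero_apply])
    (fun _ _ h1 h2 => by rw [map_add, LinearMap.add_apply, h1, h2, add_zero])
    (fun _ _ h1 => by rw [map_smul, LinearMap.smul_apply, h1, smul_zero]) ?_ v hv
  intro r hr k
  exact hH r hr t ht k l

theorem UUs_le {S : Submodule L V} (hKS : Ks a c0 c1 ≤ a.E S) : UUs a c0 c1 ≤ S := fun u hu =>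
  UUs_induction (a := a) (p := fun u => u ∈ S) S.zero_mem (fun _ _ => S.add_mem)
    (fun _ _ => S.smul_mem _) (fun _ ht l => (mem_E.mp (hKS ht) l).2) u hu

/-- derivatives of the special kernel -/
theorem der_perp_s (hs : Spc a c0 c1) (h : a.Good) (h2 : (2 : L) ≠ 0) {c : Conn a.q}
    (hc : a.IsX c) {x : J → V} (hx : x ∈ Ks a c0 c1) :
    (fun l => c.δ (x l)) ∈ a.perp (Esh a c0 c1 (pp a.q (UUs a c0 c1))) := by
  classical
  refine mem_perp.mpr ⟨fun l => hc _ _ _ ((mem_K'.mp hx.1).1 l), fun v hv => ?_⟩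
  rw [h.M_derX hc hx.1 hv.1, neg_eq_zero]
  exact sum_special_zero hs.ne h (η := fun l k => c.d (a.Ω l k))
    (fun l k => by rw [h.skew l k, map_neg]) (fun l => d_special hs h h2 c l) hv
    (fun l => mem_UUs hx l)

theorem der_skew_s (h : a.Good) (hU : UUs a c0 c1 ≤ pp a.q (UUs a c0 c1)) (c : Conn a.q)
    {u v : V} (hu : u ∈ UUs a c0 c1) (hv : v ∈ UUs a c0 c1) :
    a.q (c.δ u) v = - a.q (c.δ v) u := by
  have h1 := c.metric u v
  rw [hU hv u hu, map_zero, h.form.symm u (c.δ v)] at h1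
  exact eq_neg_of_add_eq_zero_left h1.symm

/-- the derivative of `∑ u_l x_l = 0`, paired with the isotropic span -/
theorem UM_der (hU : UUs a c0 c1 ≤ pp a.q (UUs a c0 c1)) (c : Conn a.q) {x : J → V}
    (hx : x ∈ Ks a c0 c1) : UM a c0 c1 (fun l => c.δ (x l)) ∈ pp a.q (UUs a c0 c1) := by
  have h1 : UM a c0 c1 x = 0 := hx.2
  have h3 : UM a c0 c1 (fun l => c.δ (x l)) = - ∑ l, c.d (uu a c0 c1 l) • x l := by
    rw [eq_neg_iff_add_eq_zero, UM_apply, ← Finset.sum_add_distrib]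
    have h4 := congrArg c.δ h1
    rw [UM_apply, map_sum, map_zero] at h4
    rw [← h4]
    exact Finset.sum_congr rfl fun l _ => by rw [c.smul, add_comm]
  rw [h3]
  exact neg_mem (Submodule.sum_mem _ fun l _ => Submodule.smul_mem _ _ (hU (mem_UUs hx l)))

/-- reduced orthogonality of a derivative is orthogonality -/
theorem der_of_rd (hs : Spc a c0 c1) (h : a.Good) (h2 : (2 : L) ≠ 0)
    (hU : UUs a c0 c1 ≤ pp a.q (UUs a c0 c1)) (c : Conn a.q) {x : J → V}
    (hx : x ∈ Ks a c0 c1)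
    (hr : ∀ l, rd (L := L) c0 c1 (fun l => c.δ (x l)) l ∈ pp a.q (UUs a c0 c1)) :
    ∀ l, c.δ (x l) ∈ pp a.q (UUs a c0 c1) := mem_of_rd hs h h2 hr (UM_der hU c hx)

theorem ds_K_le {R S : Submodule L V} (D : DatS a c0 c1 R S)
    (hK : a.K ≤ Esh a c0 c1 (pp a.q R)) : a.K ≤ Esh a c0 c1 (pp a.q S) :=
  (le_inf hK (K_le_perp _ (E_le_top _))).trans D.ext

theorem ds_h6 [FiniteDimensional L V] (hs : Spc a c0 c1) (h : a.Good) (h2 : (2 : L) ≠ 0)
    {R S : Submodule L V} (D : DatS a c0 c1 R S) (hK : a.K ≤ Esh a c0 c1 (pp a.q R)) :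
    a.perp (Esh a c0 c1 (pp a.q S)) = a.E S ⊔ a.perp (Esh a c0 c1 (pp a.q R)) := by
  refine le_antisymm ?_ (sup_le (E_le_perp_s hs h h2) (po_anti (Esh_mono (pp_anti D.le))))
  set X := a.E S ⊔ a.perp (Esh a c0 c1 (pp a.q R)) with hX
  have hXE : X ≤ a.E ⊤ := sup_le (E_le_top _) (po_le _)
  have hKX : a.K ≤ X := (K_le_perp _ (Esh_le _)).trans le_sup_right
  have h1 : a.perp (a.perp X) = X := by
    have : a.perp (a.perp X) = X ⊔ a.K := po_po h.M_skew hXE
    rw [this]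
    exact sup_eq_left.mpr hKX
  have h3 : a.perp X = a.perp (a.E S) ⊓ Esh a c0 c1 (pp a.q R) := by
    have e1 : a.perp X = a.perp (a.E S) ⊓ a.perp (a.perp (Esh a c0 c1 (pp a.q R))) :=
      po_sup _ _
    have e2 : a.perp (a.perp (Esh a c0 c1 (pp a.q R))) = Esh a c0 c1 (pp a.q R) ⊔ a.K :=
      po_po h.M_skew (Esh_le _)
    rw [e1, e2, sup_eq_left.mpr hK]
  rw [← h1, h3, inf_comm]
  exact po_anti D.ext

/-- **(star).** -/
theorem ds_star [DecidableEq J] [FiniteDimensional L V] (hs : Spc a c0 c1) (h : a.Good)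
    (h2 : (2 : L) ≠ 0) {R S : Submodule L V} (D : DatS a c0 c1 R S)
    (hKS : Ks a c0 c1 ≤ a.E S) {v : J → V} (hv1 : v ∈ Esh a c0 c1 (pp a.q R))
    (hv2 : v ∈ a.perp (Esh a c0 c1 (pp a.q (UUs a c0 c1)))) : v ∈ Esh a c0 c1 (pp a.q S) := by
  have hSR : a.E S ≤ Esh a c0 c1 (pp a.q R) :=
    (E_mono (D.iso.trans (pp_anti D.le))).trans (E_le_Esh _)
  have hKR : a.K ≤ Esh a c0 c1 (pp a.q R) := K_le_Esh hs h h2 (hKS.trans hSR)
  have h7 : v ∈ a.E S ⊔ a.perp (Esh a c0 c1 (pp a.q R)) := by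
    rw [← ds_h6 hs h h2 D hKR]
    exact po_anti (Esh_mono (pp_anti (UUs_le hKS))) hv2
  obtain ⟨e, he, f, hf, rfl⟩ := Submodule.mem_sup.mp h7
  have hf' : f ∈ Esh a c0 c1 (pp a.q R) := by
    have := (Esh a c0 c1 (pp a.q R)).sub_mem hv1 (hSR he)
    rwa [add_sub_cancel_left] at this
  exact (Esh a c0 c1 (pp a.q S)).add_mem (E_le_Esh _ (E_mono D.iso he))
    (D.ext ⟨hf', po_anti hSR hf⟩)

/-- the conclusion of (5a) at `x` -/
def FAs (a : Cf L V J (Fin 3)) (c0 c1 : J) (x : J → V) : Prop :=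
  ∀ c : Conn a.q, a.IsX c → (∀ l, ∀ u ∈ UUs a c0 c1, a.q (c.δ (x l)) u = 0) →
    ∀ u ∈ UUs a c0 c1, ∀ u' ∈ UUs a c0 c1, a.q (c.δ u) u' = 0

/-- `x` is of type (i) -/
def TypeIs (a : Cf L V J (Fin 3)) (c0 c1 : J) (x : J → V) : Prop :=
  ∃ y ∈ Ks a c0 c1, ∃ b, a.Eps (Submodule.span L (Set.range x)) b ∧
    (∀ l, y l - b (a.arm l) (x l) ∈ Submodule.span L (Set.range x)) ∧
    ¬ ∀ l, y l ∈ Submodule.span L (Set.range x)

/-- reduction to one more element of the kernel -/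
theorem fas_red (hK : finrank L (Ks a c0 c1) = 2)
    (hH : ∀ x ∈ Ks a c0 c1, ∀ y ∈ Ks a c0 c1, ∀ l k, a.q (x l) (y k) = 0) (h : a.Good)
    {x : J → V} (hx : x ∈ Ks a c0 c1) (hx0 : x ≠ 0) {c : Conn a.q}
    (hcx : ∀ l, ∀ u ∈ UUs a c0 c1, a.q (c.δ (x l)) u = 0) {y : J → V}
    (hy : y ∈ Ks a c0 c1) (hyx : ∀ b : L, y ≠ b • x)
    (hyy : ∀ l k, a.q (c.δ (y l)) (y k) = 0) :
    ∀ u ∈ UUs a c0 c1, ∀ u' ∈ UUs a c0 c1, a.q (c.δ u) u' = 0 := by
  have hU := Us_iso hH
  have hcoord := exists_coord hK hx hy hx0 hyx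
  have e1 : ∀ l, ∀ u' ∈ UUs a c0 c1, a.q (c.δ (y l)) u' = 0 := by
    intro l
    refine UUs_induction (a := a) (p := fun u' => a.q (c.δ (y l)) u' = 0) (map_zero _)
      (fun _ _ h3 h4 => by rw [map_add, h3, h4, add_zero])
      (fun _ _ h3 => by rw [map_smul, h3, smul_zero]) ?_
    intro t ht k
    obtain ⟨α, β, rfl⟩ := hcoord t ht
    rw [Pi.add_apply, Pi.smul_apply, Pi.smul_apply, map_add, map_smul, map_smul, hyy,
      der_skew_s h hU c (mem_UUs hy l) (mem_UUs hx k), hcx k _ (mem_UUs hy l), neg_zero,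
      smul_zero, smul_zero, add_zero]
  have e2 := UUs_induction (a := a) (c0 := c0) (c1 := c1)
    (p := fun u => u ∈ UUs a c0 c1 ∧ ∀ u' ∈ UUs a c0 c1, a.q (c.δ u) u' = 0)
    ⟨(UUs a c0 c1).zero_mem, fun u' _ => by rw [map_zero, map_zero, LinearMap.zero_apply]⟩
    (fun _ _ h3 h4 => ⟨(UUs a c0 c1).add_mem h3.1 h4.1, fun u' hu' => by
      rw [map_add, map_add, LinearMap.add_apply, h3.2 u' hu', h4.2 u' hu', add_zero]⟩)
    (fun b u h3 => ⟨(UUs a c0 c1).smul_mem b h3.1, fun u' hu' => by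
      rw [c.smul, map_add, map_smul, map_smul, LinearMap.add_apply, LinearMap.smul_apply,
        LinearMap.smul_apply, h3.2 u' hu', hU hu' u h3.1, smul_zero, smul_zero, add_zero]⟩)
    (fun t ht k => ⟨mem_UUs ht k, fun u' hu' => by
      obtain ⟨α, β, rfl⟩ := hcoord t ht
      rw [Pi.add_apply, Pi.smul_apply, Pi.smul_apply, map_add, c.smul, c.smul]
      simp only [map_add, map_smul, LinearMap.add_apply, LinearMap.smul_apply]
      rw [hcx k u' hu', e1 k u' hu', hU hu' _ (mem_UUs hx k), hU hu' _ (mem_UUs hy k)]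
      simp⟩)
  exact fun u hu => (e2 u hu).2

omit [Fintype J] in
/-- a skew function which vanishes in the reduced sense vanishes -/
theorem skew_zero (h2 : (2 : L) ≠ 0) {g : J → J → L} (hg : ∀ l k, g l k = - g k l)
    (h3 : ∀ l, l ≠ c0 → l ≠ c1 → ∀ k, g l k = 0) (h4 : ∀ k, g c0 k + g c1 k = 0) :
    ∀ l k, g l k = 0 := by
  have hd : ∀ l, g l l = 0 := fun l => by
    have e1 := hg l l
    have e2 : (2 : L) * g l l = 0 := by linear_combination e1
    exact (mul_eq_zero.mp e2).resolve_left h2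
  have h5 : g c1 c0 = 0 := by
    have := h4 c0
    rwa [hd, zero_add] at this
  have h6 : g c0 c1 = 0 := by rw [hg, h5, neg_zero]
  intro l k
  by_cases hl : l = c0 ∨ l = c1
  · by_cases hk : k = c0 ∨ k = c1
    · rcases hl with rfl | rfl <;> rcases hk with rfl | rfl
      · exact hd _
      · exact h6
      · exact h5
      · exact hd _
    · push Not at hk
      rw [hg, h3 k hk.1 hk.2, neg_zero]
  · push Not at hl
    exact h3 l hl.1 hl.2 k

section five_a

variable [DecidableEq J] [FiniteDimensional L V]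

omit [DecidableEq J] [FiniteDimensional L V] in
/-- the derivatives of the elements of the span -/
theorem kill_R (hU : UUs a c0 c1 ≤ pp a.q (UUs a c0 c1)) {x : J → V}
    {R : Submodule L V} (hRx : R = Submodule.span L (Set.range x)) (hRU : R ≤ UUs a c0 c1)
    {c : Conn a.q} (hcx : ∀ l, ∀ u ∈ UUs a c0 c1, a.q (c.δ (x l)) u = 0) :
    ∀ r ∈ R, ∀ u ∈ UUs a c0 c1, a.q (c.δ r) u = 0 := by
  intro r hr u hu
  rw [hRx] at hr
  induction hr using Submodule.span_induction with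
  | mem r hr =>
    obtain ⟨k, rfl⟩ := hr
    exact hcx k u hu
  | zero => rw [map_zero, map_zero, LinearMap.zero_apply]
  | add r r' _ _ h3 h4 => rw [map_add, map_add, LinearMap.add_apply, h3, h4, add_zero]
  | smul b r hr h3 =>
    rw [← hRx] at hr
    rw [c.smul, map_add, map_smul, map_smul, LinearMap.add_apply, LinearMap.smul_apply,
      LinearMap.smul_apply, h3, hU hu r (hRU hr), smul_zero, smul_zero, add_zero]

/-- **(5a)** at elements with the data `DatS` -/
theorem fas_dat (hs : Spc a c0 c1) (h : a.Good) (h2 : (2 : L) ≠ 0)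
    (hK : finrank L (Ks a c0 c1) = 2)
    (hH : ∀ x ∈ Ks a c0 c1, ∀ y ∈ Ks a c0 c1, ∀ l k, a.q (x l) (y k) = 0) {x : J → V}
    (hx : x ∈ Ks a c0 c1) (hx0 : x ≠ 0) {S : Submodule L V}
    (D : DatS a c0 c1 (Submodule.span L (Set.range x)) S) (hKS : Ks a c0 c1 ≤ a.E S) :
    FAs a c0 c1 x := by
  intro c hc hcx
  have hU := Us_iso hH
  have hRU : Submodule.span L (Set.range x) ≤ UUs a c0 c1 := by
    rw [Submodule.span_le]
    rintro _ ⟨k, rfl⟩
    exact mem_UUs hx k
  have hcR := kill_R hU rfl hRU hcx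
  obtain ⟨y, hy, hyx⟩ := exists_compl hK (x := x)
  apply fas_red hK hH h hx hx0 hcx hy hyx
  have hδ : (fun l => c.δ (y l)) ∈ Esh a c0 c1 (pp a.q S) := by
    apply ds_star hs h h2 D hKS _ (der_perp_s hs h h2 hc hy)
    refine E_le_Esh _ (mem_E.mpr fun l => ⟨hc _ _ _ ((mem_K'.mp hy.1).1 l), fun r hr => ?_⟩)
    rw [h.form.symm, der_skew_s h hU c (mem_UUs hy l) (hRU hr), hcR r hr _ (mem_UUs hy l),
      neg_zero]
  apply skew_zero (c0 := c0) (c1 := c1) h2
  · intro l k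
    exact der_skew_s h hU c (mem_UUs hy l) (mem_UUs hy k)
  · intro l h0 h1 k
    rw [h.form.symm]
    exact hδ.2.1 l h0 h1 _ (mem_E.mp (hKS hy) k).2
  · intro k
    have := hδ.2.2 _ (mem_E.mp (hKS hy) k).2
    rwa [h.form.symm, map_add, LinearMap.add_apply] at this

/-- **(5a)** at elements of type (i) -/
theorem fas_typeI (hs : Spc a c0 c1) (h : a.Good) (h2 : (2 : L) ≠ 0) (hV : SVers a c0 c1)
    (hN : N1s a c0 c1) (hK : finrank L (Ks a c0 c1) = 2)
    (hH : ∀ x ∈ Ks a c0 c1, ∀ y ∈ Ks a c0 c1, ∀ l k, a.q (x l) (y k) = 0) {x : J → V}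
    (hx : x ∈ Ks a c0 c1) (hx0 : x ≠ 0) (hI : TypeIs a c0 c1 x) : FAs a c0 c1 x := by
  intro c hc hcx
  have hU := Us_iso hH
  set R := Submodule.span L (Set.range x) with hRx
  have hxR : ∀ l, x l ∈ R := fun l => Submodule.subset_span ⟨l, rfl⟩
  have hRU : R ≤ UUs a c0 c1 := by
    rw [hRx, Submodule.span_le]
    rintro _ ⟨k, rfl⟩
    exact mem_UUs hx k
  have hR : R ≤ pp a.q R := hRU.trans (hU.trans (pp_anti hRU))
  have hcR := kill_R hU hRx hRU hcx
  obtain ⟨y, hy, b, hb, hyb, hyR⟩ := hI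
  have hyx : ∀ b : L, y ≠ b • x := by
    rintro b rfl
    exact hyR fun l => R.smul_mem b (hxR l)
  apply fas_red hK hH h hx hx0 hcx hy hyx
  have hkill : ∀ l, ∀ r ∈ R, a.q (c.δ (y l)) r = 0 := fun l r hr => by
    rw [der_skew_s h hU c (mem_UUs hy l) (hRU hr), hcR r hr _ (mem_UUs hy l), neg_zero]
  have hbU : ∀ s, ∀ r ∈ R, b s r ∈ UUs a c0 c1 := by
    intro s r hr
    rw [hRx] at hr
    induction hr using Submodule.span_induction with
    | mem r hr =>
      obtain ⟨k, rfl⟩ := hr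
      have e1 := (UUs a c0 c1).add_mem ((UUs a c0 c1).sub_mem (mem_UUs hy k) (hRU (hyb k)))
        (hRU (hb.comp s (a.arm k) _ (hxR k)))
      convert e1 using 1
      abel
    | zero => rw [map_zero]; exact (UUs a c0 c1).zero_mem
    | add r r' _ _ h3 h4 => rw [map_add]; exact (UUs a c0 c1).add_mem h3 h4
    | smul b r _ h3 => rw [map_smul]; exact (UUs a c0 c1).smul_mem _ h3
  have hind : ∀ l s s', ∀ r ∈ R, a.q (c.δ (y l)) (b s r) = a.q (c.δ (y l)) (b s' r) := by
    intro l s s' r hr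
    have := hkill l _ (hb.comp s s' r hr)
    rwa [map_sub, sub_eq_zero] at this
  have hδC : ∀ l, c.δ (y l) ∈ a.C l := fun l => hc _ _ _ ((mem_K'.mp (Ks_le hy)).1 l)
  let z : J → V := fun l => - b (a.arm l) (c.δ (y l))
  have hz : ∀ l, z l ∈ a.C l := fun l => (a.C l).neg_mem (hb.pres l _ (hδC l))
  have hzr : ∀ l s, ∀ r ∈ R, a.q (z l) r = a.q (c.δ (y l)) (b s r) := by
    intro l s r hr
    show a.q (- b (a.arm l) (c.δ (y l))) r = _
    rw [map_neg, LinearMap.neg_apply, hb.sk, neg_neg]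
    exact hind l _ _ r hr
  have hzR : ∀ t ∈ a.E R, a.M t z = 0 := by
    intro t ht
    have ht' := mem_E.mp ht
    rw [h.M_skew, M_apply, neg_eq_zero]
    have e1 : ∀ l, a.q (z l) (om a.Ω t l) =
        ∑ k, a.Ω l k * a.q (c.δ (y l)) (b (a.arm k) (t k)) := by
      intro l
      rw [om, map_sum]
      exact Finset.sum_congr rfl fun k _ => by
        rw [map_smul, smul_eq_mul, hzr l (a.arm k) _ (ht' k).2]
    simp only [e1]
    have e2 : a.M (fun k => b (a.arm k) (t k)) (fun l => c.δ (y l)) = 0 :=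
      (mem_perp.mp (der_perp_s hs h h2 hc hy)).2 _ (E_le_Esh _ (mem_E.mpr fun k =>
        ⟨hb.pres k _ (ht' k).1, hU (hbU _ _ (ht' k).2)⟩))
    rw [h.M_skew, M_eq, neg_eq_zero] at e2
    exact e2
  have hτ : ∀ s, ∀ r ∈ R, a.tau s z x r = 0 := by
    intro s r hr
    have e0 : ∀ l, a.q (z l) r = - a.q (y l) (c.δ (b s r)) := by
      intro l
      rw [hzr l s r hr, der_skew_s h hU c (mem_UUs hy l) (hbU s r hr), h.form.symm]
    have e1 : ∀ l, a.q (om a.Ω z l) r = - a.q (om a.Ω y l) (c.δ (b s r)) := by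
      intro l
      rw [om, om, map_sum, map_sum, LinearMap.sum_apply, LinearMap.sum_apply,
        ← Finset.sum_neg_distrib]
      exact Finset.sum_congr rfl fun k _ => by
        rw [map_smul, map_smul, LinearMap.smul_apply, LinearMap.smul_apply, e0, smul_neg]
    have e2 : a.tau s z x r = - a.tau s y x (c.δ (b s r)) := by
      rw [tau, tau, ← Finset.sum_neg_distrib]
      exact Finset.sum_congr rfl fun l _ => by rw [e1, e0, neg_smul, neg_smul, neg_add]
    have e3 : ∀ l, a.q (x l) (c.δ (b s r)) = 0 := by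
      intro l
      rw [h.form.symm, der_skew_s h hU c (hbU s r hr) (mem_UUs hx l), hcx l _ (hbU s r hr),
        neg_zero]
    rw [e2, F2_s h hV (Ks_le hy) (Ks_le hx), tau, neg_eq_zero]
    refine Finset.sum_eq_zero fun l _ => ?_
    have e4 : a.q (om a.Ω x l) (c.δ (b s r)) = 0 := by
      rw [om, map_sum, LinearMap.sum_apply]
      exact Finset.sum_eq_zero fun k _ => by
        rw [map_smul, LinearMap.smul_apply, e3, smul_zero]
    rw [e3, e4, zero_smul, zero_smul, add_zero]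
  have hZ := lemmaZ_s hs h h2 hV hN hx hxR hR hz hzR hτ
  rw [← hRx] at hZ
  -- an element whose image pairs to zero with `R`
  have key : ∀ w w' : V, (∀ k, a.q w (x k) = a.q w' (b (a.arm k) (x k))) →
      (∀ r ∈ R, a.q w' r = 0) → w ∈ pp a.q R → ∀ k, a.q w' (y k) = 0 := by
    intro w w' h3 h4 h5 k
    have h6 := h5 _ (hxR k)
    rw [h.form.symm, h3 k] at h6
    have h7 := h4 _ (hyb k)
    rwa [map_sub, h6, sub_zero] at h7
  apply skew_zero (c0 := c0) (c1 := c1) h2
  · intro l k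
    exact der_skew_s h hU c (mem_UUs hy l) (mem_UUs hy k)
  · intro l h0 h1
    exact key (z l) _ (fun k => hzr l _ _ (hxR k)) (hkill l) (hZ.2.1 l h0 h1)
  · intro k
    have := key (z c0 + z c1) (c.δ (y c0) + c.δ (y c1)) (fun k => by
      rw [map_add, LinearMap.add_apply, map_add, LinearMap.add_apply, hzr c0 _ _ (hxR k),
        hzr c1 _ _ (hxR k)]) (fun r hr => by
      rw [map_add, LinearMap.add_apply, hkill c0 r hr, hkill c1 r hr, add_zero]) hZ.2.2 k
    rwa [map_add, LinearMap.add_apply] at this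

end five_a

end Vale.Agent.P182.H388.S
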