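import Vale.Agent.P182.H388.SCore
import Vale.Agent.P182.H96.Bridge

/-!
# Special configurations: the count

`H258/Count` for special configurations.
-/

namespace Vale.Agent.P182.H388.S

open Module Matrix Vale.Agent.P182.H533 Vale.Agent.P182.H96 Vale.Agent.P182.H96.Cf
  Vale.Agent.P182.H588.SP

section red

variable {L V J : Type*} [Field L] [AddCommGroup V] [Module L V]
  {c0 c1 : J}

theorem rd_mem (h : c0 ≠ c1) {D : Submodule L V} {z : J → V} (hz : ∀ l, z l ∈ D) (l : J) :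
    rd (L := L) c0 c1 z l ∈ D := by
  by_cases h0 : l = c0
  · subst h0; rw [rd_c0]; exact D.add_mem (hz _) (hz _)
  · by_cases h1 : l = c1
    · subst h1; rw [rd_c1 h]; exact D.zero_mem
    · rw [rd_ne h0 h1]; exact hz l

theorem rd_kap (h : c0 ≠ c1) (v : V) (l : J) :
    rd (L := L) c0 c1 (kap (L := L) c0 c1 v) l = 0 := by
  by_cases h0 : l = c0
  · subst h0; rw [rd_c0, kap_c0 h, kap_c1 h, add_neg_cancel]
  · by_cases h1 : l = c1
    · subst h1; rw [rd_c1 h]
    · rw [rd_ne h0 h1, kap_ne h0 h1]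

/-- bilinear functions which are skew are skew on the reduced families -/
theorem rd_skew (h : c0 ≠ c1) {q : V →ₗ[L] V →ₗ[L] L} {z x : J → V}
    (hs : ∀ l k, q (z l) (x k) = - q (z k) (x l)) (l k : J) :
    q (rd (L := L) c0 c1 z l) (rd (L := L) c0 c1 x k) =
      - q (rd (L := L) c0 c1 z k) (rd (L := L) c0 c1 x l) := by
  have key : ∀ l, ∀ k', q (rd (L := L) c0 c1 z l) (x k') =
      - q (z k') (rd (L := L) c0 c1 x l) := by
    intro l k'
    by_cases h0 : l = c0
    · subst h0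
      rw [rd_c0, rd_c0, map_add, map_add, LinearMap.add_apply, hs l, hs c1, neg_add]
    · by_cases h1 : l = c1
      · subst h1; rw [rd_c1 h, rd_c1 h, map_zero, map_zero, LinearMap.zero_apply, neg_zero]
      · rw [rd_ne h0 h1, rd_ne h0 h1, hs]
  by_cases h0 : k = c0
  · subst h0
    rw [rd_c0, map_add, key, key, rd_c0, map_add, LinearMap.add_apply]
    ring
  · by_cases h1 : k = c1
    · subst h1; rw [rd_c1 h, rd_c1 h, map_zero, map_zero, LinearMap.zero_apply, neg_zero]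
    · rw [rd_ne h0 h1, key, rd_ne h0 h1]

open Classical in
/-- the identification of the two special columns -/
noncomputable def ro (c0 c1 l : J) : J := if l = c1 then c0 else l

theorem ro_c1 : ro c0 c1 c1 = c0 := if_pos rfl

theorem ro_ne {l : J} (h : l ≠ c1) : ro c0 c1 l = l := if_neg h

variable [Fintype J]

theorem sum_ro (h : c0 ≠ c1) {W : Type*} [AddCommGroup W] [Module L W] (G : J → V →ₗ[L] W)
    (z : J → V) : ∑ l, G (ro c0 c1 l) (z l) = ∑ l, G l (rd (L := L) c0 c1 z l) := by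
  classical
  rw [← Finset.add_sum_erase _ _ (Finset.mem_univ c0),
    ← Finset.add_sum_erase _ _ (Finset.mem_erase.mpr ⟨h.symm, Finset.mem_univ c1⟩),
    ← Finset.add_sum_erase (a := c0) Finset.univ (fun l => G l (rd (L := L) c0 c1 z l))
      (Finset.mem_univ c0),
    ← Finset.add_sum_erase (a := c1) _ (fun l => G l (rd (L := L) c0 c1 z l))
      (Finset.mem_erase.mpr ⟨h.symm, Finset.mem_univ c1⟩),
    ro_ne h, ro_c1, rd_c0, rd_c1 h, map_zero, zero_add, map_add, add_assoc]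
  congr 2
  refine Finset.sum_congr rfl fun l hl => ?_
  have h3 := Finset.ne_of_mem_erase hl
  have h4 := Finset.ne_of_mem_erase (Finset.mem_of_mem_erase hl)
  rw [ro_ne h3, rd_ne h4 h3]

/-- symmetry of the reduced function from the special skew matrices -/
theorem sym_of_skew_s [DecidableEq J] (h : c0 ≠ c1) {q : V →ₗ[L] V →ₗ[L] L} {z x : J → V}
    (hs : ∀ η : J → J → L, (∀ i j, η i j = - η j i) → (∀ l, η c0 l = η c1 l) →
      ∑ i, ∑ j, η i j * q (z i) (x j) = 0) (l k : J) :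
    q (rd (L := L) c0 c1 z l) (rd (L := L) c0 c1 x k) =
      q (rd (L := L) c0 c1 z k) (rd (L := L) c0 c1 x l) := by
  apply sym_of_skew (g := fun l k => q (rd (L := L) c0 c1 z l) (rd (L := L) c0 c1 x k))
  intro η hη
  have h1 := hs (fun l k => η (ro c0 c1 l) (ro c0 c1 k)) (fun _ _ => hη _ _) (fun l => by
    show η (ro c0 c1 c0) _ = η (ro c0 c1 c1) _
    rw [ro_ne h, ro_c1])
  have h2 : ∀ i, ∑ j, η (ro c0 c1 i) (ro c0 c1 j) * q (z i) (x j) =
      (∑ j, η (ro c0 c1 i) j • q.flip (rd (L := L) c0 c1 x j)) (z i) := by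
    intro i
    have h3 := sum_ro h (fun j => η (ro c0 c1 i) j • q (z i)) x
    simp only [LinearMap.smul_apply, smul_eq_mul] at h3
    rw [h3, LinearMap.sum_apply]
    rfl
  simp only [h2] at h1
  have h4 := sum_ro h (fun i => ∑ j, η i j • q.flip (rd (L := L) c0 c1 x j)) z
  rw [h4] at h1
  rw [← h1]
  refine Finset.sum_congr rfl fun i _ => ?_
  rw [LinearMap.sum_apply]
  rfl

end red

section count

variable {L V J : Type*} [Field L] [AddCommGroup V] [Module L V] [Fintype J]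
  {a : Cf L V J (Fin 3)} {c0 c1 : J} [DecidableEq J] [FiniteDimensional L V]

omit [FiniteDimensional L V] in
/-- the reduced function of an element of `K + E R + T` is skew -/
theorem skew_of_F4 (hs : Spc a c0 c1) (h : a.Good) (h2 : (2 : L) ≠ 0)
    (hH : ∀ x ∈ Ks a c0 c1, ∀ y ∈ Ks a c0 c1, ∀ l k, a.q (x l) (y k) = 0) {x : J → V}
    (hx : x ∈ Ks a c0 c1) {R : Submodule L V} (hxR : ∀ l, x l ∈ R) (hR : R ≤ pp a.q R)
    {w : J → V} (hw : w ∈ a.K ⊔ a.E R ⊔ a.TT R x) (l k : J) :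
    a.q (rd (L := L) c0 c1 w l) (rd (L := L) c0 c1 x k) =
      - a.q (rd (L := L) c0 c1 w k) (rd (L := L) c0 c1 x l) := by
  have hU := Us_iso hH
  have hxU : ∀ k, rd (L := L) c0 c1 x k ∈ UUs a c0 c1 := rd_mem hs.ne fun l => mem_UUs hx l
  obtain ⟨w1, hw1, w2, ⟨b, hb, hb'⟩, rfl⟩ := Submodule.mem_sup.mp hw
  obtain ⟨t, ht, e, he, rfl⟩ := Submodule.mem_sup.mp hw1
  obtain ⟨s, hs', v, h0, h1, rfl⟩ := K_decomp hs h h2 ht
  have e1 : ∀ l k, a.q (rd (L := L) c0 c1 s l) (rd (L := L) c0 c1 x k) = 0 := fun l k =>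
    hU (hxU k) _ (rd_mem hs.ne (fun l => mem_UUs hs' l) l)
  have e2 : ∀ l k, a.q (rd (L := L) c0 c1 e l) (rd (L := L) c0 c1 x k) = 0 := fun l k =>
    hR (rd_mem hs.ne hxR k) _ (rd_mem hs.ne (fun l => (mem_E.mp he l).2) l)
  have e3 := rd_skew (c0 := c0) (c1 := c1) hs.ne (q := a.q) (z := w2) (x := x) (fun l k => by
    rw [hb', hb', hb.sk, neg_inj, h.form.symm (b (a.arm k) (x k))]
    have h3 := hR (hb.comp (a.arm l) (a.arm k) (x k) (hxR k)) (x l) (hxR l)
    rw [map_sub, sub_eq_zero] at h3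
    exact h3)
  simp only [map_add, Pi.add_apply, LinearMap.add_apply, rd_kap hs.ne, e1, e2, zero_add,
    add_zero]
  exact e3 l k

/-- **(5b).** -/
theorem five_b_s (hs : Spc a c0 c1) (h : a.Good) (h2 : (2 : L) ≠ 0) (hV : SVers a c0 c1)
    (hN : N1s a c0 c1) (hH : ∀ x ∈ Ks a c0 c1, ∀ y ∈ Ks a c0 c1, ∀ l k, a.q (x l) (y k) = 0) {x : J → V}
    (hx : x ∈ Ks a c0 c1) {S : Submodule L V}
    (D : DatS a c0 c1 (Submodule.span L (Set.range x)) S) (hKS : Ks a c0 c1 ≤ a.E S)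
    {v : J → V} (hv : v ∈ a.perp (Esh a c0 c1 (pp a.q (UUs a c0 c1)))) :
    ∃ c : Conn a.q, a.IsX c ∧ ∀ l, ∀ u ∈ UUs a c0 c1, a.q (rd (L := L) c0 c1 v l) u =
      a.q (rd (L := L) c0 c1 (fun l => c.δ (x l)) l) u := by
  have hne := hs.ne
  have hU := Us_iso hH
  have hR := D.isoR
  set R := Submodule.span L (Set.range x) with hRx
  have hxR : ∀ l, x l ∈ R := fun l => Submodule.subset_span ⟨l, rfl⟩
  have hRS := D.le
  have hS := D.iso
  have hKR : a.K ≤ Esh a c0 c1 (pp a.q R) := K_le_Esh hs h h2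
    (hKS.trans ((E_mono (hS.trans (pp_anti hRS))).trans (E_le_Esh _)))
  have h6 := ds_h6 hs h h2 D hKR
  have hUS : UUs a c0 c1 ≤ S := UUs_le hKS
  set A := Esh a c0 c1 (pp a.q (UUs a c0 c1)) with hA
  set Q := a.perp A with hQ
  have hAE : A ≤ a.E ⊤ := Esh_le _
  have hKA : a.K ≤ A := K_le_Esh hs h h2 fun t ht =>
    E_le_Esh _ (mem_E.mpr fun l => ⟨(mem_K'.mp (Ks_le ht)).1 l, hU (mem_UUs ht l)⟩)
  have hadd : ∀ (c c' : Conn a.q) (b : L) (l : J),
      rd (L := L) c0 c1 (fun l => (comb c c' b).δ (x l)) l =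
      rd (L := L) c0 c1 (fun l => c.δ (x l)) l - b • rd (L := L) c0 c1 (fun l => c'.δ (x l)) l := by
    intro c c' b l
    have e1 : (fun l => (comb c c' b).δ (x l)) =
        (fun l => c.δ (x l)) - b • fun l => c'.δ (x l) := rfl
    rw [e1, map_sub, map_smul]
    rfl
  have hz0 : ∀ l, rd (L := L) c0 c1 (fun l => (zeroConn a.q).δ (x l)) l = 0 := by
    intro l
    have e1 : (fun l => (zeroConn a.q).δ (x l)) = (0 : J → V) := rfl
    rw [e1, map_zero]
    rfl
  let W : Submodule L (J → V) :=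
    { carrier := {v | v ∈ Q ∧ ∃ c : Conn a.q, a.IsX c ∧
        ∀ l, ∀ u ∈ UUs a c0 c1, a.q (rd (L := L) c0 c1 v l) u =
          a.q (rd (L := L) c0 c1 (fun l => c.δ (x l)) l) u}
      add_mem' := by
        rintro v w ⟨hv, c, hc, hvc⟩ ⟨hw, c', hc', hwc⟩
        refine ⟨Q.add_mem hv hw, comb c c' (-1), hc.comb hc' _, fun l u hu => ?_⟩
        rw [map_add, Pi.add_apply, map_add, LinearMap.add_apply, hvc l u hu, hwc l u hu, hadd,
          map_sub, map_smul, LinearMap.sub_apply, LinearMap.smul_apply, smul_eq_mul]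
        ring
      zero_mem' := ⟨Q.zero_mem, zeroConn a.q, fun s i _ _ => (a.F s i).zero_mem, fun l u _ => by
        rw [hz0, map_zero, Pi.zero_apply, map_zero]⟩
      smul_mem' := by
        rintro b v ⟨hv, c, hc, hvc⟩
        refine ⟨Q.smul_mem b hv, comb (zeroConn a.q) c (-b),
          IsX.comb (fun s i _ _ => (a.F s i).zero_mem) hc _, fun l u hu => ?_⟩
        rw [map_smul, Pi.smul_apply, map_smul, LinearMap.smul_apply, hvc l u hu, hadd, hz0,
          zero_sub, map_neg, map_smul, LinearMap.neg_apply, LinearMap.smul_apply, smul_eq_mul,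
          smul_eq_mul]
        ring }
  have hWQ : W ≤ Q := fun v hv => hv.1
  have hQ0 : Q ⊓ A ≤ W := by
    rintro v ⟨h3, h4⟩
    refine ⟨h3, zeroConn a.q, fun s i _ _ => (a.F s i).zero_mem, fun l u hu => ?_⟩
    rw [hz0, map_zero, LinearMap.zero_apply, h.form.symm]
    exact ((mem_Esh' hne).mp h4).2 l u hu
  have hKQ : a.K ≤ Q := K_le_perp _ hAE
  have hKW : a.K ≤ W := (le_inf hKQ hKA).trans hQ0
  have hQE : Q ≤ a.E ⊤ := po_le _
  have hWE : W ≤ a.E ⊤ := hWQ.trans hQE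
  have hWW : a.perp (a.perp W) = W := by
    have := po_po (M := a.M) (E := a.E ⊤) h.M_skew hWE
    rw [Cf.perp, Cf.perp, this]
    exact sup_eq_left.mpr hKW
  have hQQ : a.perp Q = A := by
    have := po_po (M := a.M) (E := a.E ⊤) h.M_skew hAE
    rw [hQ, Cf.perp, Cf.perp, this]
    exact sup_eq_left.mpr hKA
  have hperpQ0 : a.perp (Q ⊓ A) = A ⊔ Q := by
    have e1 : Q ⊓ A = a.perp (A ⊔ Q) := by
      have e3 : a.perp (A ⊔ Q) = a.perp A ⊓ a.perp Q := po_sup _ _
      rw [e3, hQQ]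
    have e2 := po_po (M := a.M) (E := a.E ⊤) h.M_skew (sup_le hAE hQE)
    have e4 : a.perp (a.perp (A ⊔ Q)) = A ⊔ Q ⊔ a.K := e2
    rw [e1, e4]
    exact sup_eq_left.mpr (hKA.trans le_sup_left)
  have hmain : a.perp W ≤ A := by
    intro z hz
    have hz1 : z ∈ A ⊔ Q := by
      rw [← hperpQ0]
      exact po_anti hQ0 hz
    obtain ⟨e, he, z', hz', rfl⟩ := Submodule.mem_sup.mp hz1
    refine A.add_mem he ?_
    -- `z'` is orthogonal to `W`
    have hz'W : ∀ w ∈ W, a.M w z' = 0 := by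
      intro w hw
      have e1 := (mem_perp.mp hz).2 w hw
      have e2 : a.M w e = 0 := by
        rw [h.M_skew, (mem_perp.mp (hWQ hw)).2 e he, neg_zero]
      rwa [map_add, e2, zero_add] at e1
    have hz'C := (mem_perp.mp hz').1
    have hsym : ∀ l k, a.q (rd (L := L) c0 c1 z' l) (rd (L := L) c0 c1 x k) =
        a.q (rd (L := L) c0 c1 z' k) (rd (L := L) c0 c1 x l) := by
      apply sym_of_skew_s hne
      intro η hη hη'
      obtain ⟨c, hc1, hc2⟩ := hV (fun _ => 0) (fun s u v => by simp) η hη hη'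
      have hc : a.IsX c := fun s i v hv => by simpa using hc1 s i v hv
      have e1 := h.M_derX hc hx.1 hz'C
      have e2 := hz'W (fun l => c.δ (x l)) ⟨der_perp_s hs h h2 hc hx, c, hc, fun l u _ => rfl⟩
      rw [h.M_skew, e2, neg_zero] at e1
      rw [← neg_eq_zero, e1]
      simp only [hc2]
    have hskew : ∀ l k, a.q (rd (L := L) c0 c1 z' l) (rd (L := L) c0 c1 x k) =
        - a.q (rd (L := L) c0 c1 z' k) (rd (L := L) c0 c1 x l) := by
      have e1 : z' ∈ a.E S ⊔ a.perp (Esh a c0 c1 (pp a.q R)) := by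
        rw [← h6]
        exact po_anti (Esh_mono (pp_anti hUS)) hz'
      obtain ⟨p, hp, r, hr, rfl⟩ := Submodule.mem_sup.mp e1
      intro l k
      have e2 : ∀ l k, a.q (rd (L := L) c0 c1 p l) (rd (L := L) c0 c1 x k) = 0 := fun l k =>
        hS (hRS (rd_mem hne hxR k)) _ (rd_mem hne (fun l => (mem_E.mp hp l).2) l)
      rw [map_add, Pi.add_apply, Pi.add_apply, map_add, map_add, LinearMap.add_apply,
        LinearMap.add_apply, e2, e2, zero_add, zero_add]
      exact skew_of_F4 hs h h2 hH hx hxR hR (F4_s hs h h2 hV hN hx hRx hR hr) l k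
    have hzero : ∀ l k, a.q (rd (L := L) c0 c1 z' l) (rd (L := L) c0 c1 x k) = 0 := by
      intro l k
      have e1 := hsym l k
      rw [hskew k l] at e1
      have e2 : (2 : L) * a.q (rd (L := L) c0 c1 z' l) (rd (L := L) c0 c1 x k) = 0 := by
        linear_combination e1
      exact (mul_eq_zero.mp e2).resolve_left h2
    have hzero' : ∀ l k, a.q (rd (L := L) c0 c1 z' l) (x k) = 0 := by
      intro l
      have e1 := mem_of_rd hs h h2
        (D := LinearMap.ker (a.q (rd (L := L) c0 c1 z' l))) (z := x) (fun k => hzero l k)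
        (by rw [(mem_Ks.mp hx).2]; exact Submodule.zero_mem _)
      exact e1
    have hz'R : z' ∈ Esh a c0 c1 (pp a.q R) := by
      refine (mem_Esh' hne).mpr ⟨hz'C, fun l r hr => ?_⟩
      rw [hRx] at hr
      induction hr using Submodule.span_induction with
      | mem r hr =>
        obtain ⟨k, rfl⟩ := hr
        rw [h.form.symm]
        exact hzero' l k
      | zero => rw [map_zero, LinearMap.zero_apply]
      | add u w _ _ hu hw => rw [map_add, LinearMap.add_apply, hu, hw, add_zero]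
      | smul c u _ hu => rw [map_smul, LinearMap.smul_apply, hu, smul_zero]
    exact Esh_mono (pp_anti hUS) (ds_star hs h h2 D hKS hz'R hz')
  have hQW : Q ≤ W := by
    rw [← hWW]
    have e2 : a.perp A ≤ a.perp (a.perp W) := po_anti hmain
    exact e2
  exact (hQW hv).2

/-- the count: `Hom(N, V/S) → Hom(N, S^*)` is zero -/
theorem perp_le_s [IsAlgClosed L] (hs : Spc a c0 c1) (h : a.Good) (h2 : (2 : L) ≠ 0)
    (hV : SVers a c0 c1) (hN : N1s a c0 c1) (hK : finrank L (Ks a c0 c1) = 2)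
    (hH : ∀ x ∈ Ks a c0 c1, ∀ y ∈ Ks a c0 c1, ∀ l k, a.q (x l) (y k) = 0)
    (hFA : ∀ t ∈ Ks a c0 c1, t ≠ 0 → FAs a c0 c1 t) {x : J → V} (hx : x ∈ Ks a c0 c1)
    (hx0 : x ≠ 0) {S : Submodule L V}
    (D : DatS a c0 c1 (Submodule.span L (Set.range x)) S) (hKS : Ks a c0 c1 ≤ a.E S) :
    a.perp (Esh a c0 c1 (pp a.q S)) ≤ Esh a c0 c1 (pp a.q S) := by
  have hne := hs.ne
  have hU := Us_iso hH
  have hKR : a.K ≤ Esh a c0 c1 (pp a.q (Submodule.span L (Set.range x))) := K_le_Esh hs h h2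
    (hKS.trans ((E_mono (D.iso.trans (pp_anti D.le))).trans (E_le_Esh _)))
  have h6 := ds_h6 hs h h2 D hKR
  have hUS : UUs a c0 c1 ≤ S := UUs_le hKS
  have h5b' := fun v hv => five_b_s hs h h2 hV hN hH hx D hKS (v := v) hv
  have hstar := fun v hv1 hv2 => ds_star hs h h2 D hKS (v := v) hv1 hv2
  set R := Submodule.span L (Set.range x) with hRx
  have hRU : R ≤ UUs a c0 c1 := by
    rw [hRx, Submodule.span_le]
    rintro _ ⟨k, rfl⟩
    exact mem_UUs hx k
  obtain ⟨y, hy, hyx⟩ := exists_compl hK (x := x)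
  have hcoord := exists_coord hK hx hy hx0 hyx
  let g : Fin 2 → J → V := ![x, y]
  have hgK : ∀ i, g i ∈ Ks a c0 c1 := fun i => by
    fin_cases i
    · exact hx
    · exact hy
  have hgU : ∀ i k, g i k ∈ UUs a c0 c1 := fun i k => mem_UUs (hgK i) k
  have hgen : ∀ v : V, (∀ i k, a.q v (g i k) = 0) → ∀ u ∈ UUs a c0 c1, a.q v u = 0 := by
    intro v hv
    refine UUs_induction (a := a) (p := fun u => a.q v u = 0) (map_zero _)
      (fun _ _ h3 h4 => by rw [map_add, h3, h4, add_zero])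
      (fun _ _ h3 => by rw [map_smul, h3, smul_zero]) ?_
    intro t ht k
    obtain ⟨α, β, rfl⟩ := hcoord t ht
    have e1 : a.q v (x k) = 0 := hv 0 k
    have e2 : a.q v (y k) = 0 := hv 1 k
    rw [Pi.add_apply, Pi.smul_apply, Pi.smul_apply, map_add, map_smul, map_smul, e1, e2,
      smul_zero, smul_zero, add_zero]
  -- the reduced derivative
  let dr : Conn a.q → (J → V) → J → V := fun c t => rd (L := L) c0 c1 fun l => c.δ (t l)
  have hdr : ∀ c t, dr c t = rd (L := L) c0 c1 fun l => c.δ (t l) := fun _ _ => rfl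
  have hadd : ∀ (c c' : Conn a.q) (b : L) (t : J → V) (l : J),
      dr (comb c c' b) t l = dr c t l - b • dr c' t l := by
    intro c c' b t l
    have e1 : (fun l => (comb c c' b).δ (t l)) =
        (fun l => c.δ (t l)) - b • fun l => c'.δ (t l) := rfl
    rw [hdr, e1, map_sub, map_smul]
    rfl
  have hz0 : ∀ t l, dr (zeroConn a.q) t l = 0 := by
    intro t l
    have e1 : (fun l => (zeroConn a.q).δ (t l)) = (0 : J → V) := rfl
    rw [hdr, e1, map_zero]
    rfl
  -- the space of the forms `c`, as pairs of evaluations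
  let 𝒞 : Submodule L ((Fin 2 → J → J → L) × (Fin 2 → J → J → L)) :=
    { carrier := {p | ∃ c : Conn a.q, a.IsX c ∧
        (∀ i l k, p.1 i l k = a.q (dr c x l) (g i k)) ∧
        ∀ i l k, p.2 i l k = a.q (dr c y l) (g i k)}
      add_mem' := by
        rintro p p' ⟨c, hc, hp, hp2⟩ ⟨c', hc', hp', hp2'⟩
        refine ⟨comb c c' (-1), hc.comb hc' _, fun i l k => ?_, fun i l k => ?_⟩
        · rw [Prod.fst_add, Pi.add_apply, Pi.add_apply, Pi.add_apply, hp, hp', hadd, map_sub,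
            map_smul, LinearMap.sub_apply, LinearMap.smul_apply, smul_eq_mul]
          ring
        · rw [Prod.snd_add, Pi.add_apply, Pi.add_apply, Pi.add_apply, hp2, hp2', hadd, map_sub,
            map_smul, LinearMap.sub_apply, LinearMap.smul_apply, smul_eq_mul]
          ring
      zero_mem' := by
        refine ⟨zeroConn a.q, fun s i _ _ => (a.F s i).zero_mem, fun i l k => ?_,
          fun i l k => ?_⟩ <;>
        · rw [hz0, map_zero]; rfl
      smul_mem' := by
        rintro b p ⟨c, hc, hp, hp2⟩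
        refine ⟨comb (zeroConn a.q) c (-b),
          IsX.comb (fun s i _ _ => (a.F s i).zero_mem) hc _, fun i l k => ?_, fun i l k => ?_⟩
        · rw [Prod.smul_fst, Pi.smul_apply, Pi.smul_apply, Pi.smul_apply, hp, hadd, hz0,
            zero_sub, map_neg, map_smul, LinearMap.neg_apply, LinearMap.smul_apply, smul_eq_mul,
            smul_eq_mul]
          ring
        · rw [Prod.smul_snd, Pi.smul_apply, Pi.smul_apply, Pi.smul_apply, hp2, hadd, hz0,
            zero_sub, map_neg, map_smul, LinearMap.neg_apply, LinearMap.smul_apply, smul_eq_mul,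
            smul_eq_mul]
          ring }
  have hzero : ∀ t ∈ Ks a c0 c1, t ≠ 0 → ∀ (p : 𝒞) (c : Conn a.q), a.IsX c →
      (∀ i l k, p.1.1 i l k = a.q (dr c x l) (g i k)) →
      (∀ i l k, p.1.2 i l k = a.q (dr c y l) (g i k)) →
      (∀ l, ∀ u ∈ UUs a c0 c1, a.q (dr c t l) u = 0) → p = 0 := by
    intro t ht ht0 p c hc hp hp2 h8
    have h8' : ∀ l, c.δ (t l) ∈ pp a.q (UUs a c0 c1) := der_of_rd hs h h2 hU c ht
      fun l u hu => by rw [h.form.symm]; exact h8 l u hu
    have h9 := hFA t ht ht0 c hc fun l u hu => by rw [h.form.symm]; exact h8' l u hu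
    have h10 : ∀ w ∈ Ks a c0 c1, ∀ l, dr c w l ∈ pp a.q (UUs a c0 c1) := by
      intro w hw
      have e1 : ∀ l, c.δ (w l) ∈ pp a.q (UUs a c0 c1) := fun l u hu => by
        rw [h.form.symm]
        exact h9 _ (mem_UUs hw l) u hu
      exact rd_mem hne e1
    apply Subtype.ext
    apply Prod.ext
    · funext i l k
      rw [hp, h.form.symm]
      exact h10 x hx l _ (hgU i k)
    · funext i l k
      rw [hp2, h.form.symm]
      exact h10 y hy l _ (hgU i k)
  let φ : 𝒞 →ₗ[L] (Fin 2 → J → J → L) := LinearMap.fst L _ _ ∘ₗ 𝒞.subtype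
  let ψ : 𝒞 →ₗ[L] (Fin 2 → J → J → L) := LinearMap.snd L _ _ ∘ₗ 𝒞.subtype
  have hφ : ∀ p : 𝒞, φ p = p.1.1 := fun p => rfl
  have hψ : ∀ p : 𝒞, ψ p = p.1.2 := fun p => rfl
  have hφ_inj : ∀ p : 𝒞, φ p = 0 → p = 0 := by
    intro p h0
    obtain ⟨c, hc, hp, hp2⟩ := p.2
    refine hzero x hx hx0 p c hc hp hp2 fun l => hgen _ fun i k => ?_
    rw [← hp, ← hφ, h0]
    rfl
  let 𝒴 : Submodule L (Fin 2 → J → J → L) := LinearMap.range φ
  -- every member of `Q` is in the image at `x`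
  have h5b : ∀ v ∈ a.perp (Esh a c0 c1 (pp a.q (UUs a c0 c1))),
      (fun i l k => a.q (rd (L := L) c0 c1 v l) (g i k)) ∈ 𝒴 := by
    intro v hv
    obtain ⟨c, hc, hvc⟩ := h5b' v hv
    refine ⟨⟨(fun i l k => a.q (dr c x l) (g i k), fun i l k => a.q (dr c y l) (g i k)),
      c, hc, fun i l k => rfl, fun i l k => rfl⟩, ?_⟩
    funext i l k
    exact (hvc l _ (hgU i k)).symm
  have hrange : ∀ p : 𝒞, ψ p ∈ 𝒴 := by
    intro p
    obtain ⟨c, hc, hp, hp2⟩ := p.2
    have e1 := h5b _ (der_perp_s hs h h2 hc hy)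
    convert e1 using 1
    funext i l k
    exact hp2 i l k
  -- no form at all
  have hC : ∀ p : 𝒞, p = 0 := by
    by_contra hcon
    push Not at hcon
    obtain ⟨p0, hp0⟩ := hcon
    have : Nontrivial 𝒞 := ⟨⟨p0, 0, hp0⟩⟩
    let e : 𝒞 ≃ₗ[L] 𝒴 := LinearEquiv.ofInjective φ ((injective_iff_map_eq_zero φ).mpr hφ_inj)
    let T : Module.End L 𝒞 := e.symm.toLinearMap ∘ₗ ψ.codRestrict 𝒴 hrange
    obtain ⟨μ, hμ⟩ := Module.End.exists_eigenvalue T
    obtain ⟨p, hp⟩ := hμ.exists_hasEigenvector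
    have h8 : T p = μ • p := hp.apply_eq_smul
    have h9 : ψ p = μ • φ p := by
      have e1 : e (T p) = ψ.codRestrict 𝒴 hrange p := e.apply_symm_apply _
      rw [h8, map_smul] at e1
      have e2 := congrArg Subtype.val e1
      exact e2.symm
    apply hp.2
    obtain ⟨c, hc, hp1, hp2⟩ := p.2
    refine hzero (y - μ • x) (Submodule.sub_mem _ hy (Submodule.smul_mem _ μ hx))
      (fun h0 => hyx μ (sub_eq_zero.mp h0)) p c hc hp1 hp2 fun l => hgen _ fun i k => ?_
    have e3 : a.q (dr c y l) (g i k) = μ * a.q (dr c x l) (g i k) := by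
      rw [← hp1, ← hp2, ← hψ, h9]
      rfl
    have e4 : dr c (y - μ • x) = dr c y - (c.d μ • rd (L := L) c0 c1 x + μ • dr c x) := by
      rw [hdr, hdr, hdr, ← map_smul, ← map_smul, ← map_add, ← map_sub]
      congr 1
      funext l
      rw [Pi.sub_apply, Pi.smul_apply, map_sub, c.smul]
      rfl
    have e5 : a.q (rd (L := L) c0 c1 x l) (g i k) = 0 :=
      hU (hgU i k) _ (rd_mem hne (fun l => mem_UUs hx l) l)
    rw [e4, Pi.sub_apply, Pi.add_apply, Pi.smul_apply, Pi.smul_apply, map_sub, map_add, map_smul,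
      map_smul, LinearMap.sub_apply, LinearMap.add_apply, LinearMap.smul_apply,
      LinearMap.smul_apply, e5, smul_zero, zero_add, e3, smul_eq_mul, sub_self]
  -- hence `Q ≤ Esh (S^⊥)`
  have hQ : a.perp (Esh a c0 c1 (pp a.q (UUs a c0 c1))) ≤ Esh a c0 c1 (pp a.q S) := by
    intro v hv
    apply hstar v _ hv
    obtain ⟨β, hβ⟩ := h5b v hv
    rw [hC β, map_zero] at hβ
    refine (mem_Esh' hne).mpr ⟨(mem_perp.mp hv).1, fun l r hr => ?_⟩
    rw [h.form.symm]
    refine hgen (rd (L := L) c0 c1 v l) (fun i k => ?_) r (hRU hr)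
    have e1 := congrFun (congrFun (congrFun hβ i) l) k
    exact e1.symm
  rw [h6]
  exact sup_le ((E_mono D.iso).trans (E_le_Esh _))
    ((po_anti (Esh_mono (pp_anti hRU))).trans hQ)

end count

section dim

variable {L V J : Type*} [Field L] [AddCommGroup V] [Module L V]
  (a : Cf L V J (Fin 3)) (c0 c1 : J)

/-- the families `(v, -v)` at the two special columns -/
noncomputable def kapS : Submodule L (J → V) := (a.C c0 ⊓ a.C c1).map (kap (L := L) c0 c1)

/-- the numerical function of the special configurations -/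
noncomputable def thS [Fintype J] (S : Submodule L V) : ℤ :=
  a.θ S - (finrank L (S ⊓ a.C c0 : Submodule L V) + finrank L (S ⊓ a.C c1 : Submodule L V) -
    finrank L S)

variable {a c0 c1}

theorem kap_inj (h : c0 ≠ c1) : Function.Injective (kap (L := L) (V := V) c0 c1) := by
  intro v w hvw
  have := congrFun hvw c0
  rwa [kap_c0 h, kap_c0 h] at this

theorem finrank_map_kap (h : c0 ≠ c1) (A : Submodule L V) :
    finrank L (A.map (kap (L := L) c0 c1)) = finrank L A :=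
  (Submodule.equivMapOfInjective _ (kap_inj h) A).finrank_eq.symm

/-- the sum of the two special values -/
def sg (c0 c1 : J) : (J → V) →ₗ[L] V where
  toFun z := z c0 + z c1
  map_add' _ _ := add_add_add_comm _ _ _ _
  map_smul' b z := (smul_add b (z c0) (z c1)).symm

theorem sg_apply (z : J → V) : sg (L := L) c0 c1 z = z c0 + z c1 := rfl

variable [Fintype J] [FiniteDimensional L V]

theorem finrank_K_s [DecidableEq J] (hs : Spc a c0 c1) (h : a.Good) (h2 : (2 : L) ≠ 0) :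
    finrank L a.K = finrank L (Ks a c0 c1) + finrank L (a.C c0 ⊓ a.C c1 : Submodule L V) := by
  have h1 := Submodule.finrank_sup_add_finrank_inf_eq (Ks a c0 c1) (kapS a c0 c1)
  have h3 : Ks a c0 c1 ⊔ kapS a c0 c1 = a.K := by
    refine le_antisymm (sup_le Ks_le ?_) ?_
    · rintro _ ⟨v, ⟨h0, h1⟩, rfl⟩
      exact kap_mem_K hs h h2 h0 h1
    · intro t ht
      obtain ⟨s, hs', v, h0, h1, rfl⟩ := K_decomp hs h h2 ht
      exact Submodule.add_mem_sup hs' ⟨v, ⟨h0, h1⟩, rfl⟩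
  have h4 : Ks a c0 c1 ⊓ kapS a c0 c1 = ⊥ := by
    rw [eq_bot_iff]
    rintro _ ⟨h0, v, hv, rfl⟩
    have h5 := (mem_Ks.mp h0).2
    rw [UM_kap hs h, neg_smul, neg_eq_zero, smul_eq_zero] at h5
    rw [h5.resolve_left h2, map_zero]
    exact Submodule.zero_mem _
  rw [h3, h4, finrank_bot, add_zero] at h1
  rw [h1, kapS, finrank_map_kap hs.ne]

theorem finrank_E_kapS (hs : Spc a c0 c1) (S : Submodule L V) :
    finrank L (a.E S ⊔ kapS a c0 c1 : Submodule L (J → V)) +
      finrank L (a.C c0 ⊓ a.C c1 ⊓ S : Submodule L V) =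
      finrank L (a.E S) + finrank L (a.C c0 ⊓ a.C c1 : Submodule L V) := by
  have h1 := Submodule.finrank_sup_add_finrank_inf_eq (a.E S) (kapS a c0 c1)
  have h4 : a.E S ⊓ kapS a c0 c1 = (a.C c0 ⊓ a.C c1 ⊓ S).map (kap (L := L) c0 c1) := by
    ext t
    constructor
    · rintro ⟨h3, v, hv, rfl⟩
      refine ⟨v, ⟨hv, ?_⟩, rfl⟩
      have := (mem_E.mp h3 c0).2
      rwa [kap_c0 hs.ne] at this
    · rintro ⟨v, ⟨⟨h3, h4⟩, h5⟩, rfl⟩
      refine ⟨mem_E.mpr fun l => ⟨(kap_mem_Esh hs h3 h4 ⊤).1 l, ?_⟩, v, ⟨h3, h4⟩, rfl⟩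
      by_cases h0 : l = c0
      · subst h0; rw [kap_c0 hs.ne]; exact h5
      · by_cases h1 : l = c1
        · subst h1; rw [kap_c1 hs.ne]; exact neg_mem h5
        · rw [kap_ne h0 h1]; exact zero_mem _
  rw [h4, finrank_map_kap hs.ne, kapS, finrank_map_kap hs.ne] at h1
  exact h1

theorem finrank_Esh (hs : Spc a c0 c1) (D : Submodule L V) :
    finrank L (Esh a c0 c1 D) + finrank L (a.C c0 ⊓ D ⊔ a.C c1 ⊓ D : Submodule L V) +
      finrank L (a.C c0 ⊓ a.C c1 ⊓ D : Submodule L V) =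
    finrank L (a.E D) + finrank L ((a.C c0 ⊔ a.C c1) ⊓ D : Submodule L V) +
      finrank L (a.C c0 ⊓ a.C c1 : Submodule L V) := by
  classical
  have hne := hs.ne
  have h1 := finrank_map_ker (sg (L := L) c0 c1) (Esh a c0 c1 D)
  have h2 := finrank_map_ker (sg (L := L) c0 c1) (a.E D)
  have h3 : (Esh a c0 c1 D).map (sg (L := L) c0 c1) = (a.C c0 ⊔ a.C c1) ⊓ D := by
    ext v
    constructor
    · rintro ⟨z, hz, rfl⟩
      rw [sg_apply]
      exact ⟨Submodule.add_mem_sup (hz.1 c0) (hz.1 c1), hz.2.2⟩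
    · rintro ⟨hv, hvD⟩
      obtain ⟨u, hu, w, hw, rfl⟩ := Submodule.mem_sup.mp hv
      have e0 : (Pi.single c0 u + Pi.single c1 w : J → V) c0 = u := by
        rw [Pi.add_apply, Pi.single_eq_same, Pi.single_eq_of_ne hne, add_zero]
      have e1 : (Pi.single c0 u + Pi.single c1 w : J → V) c1 = w := by
        rw [Pi.add_apply, Pi.single_eq_same, Pi.single_eq_of_ne hne.symm, zero_add]
      have en : ∀ l, l ≠ c0 → l ≠ c1 → (Pi.single c0 u + Pi.single c1 w : J → V) l = 0 := by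
        intro l h0 h1
        rw [Pi.add_apply, Pi.single_eq_of_ne h0, Pi.single_eq_of_ne h1, add_zero]
      refine ⟨Pi.single c0 u + Pi.single c1 w, ⟨fun l => ?_, fun l h0 h1 => ?_, ?_⟩, ?_⟩
      · by_cases h0 : l = c0
        · subst h0; rw [e0]; exact hu
        · by_cases h1 : l = c1
          · subst h1; rw [e1]; exact hw
          · rw [en l h0 h1]; exact zero_mem _
      · rw [en l h0 h1]; exact zero_mem _
      · rw [e0, e1]; exact hvD
      · rw [sg_apply, e0, e1]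
  have h4 : (a.E D).map (sg (L := L) c0 c1) = a.C c0 ⊓ D ⊔ a.C c1 ⊓ D := by
    ext v
    constructor
    · rintro ⟨z, hz, rfl⟩
      rw [sg_apply]
      exact Submodule.add_mem_sup (S := a.C c0 ⊓ D) (T := a.C c1 ⊓ D) (mem_E.mp hz c0)
        (mem_E.mp hz c1)
    · intro hv
      obtain ⟨u, hu, w, hw, rfl⟩ := Submodule.mem_sup.mp hv
      have e0 : (Pi.single c0 u + Pi.single c1 w : J → V) c0 = u := by
        rw [Pi.add_apply, Pi.single_eq_same, Pi.single_eq_of_ne hne, add_zero]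
      have e1 : (Pi.single c0 u + Pi.single c1 w : J → V) c1 = w := by
        rw [Pi.add_apply, Pi.single_eq_same, Pi.single_eq_of_ne hne.symm, zero_add]
      have en : ∀ l, l ≠ c0 → l ≠ c1 → (Pi.single c0 u + Pi.single c1 w : J → V) l = 0 := by
        intro l h0 h1
        rw [Pi.add_apply, Pi.single_eq_of_ne h0, Pi.single_eq_of_ne h1, add_zero]
      refine ⟨Pi.single c0 u + Pi.single c1 w, mem_E.mpr fun l => ?_, ?_⟩
      · by_cases h0 : l = c0
        · subst h0; rw [e0]; exact hu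
        · by_cases h1 : l = c1
          · subst h1; rw [e1]; exact hw
          · rw [en l h0 h1]; exact ⟨zero_mem _, zero_mem _⟩
      · rw [sg_apply, e0, e1]
  have h5 := Submodule.finrank_sup_add_finrank_inf_eq (a.E D ⊓ LinearMap.ker (sg (L := L) c0 c1))
    (kapS a c0 c1)
  have h6 : a.E D ⊓ LinearMap.ker (sg (L := L) c0 c1) ⊔ kapS a c0 c1 =
      Esh a c0 c1 D ⊓ LinearMap.ker (sg (L := L) c0 c1) := by
    refine le_antisymm (sup_le (inf_le_inf_right _ (E_le_Esh D)) ?_) ?_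
    · rintro _ ⟨v, ⟨h0, h1⟩, rfl⟩
      refine ⟨kap_mem_Esh hs h0 h1 D, ?_⟩
      rw [SetLike.mem_coe, LinearMap.mem_ker, sg_apply, kap_c0 hne, kap_c1 hne, add_neg_cancel]
    · rintro z ⟨hz, hz'⟩
      rw [SetLike.mem_coe, LinearMap.mem_ker, sg_apply] at hz'
      have e1 : z c0 ∈ a.C c1 := by
        rw [eq_neg_of_add_eq_zero_left hz']
        exact neg_mem (hz.1 c1)
      have e2 : z = (z - kap (L := L) c0 c1 (z c0)) + kap (L := L) c0 c1 (z c0) := by
        rw [sub_add_cancel]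
      have e3 : (z - kap (L := L) c0 c1 (z c0)) c0 = 0 := by
        rw [Pi.sub_apply, kap_c0 hne, sub_self]
      have e4 : (z - kap (L := L) c0 c1 (z c0)) c1 = 0 := by
        rw [Pi.sub_apply, kap_c1 hne, sub_neg_eq_add, add_comm]
        exact hz'
      rw [e2]
      refine Submodule.add_mem_sup ⟨mem_E.mpr fun l => ?_, ?_⟩ ⟨_, ⟨hz.1 c0, e1⟩, rfl⟩
      · by_cases h0 : l = c0
        · subst h0; rw [e3]; exact ⟨zero_mem _, zero_mem _⟩
        · by_cases h1 : l = c1
          · subst h1; rw [e4]; exact ⟨zero_mem _, zero_mem _⟩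
          · rw [Pi.sub_apply, kap_ne h0 h1, sub_zero]
            exact ⟨hz.1 l, hz.2.1 l h0 h1⟩
      · rw [SetLike.mem_coe, LinearMap.mem_ker, sg_apply, e3, e4, add_zero]
  have h7 : a.E D ⊓ LinearMap.ker (sg (L := L) c0 c1) ⊓ kapS a c0 c1 =
      (a.C c0 ⊓ a.C c1 ⊓ D).map (kap (L := L) c0 c1) := by
    ext t
    constructor
    · rintro ⟨⟨g3, -⟩, v, hv, rfl⟩
      refine ⟨v, ⟨hv, ?_⟩, rfl⟩
      have := (mem_E.mp g3 c0).2
      rwa [kap_c0 hs.ne] at this
    · rintro ⟨v, ⟨⟨g3, g4⟩, g5⟩, rfl⟩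
      refine ⟨⟨mem_E.mpr fun l => ⟨(kap_mem_Esh hs g3 g4 ⊤).1 l, ?_⟩, ?_⟩, v, ⟨g3, g4⟩, rfl⟩
      · by_cases h0 : l = c0
        · subst h0; rw [kap_c0 hne]; exact g5
        · by_cases h1 : l = c1
          · subst h1; rw [kap_c1 hne]; exact neg_mem g5
          · rw [kap_ne h0 h1]; exact zero_mem _
      · rw [SetLike.mem_coe, LinearMap.mem_ker, sg_apply, kap_c0 hne, kap_c1 hne, add_neg_cancel]
  rw [h6, h7, finrank_map_kap hne, kapS, finrank_map_kap hne] at h5
  rw [h3] at h1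
  rw [h4] at h2
  omega

theorem thS_eq (hs : Spc a c0 c1) (h : a.Good) (S : Submodule L V) :
    thS a c0 c1 S = (finrank L (a.E S ⊔ kapS a c0 c1 : Submodule L (J → V)) : ℤ) +
      finrank L (Esh a c0 c1 (pp a.q S)) - finrank L (a.E ⊤) -
      finrank L (a.C c0 ⊓ a.C c1 : Submodule L V) := by
  have l0 : perp a.q (a.C c0) = a.C c0 := by rw [← pp_eq h.form]; exact hs.lag0
  have l1 : perp a.q (a.C c1) = a.C c1 := by rw [← pp_eq h.form]; exact hs.lag1
  have f1 := finrank_Esh hs (pp a.q S)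
  have f2 := Submodule.finrank_sup_add_finrank_inf_eq (a.C c0 ⊓ pp a.q S) (a.C c1 ⊓ pp a.q S)
  rw [← inf_inf_distrib_right] at f2
  have f3 := H887.finrank_inf_perp h.form S (a.C c0)
  rw [l0, ← pp_eq h.form] at f3
  have f4 := H887.finrank_inf_perp h.form S (a.C c1)
  rw [l1, ← pp_eq h.form] at f4
  have f5 := H887.finrank_inf_perp h.form S (a.C c0 ⊓ a.C c1)
  rw [H887.perp_inf h.form, l0, l1, ← pp_eq h.form] at f5
  have f6 := H887.finrank_perp h.form (a.C c0)
  have f7 := H887.finrank_perp h.form (a.C c1)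
  rw [l0] at f6
  rw [l1] at f7
  have f8 := finrank_E_kapS hs S
  rw [thS, a.θ_eq, inf_comm S (a.C c0), inf_comm S (a.C c1)]
  omega

/-- **The count.** -/
theorem theta_ge_s [DecidableEq J] [IsAlgClosed L] (hs : Spc a c0 c1) (h : a.Good)
    (h2 : (2 : L) ≠ 0) (hV : SVers a c0 c1) (hN : N1s a c0 c1)
    (hK : finrank L (Ks a c0 c1) = 2)
    (hH : ∀ x ∈ Ks a c0 c1, ∀ y ∈ Ks a c0 c1, ∀ l k, a.q (x l) (y k) = 0)
    (hFA : ∀ t ∈ Ks a c0 c1, t ≠ 0 → FAs a c0 c1 t) {x : J → V} (hx : x ∈ Ks a c0 c1)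
    (hx0 : x ≠ 0) {S : Submodule L V}
    (D : DatS a c0 c1 (Submodule.span L (Set.range x)) S) (hKS : Ks a c0 c1 ≤ a.E S) {m : ℕ}
    (hM : finrank L (Esh a c0 c1 (pp a.q S) ⊓ a.perp (Esh a c0 c1 (pp a.q S)) :
      Submodule L (J → V)) ≤ m + finrank L (a.E S ⊔ kapS a c0 c1 : Submodule L (J → V))) :
    2 ≤ m + thS a c0 c1 S := by
  have h1 := perp_le_s hs h h2 hV hN hK hH hFA hx hx0 D hKS
  rw [inf_eq_right.mpr h1] at hM
  have h9 := finrank_po (M := a.M) (E := a.E ⊤) h.M_skew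
    (Esh_le (a := a) (c0 := c0) (c1 := c1) (pp a.q S))
  have h10 : Esh a c0 c1 (pp a.q S) ⊓ po a.M (a.E ⊤) (a.E ⊤) = a.K :=
    inf_eq_right.mpr (K_le_Esh hs h h2 (hKS.trans ((E_mono D.iso).trans (E_le_Esh _))))
  have h11 : po a.M (a.E ⊤) (Esh a c0 c1 (pp a.q S)) = a.perp (Esh a c0 c1 (pp a.q S)) := rfl
  rw [h10, h11, finrank_K_s hs h h2, hK] at h9
  rw [thS_eq hs h]
  omega

end dim

end Vale.Agent.P182.H388.S
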