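import Vale.Agent.P182.H388.PF
import Vale.Agent.P182.H430.CBun
import Vale.Agent.P182.H735.Input

/-!
# Extensions of constant flagged bundles
-/

namespace Vale.Agent.P182.H388

open LinearMap Submodule Module Polynomial TensorProduct Vale.Agent.P182 Vale.Agent.P182.H430
  Vale.Agent.P182.H735

variable {k : Type*} [Field k] {J : Type*} [Fintype J] [DecidableEq J] (X : NData k J)
variable {F : Type*} [Field F] [Algebra k[X] F] [IsFractionRing k[X] F]
  [Algebra k F] [IsScalarTower k k[X] F] [IsAlgClosed k]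
variable {M S : Type*} [AddCommGroup M] [Module k M] [FiniteDimensional k M] [AddCommGroup S]
  [Module k S] [FiniteDimensional k S]
variable (𝓜 : CFl (X.cur F) X.w0 M) (𝓢 : CFl (X.cur F) X.w0 S)
  {hw hw' : {p | X.w0 p ≠ 0}.Finite}

omit [IsAlgClosed k] in
theorem w0_fin : {p | X.w0 p ≠ 0}.Finite := by
  refine X.marked_finite.subset ?_
  intro p hp
  by_contra h
  exact hp (if_neg h)

/-- **twisted morphisms of constant bundles have simple poles** -/
theorem exists_res {f : (F ⊗[k] M) →ₗ[F] (F ⊗[k] S)}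
    (hf : KMor X.kap (𝓜.bun hw) (𝓢.bun hw') f) :
    ∃ g : Fin 3 → (M →ₗ[k] S),
      (∀ v, f ((1 : F) ⊗ₜ[k] v) = ∑ s, (X.lin F s)⁻¹ ⊗ₜ[k] (g s v)) ∧
      ∑ s, g s = 0 ∧
      ∀ s a v, v ∈ 𝓜.G (some (X.z s)) a → g s v ∈ 𝓢.G (some (X.z s)) (a + 1) := by
  classical
  let e := finBasis k S
  let m := finBasis k M
  have htop : ∀ p (v : M), (1 : F) ⊗ₜ[k] v ∈ ((𝓜.bun hw).ch p).L (X.w0 p) := by
    intro p v
    rw [𝓜.one_mem, 𝓜.top p _ le_rfl]
    exact Submodule.mem_top
  -- step 1: partial fractions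
  have hreg : ∀ (v : M) i, ∃ r : Fin 3 → k,
      (e.baseChange F).repr (f ((1 : F) ⊗ₜ[k] v)) i =
        ∑ s, algebraMap k F (r s) * (X.lin F s)⁻¹ ∧ ∑ s, r s = 0 := by
    intro v i
    refine exists_pf X ?_ ?_ ?_
    · intro a ha
      have h := hf (some a) (X.w0 (some a)) _ (htop _ v)
      rw [X.kap_unmarked ha, sub_zero] at h
      exact 𝓢.coord_reg h e i
    · have h := hf none (X.w0 none) _ (htop _ v)
      have hp1 : (X.cur F).per none = 1 := X.per_unmarked X.not_marked_none
      have h2 := (𝓢.split (hw := hw') (𝓢.adapted_unmarked hp1 X.w0_none e) _ _).1 h i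
      rw [X.kap_none, X.w0_none, hp1] at h2
      exact Place.M_anti _ (by simp) h2
    · intro s
      have h := hf (some (X.z s)) (X.w0 (some (X.z s))) _ (htop _ v)
      have h3 : X.lin F s • f ((1 : F) ⊗ₜ[k] v) ∈
          ((𝓢.bun hw').ch (some (X.z s))).L (X.w0 (some (X.z s))) := by
        rw [LChain.smul_iff _ _ (X.lin_ne F s)]
        refine LChain.anti _ _ _ ?_ h
        have h4 : ((X.cur F).pl (some (X.z s))).ord (X.lin F s) = 1 := X.ord_lin_self F s
        have h5 : ((X.cur F).per (some (X.z s)) : ℤ) = 2 * X.n + 1 := by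
          rw [X.cur_per, X.per_marked]
          push_cast
          ring
        rw [h4, h5, X.kap_z]
        linarith
      have h6 := 𝓢.coord_reg h3 e i
      rw [map_smul, Finsupp.smul_apply, smul_eq_mul] at h6
      exact h6
  choose r hr hr0 using fun j i => hreg (m j) i
  let g : Fin 3 → (M →ₗ[k] S) := fun s => m.constr k fun j => ∑ i, r j i s • e i
  have hg : ∀ s j, g s (m j) = ∑ i, r j i s • e i := fun s j => Basis.constr_basis _ _ _ _
  have h1 : ∀ v, f ((1 : F) ⊗ₜ[k] v) = ∑ s, (X.lin F s)⁻¹ ⊗ₜ[k] (g s v) := by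
    have h2 : (f.restrictScalars k) ∘ₗ (TensorProduct.mk k F M 1) =
        ∑ s, (TensorProduct.mk k F S (X.lin F s)⁻¹) ∘ₗ g s := by
      apply m.ext
      intro j
      show f ((1 : F) ⊗ₜ[k] m j) = _
      rw [LinearMap.sum_apply]
      apply (e.baseChange F).repr.injective
      ext i
      rw [hr, map_sum, Finsupp.finsetSum_apply]
      refine Finset.sum_congr rfl fun s _ => ?_
      show _ = (e.baseChange F).repr ((X.lin F s)⁻¹ ⊗ₜ[k] g s (m j)) i
      rw [Basis.baseChange_repr_tmul, hg, e.repr_sum_self, Algebra.smul_def]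
    intro v
    have h3 := LinearMap.congr_fun h2 v
    rw [LinearMap.sum_apply] at h3
    exact h3
  refine ⟨g, h1, ?_, ?_⟩
  · apply m.ext
    intro j
    rw [LinearMap.sum_apply, LinearMap.zero_apply]
    have h4 : ∑ s, g s (m j) = ∑ i, (∑ s, r j i s) • e i := by
      rw [Finset.sum_congr rfl fun s _ => hg s j, Finset.sum_comm]
      exact Finset.sum_congr rfl fun i _ => (Finset.sum_smul).symm
    rw [h4]
    exact Finset.sum_eq_zero fun i _ => by rw [hr0, zero_smul]
  · intro s a v hv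
    have h5 : ((X.cur F).per (some (X.z s)) : ℤ) = 2 * X.n + 1 := by
      rw [X.cur_per, X.per_marked]
      push_cast
      ring
    by_cases ha : a ≤ X.n
    · have h := hf (some (X.z s)) a _ ((𝓜.one_mem (hw := hw)).2 hv)
      have h3 : X.lin F s • f ((1 : F) ⊗ₜ[k] v) ∈
          ((𝓢.bun hw').ch (some (X.z s))).L (a + 1) := by
        rw [LChain.smul_iff _ _ (X.lin_ne F s)]
        have h4 : ((X.cur F).pl (some (X.z s))).ord (X.lin F s) = 1 := X.ord_lin_self F s
        rw [h4, h5]
        rw [X.kap_z] at h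
        exact LChain.anti _ _ _ (by linarith) h
      have h6 : (1 : F) ⊗ₜ[k] g s v = X.lin F s • f ((1 : F) ⊗ₜ[k] v) -
          ∑ t ∈ Finset.univ.erase s, (X.lin F s * (X.lin F t)⁻¹) ⊗ₜ[k] (g t v) := by
        rw [h1, Finset.smul_sum, ← Finset.add_sum_erase _ _ (Finset.mem_univ s),
          TensorProduct.smul_tmul', smul_eq_mul, mul_inv_cancel₀ (X.lin_ne F s)]
        have h7 : ∑ t ∈ Finset.univ.erase s, X.lin F s • ((X.lin F t)⁻¹ ⊗ₜ[k] (g t v)) =
            ∑ t ∈ Finset.univ.erase s, (X.lin F s * (X.lin F t)⁻¹) ⊗ₜ[k] (g t v) :=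
          Finset.sum_congr rfl fun t _ => by rw [TensorProduct.smul_tmul', smul_eq_mul]
        rw [h7, add_sub_cancel_right]
      rw [← 𝓢.one_mem (hw := hw'), h6]
      refine Submodule.sub_mem _ h3 (Submodule.sum_mem _ fun t ht => ?_)
      have hts : X.z s ≠ X.z t := fun h => (Finset.ne_of_mem_erase ht) (X.hz h).symm
      refine 𝓢.mem_of_max e (fun i => ?_) ?_
      · rw [Basis.baseChange_repr_tmul, Algebra.smul_def]
        have h8 := Place.mul_mem_M _ (X.lin_mem_z (F := F) s ((X.cur F).per (some (X.z s))))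
          (X.inv_mem_other (F := F) t ((X.cur F).per (some (X.z s))) hts)
        have h9 := Place.mul_mem_M _ (NData.const_mem (F := F) (some (X.z s))
          ((X.cur F).per (some (X.z s))) (e.repr (g t v) i)) h8
        exact Place.M_anti _ (by simp) h9
      · rw [h5, X.w0_z]
        linarith
    · have h7 : v ∈ (⊥ : Submodule k M) := by
        rw [← 𝓜.bot (some (X.z s)) a (by rw [h5, X.w0_z]; omega)]
        exact hv
      rw [Submodule.mem_bot] at h7
      rw [h7, map_zero]
      exact Submodule.zero_mem _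

omit [IsAlgClosed k] [Algebra k[X] F] [IsFractionRing k[X] F] [IsScalarTower k k[X] F]
  [FiniteDimensional k S] in
/-- operators raising the levels have trace zero -/
theorem trace_of_raise {C : Curve k F (Option k)} {w0 : Option k → ℤ} (𝒢 : CFl C w0 S)
    (p : Option k) {T : S →ₗ[k] S} (hT : ∀ a v, v ∈ 𝒢.G p a → T v ∈ 𝒢.G p (a + 1)) :
    trace k S T = 0 := by
  have h1 : ∀ (n : ℕ) v, (T ^ n) v ∈ 𝒢.G p (w0 p + n) := by
    intro n
    induction n with
    | zero =>
      intro v
      rw [𝒢.top p _ (by simp)]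
      exact Submodule.mem_top
    | succ n ih =>
      intro v
      have h2 := hT _ _ (ih v)
      rw [pow_succ', Module.End.mul_apply]
      rw [show w0 p + ((n + 1 : ℕ) : ℤ) = w0 p + n + 1 by push_cast; ring]
      exact h2
  have h3 : IsNilpotent T := by
    refine ⟨C.per p, ?_⟩
    apply LinearMap.ext
    intro v
    have h4 := h1 (C.per p) v
    rw [𝒢.bot p _ le_rfl, Submodule.mem_bot] at h4
    exact h4
  exact (LinearMap.isNilpotent_trace_of_isNilpotent h3).eq_zero

omit [IsAlgClosed k] [FiniteDimensional k M] in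
/-- the trace form is nondegenerate -/
theorem eq_zero_of_trace_comp {g : M →ₗ[k] S} (h : ∀ Y : S →ₗ[k] M, trace k S (g ∘ₗ Y) = 0) :
    g = 0 := by
  apply LinearMap.ext
  intro v
  by_contra hv
  obtain ⟨φ, hφ⟩ : ∃ φ : Module.Dual k S, φ (g v) ≠ 0 := by
    by_contra hc
    push Not at hc
    exact hv ((Module.forall_dual_apply_eq_zero_iff k _).1 hc)
  have h1 := h (φ.smulRight v)
  have h2 : g ∘ₗ φ.smulRight v = φ.smulRight (g v) := by
    apply LinearMap.ext
    intro u
    rw [LinearMap.comp_apply, LinearMap.smulRight_apply, LinearMap.smulRight_apply, map_smul]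
  rw [h2, LinearMap.trace_smulRight] at h1
  exact hφ h1

/-- **`Ext (S, M) = 0` for constant bundles, from the condition in constants** -/
theorem noExt_of_const
    (h : ∀ Y : Fin 3 → (S →ₗ[k] M), ∃ (a : S →ₗ[k] M) (b : Fin 3 → (S →ₗ[k] M)),
      (∀ s, Y s = a + b s) ∧
        ∀ s c v, v ∈ 𝓢.G (some (X.z s)) c → b s v ∈ 𝓜.G (some (X.z s)) c) :
    NoExt X.kap (𝓢.bun hw) (𝓜.bun hw') := by
  classical
  intro f hf
  obtain ⟨g, hg1, hg2, hg3⟩ := exists_res X 𝓜 𝓢 hf
  have h1 : ∀ Y : Fin 3 → (S →ₗ[k] M), ∑ s, trace k S (g s ∘ₗ Y s) = 0 := by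
    intro Y
    obtain ⟨a, b, hab, hb⟩ := h Y
    have h2 : ∀ s, trace k S (g s ∘ₗ Y s) = trace k S (g s ∘ₗ a) := by
      intro s
      rw [hab, LinearMap.comp_add, map_add,
        trace_of_raise 𝓢 (some (X.z s)) (T := g s ∘ₗ b s) (fun c v hv => hg3 s c _ (hb s c v hv)),
        add_zero]
    rw [Finset.sum_congr rfl fun s _ => h2 s, ← map_sum]
    have h3 : ∑ s, g s ∘ₗ a = (∑ s, g s) ∘ₗ a := by
      apply LinearMap.ext
      intro u
      rw [LinearMap.sum_apply, LinearMap.comp_apply, LinearMap.sum_apply]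
      rfl
    rw [h3, hg2, LinearMap.zero_comp, map_zero]
  have h2 : ∀ s, g s = 0 := by
    intro s
    apply eq_zero_of_trace_comp
    intro Y
    have h3 := h1 (Pi.single s Y)
    rw [Finset.sum_eq_single s] at h3
    · rwa [Pi.single_eq_same] at h3
    · intro t _ hts
      rw [Pi.single_eq_of_ne hts, LinearMap.comp_zero, map_zero]
    · intro h4
      exact absurd (Finset.mem_univ _) h4
  apply ((finBasis k M).baseChange F).ext
  intro j
  rw [Basis.baseChange_apply, hg1]
  refine Finset.sum_eq_zero fun s _ => ?_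
  rw [h2, LinearMap.zero_apply, TensorProduct.tmul_zero]

end Vale.Agent.P182.H388
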