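import Vale.Agent.P182.H388.Vers
import Vale.Agent.P182.H668.Numbers

/-!
# Versality, in terms of connections

Every skew principal part at one place is realised by a derivation of the function field and a
metric connection which is integral at all other places.
-/

namespace Vale.Agent.P182.H388

open LinearMap Submodule Module Vale.Agent.P182 Vale.Agent.P182.H430 Vale.Agent.P182.H668
  Vale.Agent.P182.H578

universe u

variable {k F P : Type*} [Field k] [Field F] [Algebra k F] {C : Curve k F P}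
variable {E : Type u} [AddCommGroup E] [Module F E] [Module k E] [IsScalarTower k F E]
  [FiniteDimensional F E]

section Unit

theorem unit_pair (C : Curve k F P) : DPair (Bun.unit C) (Bun.unit C) (LinearMap.mul F F) := by
  have hinj : Function.Injective (LinearMap.mul F F).flip := by
    intro x y h
    have := LinearMap.congr_fun h 1
    simpa using this
  refine ⟨⟨hinj, (LinearMap.injective_iff_surjective_of_finrank_eq_finrank
    (Subspace.dual_finrank_eq (K := F) (V := F)).symm).1 hinj⟩, ?_⟩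
  intro p c y
  constructor
  · intro hy a x hx
    exact (C.pl p).mul_mem_M hx hy
  · intro h
    have h1 := h 0 1 ((C.pl p).one_mem_M.2 le_rfl)
    rw [zero_add] at h1
    have h2 : (LinearMap.mul F F) 1 y = y := by simp
    rw [h2] at h1
    exact h1

theorem h1_I {κ : P → ℤ} (hκ : Dualizing C κ) : h1 (C.I κ) = 1 := by
  have h := ((unit_pair C).serre hκ).2.2.1
  have h2 : h1 (C.I κ) = h0 (Bun.unit C).lat := h
  rw [h2, Bun.unit_lat]
  have h3 := C.rr_zero
  have h4 := h3.2.1
  unfold chi at h4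
  omega

theorem eq_zero_of_rho {κ : P → ℤ} (hκ : Dualizing C κ) {ρ : HO (C.I κ) →ₗ[k] k} (hρ : ρ ≠ 0)
    {z : HO (C.I κ)} (hz : ρ z = 0) : z = 0 := by
  by_contra h0
  apply hρ
  apply LinearMap.ext
  intro y
  have h1 : finrank k (HO (C.I κ)) = 1 := h1_I hκ
  obtain ⟨c, rfl⟩ := (finrank_eq_one_iff_of_nonzero' z h0).1 h1 y
  rw [map_smul, hz, smul_zero]
  rfl

end Unit

section Metric

variable {T : LinearMap.BilinForm F E} {N : Bun C E}

omit [Module k E] [IsScalarTower k F E] in
/-- the correction making a connection metric -/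
theorem exists_corr (hnd : ∀ x, (∀ y, T x y = 0) → x = 0) {δ : Derivation ℤ F F} {D : E → E}
    (hD : IsConn δ D) :
    ∃ A : E →ₗ[F] E, ∀ x y, T (A x) y = δ (T x y) - T (D x) y - T x (D y) := by
  let G : LinearMap.BilinForm F E := LinearMap.mk₂ F
    (fun x y => δ (T x y) - T (D x) y - T x (D y))
    (fun x x' y => by
      simp only [map_add, LinearMap.add_apply, hD.1]
      ring)
    (fun c x y => by
      simp only [map_smul, LinearMap.smul_apply, smul_eq_mul, hD.2, map_add, LinearMap.add_apply,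
        Derivation.leibniz]
      ring)
    (fun x y y' => by
      simp only [map_add, hD.1]
      ring)
    (fun c x y => by
      simp only [map_smul, smul_eq_mul, hD.2, map_add, Derivation.leibniz]
      ring)
  have hG : ∀ x y, G x y = δ (T x y) - T (D x) y - T x (D y) := fun x y => rfl
  have hinj : Function.Injective T := by
    rw [injective_iff_map_eq_zero]
    intro x hx
    exact hnd x fun y => by rw [hx]; rfl
  have hd : Module.finrank F E = Module.finrank F (E →ₗ[F] F) :=
    (Subspace.dual_finrank_eq (K := F) (V := E)).symm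
  let e : E ≃ₗ[F] (E →ₗ[F] F) := LinearEquiv.ofInjectiveOfFinrankEq T hinj hd
  have he : ∀ x, e x = T x := fun x => rfl
  refine ⟨e.symm.toLinearMap ∘ₗ G, fun x y => ?_⟩
  rw [← he, ← hG]
  show e (e.symm (G x)) y = _
  rw [LinearEquiv.apply_symm_apply]

omit [IsScalarTower k F E] [FiniteDimensional F E] [Module k E] in
theorem corr_metric (hs : ∀ x y, T x y = T y x) (h2 : (2 : F) ≠ 0) {δ : Derivation ℤ F F}
    {D : E → E} (hD : IsConn δ D) {A : E →ₗ[F] E}
    (hA : ∀ x y, T (A x) y = δ (T x y) - T (D x) y - T x (D y)) :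
    IsConn δ (fun x => D x + (2 : F)⁻¹ • A x) ∧ IsMetric T δ (fun x => D x + (2 : F)⁻¹ • A x) := by
  refine ⟨⟨fun x y => ?_, fun c x => ?_⟩, fun x y => ?_⟩
  · show D (x + y) + (2 : F)⁻¹ • A (x + y) = (D x + (2 : F)⁻¹ • A x) + (D y + (2 : F)⁻¹ • A y)
    rw [hD.1, map_add, smul_add]
    abel
  · show D (c • x) + (2 : F)⁻¹ • A (c • x) = c • (D x + (2 : F)⁻¹ • A x) + δ c • x
    rw [hD.2, map_smul, smul_add, smul_comm c]
    abel
  · have h1 := hA x y
    have h2' := hA y x
    have h3 : T (A x) y = T (A y) x := by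
      rw [h1, h2', hs y x, hs (D y) x, hs y (D x)]
      ring
    rw [map_add, LinearMap.add_apply, map_smul, LinearMap.smul_apply, map_add, map_smul,
      hs x (A y), smul_eq_mul, smul_eq_mul, ← h3, h1]
    field_simp
    ring

omit [IsScalarTower k F E] [FiniteDimensional F E] in
/-- scaling at a place of period one -/
theorem scale_one {p : P} (hp : C.per p = 1) (b : ℤ) {L : LChain (C.pl p) (C.per p) E} {x : E}
    (hx : x ∈ L.L b) : (C.pl p).unif ^ (-b) • x ∈ L.L 0 := by
  have hu : (C.pl p).unif ^ (-b) ≠ 0 := zpow_ne_zero _ (C.pl p).unif_ne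
  have hp' : (C.per p : ℤ) = 1 := by exact_mod_cast hp
  rw [L.smul_iff _ hu, (C.pl p).ord_zpow]
  exact L.anti _ _ (by rw [hp']; linarith) hx

/-- the correction is integral where the connection is -/
theorem corr_mem (hN : Orth N T) {δ : Derivation ℤ F F} (hδ : CDer C δ) {p : P} {D : E → E}
    (hD : LConn N δ p D) {A : E →ₗ[F] E}
    (hA : ∀ x y, T (A x) y = δ (T x y) - T (D x) y - T x (D y)) : A ∈ (N.hom N).lat p := by
  by_cases hp : C.per p = 1
  · refine mem_hom_of_per_one hp fun x hx => ?_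
    show A x ∈ (N.ch p).L 0
    rw [hN.dual p 0]
    intro b y hy
    have hx' : x ∈ (N.ch p).L 0 := hx
    have hu : (C.pl p).unif ^ (-b) ≠ 0 := zpow_ne_zero _ (C.pl p).unif_ne
    have hy0 := scale_one hp b hy
    set y0 := (C.pl p).unif ^ (-b) • y with hy0d
    have hT : ∀ u v : E, u ∈ (N.ch p).L 0 → v ∈ (N.ch p).L 0 →
        T u v ∈ (C.pl p).M (C.per p) 0 := by
      intro u v hu hv
      have := (hN.dual p 0 u).1 hu 0 v hv
      rwa [add_zero] at this
    have h1 : T (A x) y0 ∈ (C.pl p).M (C.per p) 0 := by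
      rw [hA]
      refine Submodule.sub_mem _ (Submodule.sub_mem _ ?_ ?_) ?_
      · have h2 := hT x y0 hx' hy0
        rw [M_zero_eq _ (C.per_pos p)] at h2 ⊢
        exact hδ.reg p _ h2
      · exact hT _ _ (hD.mem x hx) hy0
      · exact hT _ _ hx' (hD.mem y0 hy0)
    rw [hy0d, map_smul, smul_eq_mul, (C.pl p).smul_mem_iff hu, (C.pl p).ord_zpow] at h1
    have hp' : (C.per p : ℤ) = 1 := by exact_mod_cast hp
    exact (C.pl p).M_anti (by rw [hp']; linarith) h1
  · rw [Bun.mem_hom_lat]
    intro b x hx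
    rw [hN.dual p b]
    intro b' y hy
    rw [hA]
    refine Submodule.sub_mem _ (Submodule.sub_mem _ ?_ ?_) ?_
    · exact hδ.lev p hp _ _ ((hN.dual p b x).1 hx b' y hy)
    · exact (hN.dual p b _).1 (hD.mem' hp b x hx) b' y hy
    · exact (hN.dual p b x).1 hx b' _ (hD.mem' hp b' y hy)

/-- changing an integral connection by an integral operator -/
theorem LConn.add {δ : Derivation ℤ F F} {p : P} {D : E → E} (hD : LConn N δ p D)
    {A : E →ₗ[F] E} (hA : A ∈ (N.hom N).lat p) : LConn N δ p (fun x => D x + A x) := by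
  rw [Bun.mem_hom_lat] at hA
  refine ⟨⟨fun x y => ?_, fun c x => ?_⟩, fun x hx => ?_, fun hp a x hx => ?_⟩
  · show D (x + y) + A (x + y) = (D x + A x) + (D y + A y)
    rw [hD.conn.1, map_add]
    abel
  · show D (c • x) + A (c • x) = c • (D x + A x) + δ c • x
    rw [hD.conn.2, map_smul, smul_add]
    abel
  · exact Submodule.add_mem _ (hD.mem x hx) (hA 0 x hx)
  · exact Submodule.add_mem _ (hD.mem' hp a x hx) (hA a x hx)

theorem half_mem {p : P} {A : E →ₗ[F] E} (hA : A ∈ (N.hom N).lat p) :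
    (2 : F)⁻¹ • A ∈ (N.hom N).lat p := by
  have h3 : (2 : F)⁻¹ = algebraMap k F (2 : k)⁻¹ := by rw [map_inv₀, map_ofNat]
  rw [h3, algebraMap_smul]
  exact Submodule.smul_mem _ _ hA

/-- integral metric connections exist -/
theorem exists_lmetric (hN : Orth N T) (h2 : (2 : F) ≠ 0)
    {δ : Derivation ℤ F F} (hδ : CDer C δ) (p : P) : ∃ D, LConn N δ p D ∧ IsMetric T δ D := by
  obtain ⟨D, hD⟩ := exists_lconn hδ N p
  obtain ⟨A, hA⟩ := exists_corr hN.nd hD.conn
  exact ⟨_, hD.add (half_mem (corr_mem hN hδ hD hA)), (corr_metric hN.symm h2 hD.conn hA).2⟩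

/-- global metric connections, integral at almost all places -/
theorem exists_gmetric (hN : Orth N T) (h2 : (2 : F) ≠ 0)
    {δ : Derivation ℤ F F} (hδ : CDer C δ) :
    ∃ D, IsConn δ D ∧ IsMetric T δ D ∧ ∀ᶠ p in Filter.cofinite, LConn N δ p D := by
  obtain ⟨D, hD, hD'⟩ := exists_gconn hδ N
  obtain ⟨A, hA⟩ := exists_corr hN.nd hD
  obtain ⟨h3, h4⟩ := corr_metric hN.symm h2 hD hA
  refine ⟨_, h3, h4, ?_⟩
  filter_upwards [hD'] with p hp
  exact hp.add (half_mem (corr_mem hN hδ hp hA))

end Metric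

section KSO

variable (T : LinearMap.BilinForm F E) (N : Bun C E)

/-- the bundle of skew operators -/
abbrev soB : Bun C (adj T (-1)) := (N.hom N).sub (adj T (-1))

/-- data defining the orthogonal Kodaira–Spencer class -/
structure KSO (δ : Derivation ℤ F F) where
  D0 : E → E
  D : P → E → E
  conn0 : IsConn δ D0
  met0 : IsMetric T δ D0
  loc : ∀ p, LConn N δ p (D p)
  met : ∀ p, IsMetric T δ (D p)
  fin : {p | diffL conn0 (loc p).conn ∉ (N.hom N).lat p}.Finite

variable {T N}

omit [Module k E] [IsScalarTower k F E] [FiniteDimensional F E] in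
theorem diff_skew {δ : Derivation ℤ F F} {D D' : E → E} (h : IsConn δ D) (h' : IsConn δ D')
    (hm : IsMetric T δ D) (hm' : IsMetric T δ D') : diffL h h' ∈ adj T (-1) := by
  intro x y
  have h1 := hm x y
  have h2 := hm' x y
  show T (D x - D' x) y = -1 * T x (D y - D' y)
  rw [map_sub, LinearMap.sub_apply, map_sub]
  linear_combination h2 - h1

/-- the difference as a skew operator -/
def KSO.dif {δ : Derivation ℤ F F} (K : KSO T N δ) (p : P) : adj T (-1) :=
  ⟨diffL K.conn0 (K.loc p).conn, diff_skew _ _ K.met0 (K.met p)⟩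

theorem KSO.fin' {δ : Derivation ℤ F F} (K : KSO T N δ) :
    {p | K.dif p ∉ (soB T N).lat p}.Finite := K.fin

/-- the orthogonal Kodaira–Spencer class -/
noncomputable def KSO.cls {δ : Derivation ℤ F F} (K : KSO T N δ) : HO (soB T N).lat :=
  H430.cls (soB T N).lat (fsMk K.dif K.fin')

theorem exists_KSO (hN : Orth N T) (h2 : (2 : F) ≠ 0)
    {δ : Derivation ℤ F F} (hδ : CDer C δ) : Nonempty (KSO T N δ) := by
  obtain ⟨D0, h0, hm0, h1⟩ := exists_gmetric hN h2 hδ
  choose D hD hDm using exists_lmetric hN h2 hδ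
  refine ⟨⟨D0, D, h0, hm0, hD, hDm, ?_⟩⟩
  rw [← Filter.eventually_cofinite (p := fun p => diffL h0 (hD p).conn ∈ (N.hom N).lat p)]
  filter_upwards [h1] with p hp
  exact (hD p).defect_mem hp (Mor.id N)

/-- zero -/
noncomputable def KSO.zero : KSO T N 0 where
  D0 := 0
  D := 0
  conn0 := ⟨fun x y => by simp, fun f x => by simp⟩
  met0 := fun x y => by simp
  loc := fun p => ⟨⟨fun x y => by simp, fun f x => by simp⟩, fun x _ => Submodule.zero_mem _,
    fun _ _ _ _ => Submodule.zero_mem _⟩
  met := fun p x y => by simp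
  fin := by
    refine Set.finite_empty.subset ?_
    intro p hp
    exfalso
    apply hp
    have : diffL (δ := (0 : Derivation ℤ F F)) (D := (0 : E → E)) (D' := (0 : E → E))
        ⟨fun x y => by simp, fun f x => by simp⟩ ⟨fun x y => by simp, fun f x => by simp⟩ = 0 := by
      apply LinearMap.ext
      intro x
      show (0 : E) - 0 = 0
      rw [sub_zero]
    show diffL _ _ ∈ _
    rw [show diffL _ _ = (0 : E →ₗ[F] E) from this]
    exact Submodule.zero_mem _

/-- sum -/
noncomputable def KSO.add {δ δ' : Derivation ℤ F F} (K : KSO T N δ) (K' : KSO T N δ') :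
    KSO T N (δ + δ') where
  D0 := fun x => K.D0 x + K'.D0 x
  D := fun p x => K.D p x + K'.D p x
  conn0 := ⟨fun x y => by beta_reduce; rw [K.conn0.1, K'.conn0.1]; abel, fun f x => by
    beta_reduce
    rw [K.conn0.2, K'.conn0.2, Derivation.add_apply, add_smul, smul_add]; abel⟩
  met0 := fun x y => by
    beta_reduce
    rw [Derivation.add_apply, K.met0, K'.met0]
    simp only [map_add, LinearMap.add_apply]
    ring
  loc := fun p => ⟨⟨fun x y => by
      beta_reduce
      rw [(K.loc p).conn.1, (K'.loc p).conn.1]; abel, fun f x => by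
    beta_reduce
    rw [(K.loc p).conn.2, (K'.loc p).conn.2, Derivation.add_apply, add_smul, smul_add]; abel⟩,
    fun x hx => Submodule.add_mem _ ((K.loc p).mem x hx) ((K'.loc p).mem x hx),
    fun hp a x hx => Submodule.add_mem _ ((K.loc p).mem' hp a x hx) ((K'.loc p).mem' hp a x hx)⟩
  met := fun p x y => by
    beta_reduce
    rw [Derivation.add_apply, K.met, K'.met]
    simp only [map_add, LinearMap.add_apply]
    ring
  fin := by
    refine (K.fin.union K'.fin).subset ?_
    intro p hp
    by_contra h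
    simp only [Set.mem_union, Set.mem_ofPred_eq, not_or, not_not] at h
    apply hp
    have := Submodule.add_mem _ h.1 h.2
    convert this using 1
    apply LinearMap.ext
    intro x
    show K.D0 x + K'.D0 x - (K.D p x + K'.D p x) = (K.D0 x - K.D p x) + (K'.D0 x - K'.D p x)
    abel

/-- scalar multiple -/
noncomputable def KSO.smul {δ : Derivation ℤ F F} (c : k) (K : KSO T N δ) :
    KSO T N (algebraMap k F c • δ) where
  D0 := fun x => algebraMap k F c • K.D0 x
  D := fun p x => algebraMap k F c • K.D p x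
  conn0 := ⟨fun x y => by beta_reduce; rw [K.conn0.1, smul_add], fun f x => by
    beta_reduce
    rw [K.conn0.2, Derivation.smul_apply, smul_add, smul_comm, smul_eq_mul, mul_smul]⟩
  met0 := fun x y => by
    beta_reduce
    rw [Derivation.smul_apply, K.met0]
    simp only [map_smul, LinearMap.smul_apply, smul_eq_mul]
    ring
  loc := fun p => ⟨⟨fun x y => by beta_reduce; rw [(K.loc p).conn.1, smul_add], fun f x => by
    beta_reduce
    rw [(K.loc p).conn.2, Derivation.smul_apply, smul_add, smul_comm, smul_eq_mul, mul_smul]⟩,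
    fun x hx => by
      show algebraMap k F c • K.D p x ∈ _
      rw [algebraMap_smul]
      exact Submodule.smul_mem _ _ ((K.loc p).mem x hx),
    fun hp a x hx => by
      show algebraMap k F c • K.D p x ∈ _
      rw [algebraMap_smul]
      exact Submodule.smul_mem _ _ ((K.loc p).mem' hp a x hx)⟩
  met := fun p x y => by
    beta_reduce
    rw [Derivation.smul_apply, K.met]
    simp only [map_smul, LinearMap.smul_apply, smul_eq_mul]
    ring
  fin := by
    refine K.fin.subset ?_
    intro p hp h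
    apply hp
    have := Submodule.smul_mem _ c h
    convert this using 1
    apply LinearMap.ext
    intro x
    show algebraMap k F c • K.D0 x - algebraMap k F c • K.D p x = c • (K.D0 x - K.D p x)
    rw [← smul_sub, algebraMap_smul]

theorem fsMk_add {k P E₁ : Type*} [Field k] [AddCommGroup E₁] [Module k E₁]
    {Λ : P → Submodule k E₁} {x y z : P → E₁} {hx : {p | x p ∉ Λ p}.Finite}
    {hy : {p | y p ∉ Λ p}.Finite} {hz : {p | z p ∉ Λ p}.Finite} (h : ∀ p, z p = x p + y p) :
    fsMk z hz = fsMk x hx + fsMk y hy := by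
  apply Subtype.ext
  funext p
  show (Λ p).mkQ (z p) = (Λ p).mkQ (x p) + (Λ p).mkQ (y p)
  rw [h, map_add]

theorem fsMk_smul {k P E₁ : Type*} [Field k] [AddCommGroup E₁] [Module k E₁]
    {Λ : P → Submodule k E₁} {x z : P → E₁} {hx : {p | x p ∉ Λ p}.Finite}
    {hz : {p | z p ∉ Λ p}.Finite} (c : k) (h : ∀ p, z p = c • x p) :
    fsMk z hz = c • fsMk x hx := by
  apply Subtype.ext
  funext p
  show (Λ p).mkQ (z p) = c • (Λ p).mkQ (x p)
  rw [h, map_smul]

theorem KSO.cls_zero : (KSO.zero : KSO T N 0).cls = 0 := by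
  unfold KSO.cls
  rw [cls_eq_zero, fsMk_mem_diag]
  refine ⟨0, fun p => ?_⟩
  have : (KSO.zero : KSO T N 0).dif p = 0 := by
    apply Subtype.ext
    apply LinearMap.ext
    intro x
    show (0 : E) - 0 = 0
    rw [sub_zero]
  rw [this, sub_zero]
  exact Submodule.zero_mem _

theorem KSO.cls_add {δ δ' : Derivation ℤ F F} (K : KSO T N δ) (K' : KSO T N δ') :
    (K.add K').cls = K.cls + K'.cls := by
  unfold KSO.cls
  rw [← map_add (H430.cls (soB T N).lat)]
  congr 1
  apply fsMk_add
  intro p
  apply Subtype.ext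
  apply LinearMap.ext
  intro x
  show K.D0 x + K'.D0 x - (K.D p x + K'.D p x) = (K.D0 x - K.D p x) + (K'.D0 x - K'.D p x)
  abel

theorem KSO.cls_smul {δ : Derivation ℤ F F} (c : k) (K : KSO T N δ) :
    (K.smul c).cls = c • K.cls := by
  unfold KSO.cls
  rw [← map_smul (H430.cls (soB T N).lat)]
  congr 1
  apply fsMk_smul
  intro p
  apply Subtype.ext
  apply LinearMap.ext
  intro x
  show algebraMap k F c • K.D0 x - algebraMap k F c • K.D p x = c • (K.D0 x - K.D p x)
  rw [← smul_sub, algebraMap_smul]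

theorem CDer.zero : CDer C (0 : Derivation ℤ F F) :=
  ⟨fun _ _ _ => Submodule.zero_mem _, fun _ _ _ _ _ => Submodule.zero_mem _⟩

theorem CDer.add {δ δ' : Derivation ℤ F F} (h : CDer C δ) (h' : CDer C δ') : CDer C (δ + δ') :=
  ⟨fun p f hf => Submodule.add_mem _ (h.reg p f hf) (h'.reg p f hf),
    fun p hp c f hf => Submodule.add_mem _ (h.lev p hp c f hf) (h'.lev p hp c f hf)⟩

theorem CDer.smul {δ : Derivation ℤ F F} (h : CDer C δ) (c : k) :
    CDer C (algebraMap k F c • δ) := by
  refine ⟨fun p f hf => ?_, fun p hp a f hf => ?_⟩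
  · rw [Derivation.smul_apply, algebraMap_smul]
    exact Submodule.smul_mem _ _ (h.reg p f hf)
  · rw [Derivation.smul_apply, algebraMap_smul]
    exact Submodule.smul_mem _ _ (h.lev p hp a f hf)

/-- the classes realised by derivations -/
noncomputable def realS (T : LinearMap.BilinForm F E) (N : Bun C E) :
    Submodule k (HO (soB T N).lat) where
  carrier := {z | ∃ δ : Derivation ℤ F F, CDer C δ ∧ ∃ K : KSO T N δ, K.cls = z}
  zero_mem' := ⟨0, CDer.zero, KSO.zero, KSO.cls_zero⟩
  add_mem' := by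
    rintro _ _ ⟨δ, h, K, rfl⟩ ⟨δ', h', K', rfl⟩
    exact ⟨δ + δ', h.add h', K.add K', K.cls_add K'⟩
  smul_mem' := by
    rintro c _ ⟨δ, h, K, rfl⟩
    exact ⟨_, h.smul c, K.smul c, K.cls_smul c⟩

/-- VERSALITY: every class is realised -/
theorem realS_eq_top {κ : P → ℤ} (hκ : Dualizing C κ) {I : Type*} (V : OVers N T κ I)
    (hN : Orth N T) (h2k : (2 : k) ≠ 0) (h2 : (2 : F) ≠ 0) : realS T N = ⊤ := by
  by_contra hne
  obtain ⟨φ, hφ0, hφ⟩ := Submodule.exists_le_ker_of_lt_top (realS T N) (lt_top_iff_ne_top.2 hne)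
  obtain ⟨ρ, hρ⟩ := hκ.exists_functional
  have hε : (-1 : F) * -1 = 1 := by ring
  have hpair := hN.dpair h2 (inv_mul_cancel₀ h2k) hε
  obtain ⟨Y, hY⟩ := hpair.surj hκ hρ φ
  have hYlev : ∀ p, ((Y : adj T (-1)) : E →ₗ[F] E) ∈ ((N.hom N).ch p).L (-κ p) :=
    fun p => mem_HZ.1 Y.2 p
  have hYY : ∀ Z : adj T (-1), tres (trp F E E) (adj T (-1)) (adj T (-1)) Z Y =
      trace F E (((Y : adj T (-1)) : E →ₗ[F] E) * Z) := fun Z => rfl
  apply hφ0
  have hY0 : ((Y : adj T (-1)) : E →ₗ[F] E) = 0 := by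
    by_contra hY0
    apply hY0
    refine V.vers _ (Y : adj T (-1)).2 hYlev fun i => ?_
    obtain ⟨K⟩ := exists_KSO hN h2 (V.cder i)
    have h3 : φ K.cls = 0 := hφ ⟨V.δ i, V.cder i, K, rfl⟩
    rw [← hY] at h3
    have h4 := eq_zero_of_rho hκ hρ h3
    unfold KSO.cls at h4
    rw [hoMap_cls, cls_eq_zero] at h4
    obtain ⟨f, hf⟩ := h4
    have hf' : ∀ p, trace F E (((Y : adj T (-1)) : E →ₗ[F] E) * diffL K.conn0 (K.loc p).conn) - f ∈
        C.I κ p := by
      intro p
      have h5 := hf p
      rw [fsLift_fsMk] at h5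
      exact (Submodule.Quotient.eq _).1 h5
    -- adjust the global connection
    obtain ⟨Z, hZ, hZf⟩ : ∃ Z ∈ adj T (-1),
        trace F E (((Y : adj T (-1)) : E →ₗ[F] E) * Z) = f := by
      by_contra hno
      apply hY0
      refine eq_zero_of_trace h2 hε hN.symm hN.nd (Y : adj T (-1)).2 fun Z hZ => ?_
      by_contra h0
      apply hno
      refine ⟨(f / trace F E (((Y : adj T (-1)) : E →ₗ[F] E) * Z)) • Z,
        Submodule.smul_mem _ _ hZ, ?_⟩
      rw [mul_smul_comm, map_smul, smul_eq_mul, div_mul_cancel₀ _ h0]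
    have hZ' : ∀ x y, T (Z x) y = -T x (Z y) := fun x y => by rw [hZ x y, neg_one_mul]
    have hD2 : IsConn (V.δ i) (fun x => K.D0 x - Z x) := by
      refine ⟨fun x y => ?_, fun c x => ?_⟩
      · show K.D0 (x + y) - Z (x + y) = (K.D0 x - Z x) + (K.D0 y - Z y)
        rw [K.conn0.1, map_add]
        abel
      · show K.D0 (c • x) - Z (c • x) = c • (K.D0 x - Z x) + V.δ i c • x
        rw [K.conn0.2, map_smul, smul_sub]
        abel
    refine ⟨_, hD2, fun x y => ?_, fun p D hD => ?_⟩
    · rw [K.met0 x y]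
      simp only [map_sub, LinearMap.sub_apply]
      rw [hZ']
      ring
    · have e1 : ((Y : adj T (-1)) : E →ₗ[F] E) * diffL hD.conn hD2 =
          ((Y : adj T (-1)) : E →ₗ[F] E) * defect (K.loc p).conn hD.conn LinearMap.id -
          (((Y : adj T (-1)) : E →ₗ[F] E) * diffL K.conn0 (K.loc p).conn -
            ((Y : adj T (-1)) : E →ₗ[F] E) * Z) := by
        rw [← mul_sub, ← mul_sub]
        congr 1
        apply LinearMap.ext
        intro x
        show D x - (K.D0 x - Z x) = (D x - K.D p x) - ((K.D0 x - K.D p x) - Z x)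
        abel
      rw [e1, map_sub, map_sub, hZf]
      refine Submodule.sub_mem _ ?_ (hf' p)
      have h6 := (K.loc p).defect_mem hD (Mor.id N)
      have h7 := LChain.comp_mem (N.ch p) (N.ch p) (N.ch p) (c := 0) h6 (hYlev p)
      have h8 := trace_mem (N.ch p) h7
      rw [zero_add] at h8
      exact h8
  apply LinearMap.ext
  intro z
  rw [← hY]
  have h5 : pmap (k := k) (tres (trp F E E) (adj T (-1)) (adj T (-1))) (Y : adj T (-1)) = 0 := by
    apply LinearMap.ext
    intro Z
    show tres (trp F E E) (adj T (-1)) (adj T (-1)) Z Y = 0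
    rw [hYY, hY0, zero_mul, map_zero]
  obtain ⟨u, rfl⟩ := cls_surjective _ z
  rw [hoMap_cls]
  have h6 : H430.cls (C.I κ) (fsLift (pmap (k := k) (tres (trp F E E) (adj T (-1)) (adj T (-1)))
      (Y : adj T (-1))) (hpair.maps Y) u) = 0 := by
    rw [cls_eq_zero]
    refine ⟨0, fun p => ?_⟩
    rw [fsLift_apply, map_zero]
    obtain ⟨x, hx⟩ := ((soB T N).lat p).mkQ_surjective (u.1 p)
    rw [← hx]
    show ((C.I κ) p).mkQ (pmap (k := k) (tres (trp F E E) (adj T (-1)) (adj T (-1)))
      (Y : adj T (-1)) x) = 0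
    rw [h5]
    simp
  rw [h6, map_zero]
  rfl

/-- **(VV)** every skew principal part at a place is realised by a metric connection -/
theorem exists_vv {κ : P → ℤ} (hκ : Dualizing C κ) {I : Type*} (V : OVers N T κ I)
    (hN : Orth N T) (h2k : (2 : k) ≠ 0) (h2 : (2 : F) ≠ 0) (p : P) {a : E →ₗ[F] E}
    (ha : a ∈ adj T (-1)) : ∃ δ : Derivation ℤ F F, CDer C δ ∧ ∃ n : E → E, IsConn δ n ∧
      IsMetric T δ n ∧ (∀ q, q ≠ p → LConn N δ q n) ∧ LConn N δ p (fun x => n x + a x) := by
  classical
  have hfin : {q | (if q = p then (⟨a, ha⟩ : adj T (-1)) else 0) ∉ (soB T N).lat q}.Finite := by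
    refine (Set.finite_singleton p).subset ?_
    intro q hq
    by_contra hqp
    apply hq
    have : q ≠ p := hqp
    rw [if_neg this]
    exact Submodule.zero_mem _
  have hz : H430.cls (soB T N).lat (fsMk (fun q => if q = p then (⟨a, ha⟩ : adj T (-1)) else 0)
      hfin) ∈ realS T N := by
    rw [realS_eq_top hκ V hN h2k h2]
    trivial
  obtain ⟨δ, hδ, K, hK⟩ := hz
  unfold KSO.cls at hK
  rw [← sub_eq_zero, ← map_sub (H430.cls (soB T N).lat), cls_eq_zero] at hK
  obtain ⟨Z, hZ⟩ := hK
  have hZ' : ∀ q, K.dif q - (if q = p then (⟨a, ha⟩ : adj T (-1)) else 0) - Z ∈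
      (soB T N).lat q := by
    intro q
    have h1 := hZ q
    have h2 : (fsMk K.dif K.fin' - fsMk (fun q => if q = p then (⟨a, ha⟩ : adj T (-1)) else 0)
      hfin : FS (soB T N).lat).1 q = ((soB T N).lat q).mkQ
        (K.dif q - (if q = p then (⟨a, ha⟩ : adj T (-1)) else 0)) := by
      rw [map_sub]
      rfl
    rw [h2] at h1
    exact (Submodule.Quotient.eq _).1 h1
  have hZs : ∀ x y, T (Z.1 x) y = -T x (Z.1 y) := fun x y => by rw [Z.2 x y, neg_one_mul]
  have has : ∀ x y, T (a x) y = -T x (a y) := fun x y => by rw [ha x y, neg_one_mul]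
  -- `n = D0 - Z` with the sign of `a` reversed
  refine ⟨-δ, ?_, fun x => -(K.D0 x - Z.1 x), ⟨fun x y => ?_, fun c x => ?_⟩, fun x y => ?_,
    fun q hq => ?_, ?_⟩
  · refine ⟨fun q f hf => ?_, fun q hq c f hf => ?_⟩
    · rw [Derivation.neg_apply]
      exact Submodule.neg_mem _ (hδ.reg q f hf)
    · rw [Derivation.neg_apply]
      exact Submodule.neg_mem _ (hδ.lev q hq c f hf)
  · beta_reduce
    rw [K.conn0.1, map_add]
    abel
  · beta_reduce
    rw [K.conn0.2, map_smul, Derivation.neg_apply, neg_smul, smul_neg, smul_sub]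
    abel
  · rw [Derivation.neg_apply, K.met0 x y]
    simp only [map_sub, map_neg, LinearMap.sub_apply, LinearMap.neg_apply]
    rw [hZs]
    ring
  · have h3 := hZ' q
    rw [if_neg hq, sub_zero] at h3
    have h4 : (K.dif q).1 - Z.1 ∈ (N.hom N).lat q := h3
    rw [Bun.mem_hom_lat] at h4
    refine ⟨⟨fun x y => ?_, fun c x => ?_⟩, fun x hx => ?_, fun hq' b x hx => ?_⟩
    · beta_reduce
      rw [K.conn0.1, map_add]
      abel
    · beta_reduce
      rw [K.conn0.2, map_smul, Derivation.neg_apply, neg_smul, smul_neg, smul_sub]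
      abel
    · have h5 : -(K.D0 x - Z.1 x) = -(((K.dif q).1 - Z.1) x + K.D q x) := by
        show -(K.D0 x - Z.1 x) = -((K.D0 x - K.D q x - Z.1 x) + K.D q x)
        abel
      rw [h5]
      exact Submodule.neg_mem _ (Submodule.add_mem _ (h4 0 x hx) ((K.loc q).mem x hx))
    · have h5 : -(K.D0 x - Z.1 x) = -(((K.dif q).1 - Z.1) x + K.D q x) := by
        show -(K.D0 x - Z.1 x) = -((K.D0 x - K.D q x - Z.1 x) + K.D q x)
        abel
      rw [h5]
      exact Submodule.neg_mem _ (Submodule.add_mem _ (h4 b x hx) ((K.loc q).mem' hq' b x hx))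
  · have h3 := hZ' p
    rw [if_pos rfl] at h3
    have h4 : (K.dif p).1 - a - Z.1 ∈ (N.hom N).lat p := h3
    rw [Bun.mem_hom_lat] at h4
    have h5 : ∀ x, -(K.D0 x - Z.1 x) + a x = -(((K.dif p).1 - a - Z.1) x + K.D p x) := by
      intro x
      show -(K.D0 x - Z.1 x) + a x = -((K.D0 x - K.D p x - a x - Z.1 x) + K.D p x)
      abel
    refine ⟨⟨fun x y => ?_, fun c x => ?_⟩, fun x hx => ?_, fun hq' b x hx => ?_⟩
    · beta_reduce
      rw [K.conn0.1, map_add, map_add]
      abel
    · beta_reduce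
      rw [K.conn0.2, map_smul, map_smul, Derivation.neg_apply, neg_smul, smul_add, smul_neg,
        smul_sub]
      abel
    · show -(K.D0 x - Z.1 x) + a x ∈ _
      rw [h5]
      exact Submodule.neg_mem _ (Submodule.add_mem _ (h4 0 x hx) ((K.loc p).mem x hx))
    · show -(K.D0 x - Z.1 x) + a x ∈ _
      rw [h5]
      exact Submodule.neg_mem _ (Submodule.add_mem _ (h4 b x hx) ((K.loc p).mem' hq' b x hx))

end KSO

section Off

variable {N : Bun C E}

/-- the off-diagonal part of a connection -/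
def offL {δ : Derivation ℤ F F} {n : E → E} (hn : IsConn δ n) (A : Submodule F E) :
    A →ₗ[F] (E ⧸ A) where
  toFun x := A.mkQ (n x)
  map_add' x y := by
    rw [Submodule.coe_add, hn.1, map_add]
  map_smul' c x := by
    rw [Submodule.coe_smul, hn.2, map_add, map_smul, map_smul, RingHom.id_apply]
    have : A.mkQ (x : E) = 0 := by simp
    rw [this, smul_zero, add_zero]

/-- it is integral where the connection is -/
theorem LConn.off_mem {δ : Derivation ℤ F F} {n : E → E} {p : P} (h : LConn N δ p n)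
    (hn : IsConn δ n) (A : Submodule F E) : offL hn A ∈ ((N.sub A).hom (N.quo A)).lat p := by
  by_cases hp : C.per p = 1
  · refine mem_hom_of_per_one hp fun x hx => ?_
    exact (N.ch p).mkQ_mem_quo A (h.mem _ hx)
  · rw [Bun.mem_hom_lat]
    intro b x hx
    exact (N.ch p).mkQ_mem_quo A (h.mem' hp b _ hx)

end Off

end Vale.Agent.P182.H388
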