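import Mathlib.LinearAlgebra.Dual.Lemmas
import Mathlib.Algebra.Polynomial.Roots
import Mathlib.Tactic.LinearCombination
import Mathlib.Tactic.FieldSimp

/-!
# Extraction of coefficients

If the values of a homogeneous polynomial in two linear forms `1 + x a`, `1 + x b`, `a ≠ b`, with
vector coefficients, lie in a subspace for infinitely many `x`, then so do the coefficients.
-/

namespace Vale.Agent.P182.H388

open Polynomial

theorem mem_of_homog {L M κ : Type*} [Field L] [AddCommGroup M] [Module L M]
    (H : Submodule L M) (s : Finset κ) (n : κ → ℕ) (hn : Set.InjOn n s) (N : ℕ)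
    (hN : ∀ j ∈ s, n j ≤ N) (f : κ → M) {a b : L} (hab : a ≠ b) (X : Set L) (hX : X.Infinite)
    (hb : ∀ x ∈ X, 1 + x * b ≠ 0)
    (h : ∀ x ∈ X, ∑ j ∈ s, ((1 + x * a) ^ n j * (1 + x * b) ^ (N - n j)) • f j ∈ H) :
    ∀ j ∈ s, f j ∈ H := by
  intro j hj
  by_contra hcon
  obtain ⟨φ, hφ, hH⟩ := Submodule.exists_le_ker_of_notMem hcon
  set P : L[X] := ∑ j ∈ s, C (φ (f j)) * Polynomial.X ^ n j with hP
  have hinj : Set.InjOn (fun x : L => (1 + x * a) / (1 + x * b)) X := by
    intro x hx y hy hxy
    have h1 := hb x hx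
    have h2 := hb y hy
    have h3 : (1 + x * a) * (1 + y * b) = (1 + y * a) * (1 + x * b) := by
      have := hxy
      simp only at this
      rwa [div_eq_div_iff h1 h2] at this
    have h4 : (x - y) * (a - b) = 0 := by linear_combination h3
    rcases mul_eq_zero.mp h4 with h5 | h5
    · exact sub_eq_zero.mp h5
    · exact absurd (sub_eq_zero.mp h5) hab
  have hroot : ∀ x ∈ X, P.eval ((1 + x * a) / (1 + x * b)) = 0 := by
    intro x hx
    have h1 := hH (h x hx)
    rw [LinearMap.mem_ker, map_sum] at h1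
    have h2 : P.eval ((1 + x * a) / (1 + x * b)) * (1 + x * b) ^ N = 0 := by
      rw [← h1, hP, eval_finsetSum, Finset.sum_mul]
      refine Finset.sum_congr rfl fun i hi => ?_
      rw [eval_mul, eval_C, eval_pow, eval_X, map_smul, smul_eq_mul, div_pow]
      have h3 : (1 + x * b) ^ N = (1 + x * b) ^ n i * (1 + x * b) ^ (N - n i) := by
        rw [← pow_add]; congr 1; have := hN i hi; omega
      rw [h3]
      have h4 : (1 + x * b) ^ n i ≠ 0 := pow_ne_zero _ (hb x hx)
      field_simp
    exact (mul_eq_zero.mp h2).resolve_right (pow_ne_zero _ (hb x hx))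
  have hP0 : P = 0 := by
    apply eq_zero_of_infinite_isRoot
    refine Set.Infinite.mono ?_ (hX.image hinj)
    rintro _ ⟨x, hx, rfl⟩
    exact hroot x hx
  apply hφ
  have h5 : P.coeff (n j) = φ (f j) := by
    rw [hP, finsetSum_coeff, Finset.sum_eq_single j]
    · rw [coeff_C_mul, coeff_X_pow, if_pos rfl, mul_one]
    · intro i hi hij
      rw [coeff_C_mul, coeff_X_pow, if_neg, mul_zero]
      intro h6
      exact hij (hn hi hj h6.symm)
    · intro h6; exact absurd hj h6
  rw [← h5, hP0, coeff_zero]

end Vale.Agent.P182.H388
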