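import Vale.Agent.P182.H388.EB
import Vale.Agent.P182.H578.N1

/-!
# A quotient of a versal bundle has a non-zero Kodaira–Spencer class
-/

namespace Vale.Agent.P182.H388

open LinearMap Submodule Module Vale.Agent.P182 Vale.Agent.P182.H430 Vale.Agent.P182.H668
  Vale.Agent.P182.H578

universe u

variable {k F P : Type*} [Field k] [Field F] [Algebra k F]
variable {E : Type u} [AddCommGroup E] [Module F E] [Module k E] [IsScalarTower k F E]
  [FiniteDimensional F E]
variable {E₂ : Type*} [AddCommGroup E₂] [Module F E₂] [Module k E₂] [IsScalarTower k F E₂]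
  [FiniteDimensional F E₂]

omit [Module k E] [IsScalarTower k F E] in
/-- existence of metric connections -/
theorem exists_metric {T : LinearMap.BilinForm F E} (hs : ∀ x y, T x y = T y x)
    (hnd : ∀ x, (∀ y, T x y = 0) → x = 0) (h2 : (2 : F) ≠ 0) (δ : Derivation ℤ F F) :
    ∃ D : E → E, IsConn δ D ∧ IsMetric T δ D := by
  classical
  let b := finBasis F E
  let D := bconn δ b fun _ => (1 : F)
  have hD : IsConn δ D := bconn_conn δ b fun _ => one_ne_zero
  -- the defect form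
  let G : LinearMap.BilinForm F E := LinearMap.mk₂ F
    (fun x y => δ (T x y) - T (D x) y - T x (D y))
    (fun x x' y => by
      simp only [map_add, LinearMap.add_apply, hD.1]
      ring)
    (fun c x y => by
      simp only [map_smul, LinearMap.smul_apply, smul_eq_mul, hD.2, map_add, LinearMap.add_apply,
        Derivation.leibniz]
      ring)
    (fun x y y' => by
      simp only [map_add, hD.1]
      ring)
    (fun c x y => by
      simp only [map_smul, smul_eq_mul, hD.2, map_add, Derivation.leibniz]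
      ring)
  have hG : ∀ x y, G x y = δ (T x y) - T (D x) y - T x (D y) := fun x y => rfl
  have hinj : Function.Injective T := by
    rw [injective_iff_map_eq_zero]
    intro x hx
    exact hnd x fun y => by rw [hx]; rfl
  have hd : Module.finrank F E = Module.finrank F (E →ₗ[F] F) :=
    (Subspace.dual_finrank_eq (K := F) (V := E)).symm
  let e : E ≃ₗ[F] (E →ₗ[F] F) := LinearEquiv.ofInjectiveOfFinrankEq T hinj hd
  have he : ∀ x, e x = T x := fun x => rfl
  let A : E →ₗ[F] E := e.symm.toLinearMap ∘ₗ G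
  have hA : ∀ x y, T (A x) y = G x y := by
    intro x y
    rw [← he]
    show e (e.symm (G x)) y = _
    rw [LinearEquiv.apply_symm_apply]
  refine ⟨fun x => D x + (2 : F)⁻¹ • A x, ⟨fun x y => ?_, fun c x => ?_⟩, fun x y => ?_⟩
  · show D (x + y) + (2 : F)⁻¹ • A (x + y) = (D x + (2 : F)⁻¹ • A x) + (D y + (2 : F)⁻¹ • A y)
    rw [hD.1, map_add, smul_add]
    abel
  · show D (c • x) + (2 : F)⁻¹ • A (c • x) = c • (D x + (2 : F)⁻¹ • A x) + δ c • x
    rw [hD.2, map_smul, smul_add, smul_comm c]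
    abel
  · have h1 := hG x y
    have h2' := hG y x
    have h3 : G x y = G y x := by
      rw [h1, h2', hs y x, hs (D y) x, hs y (D x)]
      ring
    rw [map_add, LinearMap.add_apply, map_smul, LinearMap.smul_apply, map_add, map_smul, hA,
      hs x (A y), hA, smul_eq_mul, smul_eq_mul, ← h3, h1]
    field_simp
    ring

/-- A versal self-dual bundle: a family of derivations such that every skew Higgs field
orthogonal to all Kodaira–Spencer classes vanishes. -/
structure OVers {C : Curve k F P} (N : Bun C E) (T : LinearMap.BilinForm F E) (κ : P → ℤ)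
    (I : Type*) where
  δ : I → Derivation ℤ F F
  cder : ∀ i, CDer C (δ i)
  vers : ∀ Y ∈ adj T (-1), (∀ p, Y ∈ ((N.hom N).ch p).L (-κ p)) →
    (∀ i, ∃ D0 : E → E, ∃ h0 : IsConn (δ i) D0, IsMetric T (δ i) D0 ∧
      ∀ p D, ∀ h : LConn N (δ i) p D, trace F E (Y * diffL h.conn h0) ∈ C.I κ p) → Y = 0

theorem fsMk_mem_diag {k P E₁ : Type*} [Field k] [AddCommGroup E₁] [Module k E₁]
    {Λ : P → Submodule k E₁} {x : P → E₁} {h : {p | x p ∉ Λ p}.Finite} :
    fsMk x h ∈ diag Λ ↔ ∃ y : E₁, ∀ p, x p - y ∈ Λ p := by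
  constructor
  · rintro ⟨y, hy⟩
    exact ⟨y, fun p => (Submodule.Quotient.eq _).1 (hy p)⟩
  · rintro ⟨y, hy⟩
    exact ⟨y, fun p => (Submodule.Quotient.eq _).2 (hy p)⟩

/-- **A quotient through which a skew Higgs field factors has a non-zero Kodaira–Spencer class.**
The bundles `N'`, `B` live over a second curve `C'` (with fewer levels). -/
theorem exists_ks_ne {C C' : Curve k F P} {N : Bun C E} {T : LinearMap.BilinForm F E}
    {κ κ' : P → ℤ} {I : Type*} (V : OVers N T κ I) (hs : ∀ x y, T x y = T y x)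
    (hnd : ∀ x, (∀ y, T x y = 0) → x = 0) (h2 : (2 : F) ≠ 0) {N' : Bun C' E} {B : Bun C' E₂}
    (hLC : ∀ i p D, LConn N (V.δ i) p D → LConn N' (V.δ i) p D) {π : E →ₗ[F] E₂}
    (hπ : Mor N' B π) {ψ : E₂ →ₗ[F] E} (hψ : ∀ p, ψ ∈ ((B.hom N').ch p).L (-κ' p))
    (hI : ∀ p, C'.I κ' p ≤ C.I κ p) (hY : ψ ∘ₗ π ∈ adj T (-1))
    (hYC : ∀ p, ψ ∘ₗ π ∈ ((N.hom N).ch p).L (-κ p)) (hY0 : ψ ∘ₗ π ≠ 0) :
    ∃ i, ∀ K : KSD B (V.δ i), K.cls ≠ 0 := by
  by_contra hcon
  push Not at hcon
  apply hY0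
  refine V.vers _ hY hYC fun i => ?_
  obtain ⟨K, hK⟩ := hcon i
  unfold KSD.cls at hK
  rw [cls_eq_zero, fsMk_mem_diag] at hK
  obtain ⟨Z0, hZ0⟩ := hK
  -- a good global connection on `B`
  let DB : E₂ → E₂ := fun x => K.D0 x - Z0 x
  have hDB : IsConn (V.δ i) DB := by
    refine ⟨fun x y => ?_, fun c x => ?_⟩
    · show K.D0 (x + y) - Z0 (x + y) = (K.D0 x - Z0 x) + (K.D0 y - Z0 y)
      rw [K.conn0.1, map_add]
      abel
    · show K.D0 (c • x) - Z0 (c • x) = c • (K.D0 x - Z0 x) + V.δ i c • x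
      rw [K.conn0.2, map_smul, smul_sub]
      abel
  obtain ⟨D1, hD1, hM1⟩ := exists_metric hs hnd h2 (V.δ i)
  -- the global term
  let f : F := trace F E (ψ ∘ₗ defect hD1 hDB π)
  obtain ⟨Z, hZ, hZf⟩ : ∃ Z ∈ adj T (-1), trace F E ((ψ ∘ₗ π) * Z) = f := by
    by_contra hno
    apply hY0
    refine eq_zero_of_trace h2 (ε := (-1 : F)) (by ring) hs hnd hY fun Z hZ => ?_
    by_contra h0
    apply hno
    refine ⟨(f / trace F E ((ψ ∘ₗ π) * Z)) • Z, Submodule.smul_mem _ _ hZ, ?_⟩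
    rw [mul_smul_comm, map_smul, smul_eq_mul, div_mul_cancel₀ _ h0]
  have hZ' : ∀ x y, T (Z x) y = -T x (Z y) := fun x y => by rw [hZ x y, neg_one_mul]
  have hD2 : IsConn (V.δ i) (fun x => D1 x + Z x) := by
    refine ⟨fun x y => ?_, fun c x => ?_⟩
    · show D1 (x + y) + Z (x + y) = (D1 x + Z x) + (D1 y + Z y)
      rw [hD1.1, map_add]
      abel
    · show D1 (c • x) + Z (c • x) = c • (D1 x + Z x) + V.δ i c • x
      rw [hD1.2, map_smul, smul_add]
      abel
  refine ⟨fun x => D1 x + Z x, hD2, fun x y => ?_, fun p D hD => ?_⟩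
  · rw [hM1 x y]
    simp only [map_add, LinearMap.add_apply]
    rw [hZ']
    ring
  · apply hI
    have hD' := hLC i p D hD
    -- decomposition
    have e1 : (ψ ∘ₗ π) * diffL hD.conn hD2 =
        -(ψ ∘ₗ defect hD'.conn (K.loc p).conn π) -
          ψ ∘ₗ ((diffL K.conn0 (K.loc p).conn - Z0) ∘ₗ π) +
          ψ ∘ₗ defect hD1 hDB π - (ψ ∘ₗ π) * Z := by
      apply LinearMap.ext
      intro x
      show ψ (π (D x - (D1 x + Z x))) = -ψ (K.D p (π x) - π (D x)) -
        ψ (K.D0 (π x) - K.D p (π x) - Z0 (π x)) + ψ ((K.D0 (π x) - Z0 (π x)) - π (D1 x)) -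
        ψ (π (Z x))
      simp only [map_sub, map_add]
      abel
    rw [e1, map_sub, hZf, map_add, map_sub, map_neg]
    have e2 : trace F E (ψ ∘ₗ defect hD1 hDB π) = f := rfl
    rw [e2, add_sub_cancel_right]
    have hπ' : π ∈ ((N'.hom B).ch p).L 0 := (Bun.mem_hom_lat N' B p π).2 (hπ p)
    have hcomp : ∀ θ : E →ₗ[F] E₂, θ ∈ ((N'.hom B).ch p).L 0 →
        trace F E (ψ ∘ₗ θ) ∈ C'.I κ' p := by
      intro θ hθ
      have h3 := LChain.comp_mem (N'.ch p) (B.ch p) (N'.ch p) hθ (hψ p)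
      have h4 := trace_mem (N'.ch p) h3
      rw [zero_add] at h4
      exact h4
    refine Submodule.sub_mem _ (Submodule.neg_mem _ (hcomp _ ?_)) (hcomp _ ?_)
    · exact hD'.defect_mem (K.loc p) hπ
    · have h5 := LChain.comp_mem (N'.ch p) (B.ch p) (B.ch p) hπ' (hZ0 p)
      rwa [add_zero] at h5

end Vale.Agent.P182.H388
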